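import Vale.Agent.P188.QI
import Vale.Agent.P188.H428.Conc

/-!
The word length of an arbitrary (possibly infinite) generating set.
-/

universe u

namespace Vale.Agent.P188.H615

open Agent.P188.H428

variable {S : Type u} [Group S] {Sg : Set S}

/-- word length -/
noncomputable def wl (Sg : Set S) (x : S) : ℕ := wordDist Sg 1 x

theorem wl_le_of_list {x : S} (l : List S) (hl : ∀ a ∈ l, a ∈ Sg ∨ a⁻¹ ∈ Sg) (hp : l.prod = x) :
    wl Sg x ≤ l.length := Nat.sInf_le ⟨l, rfl, hl, by rw [hp, inv_one, one_mul]⟩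

theorem wl_list (h : Subgroup.closure Sg = ⊤) (x : S) :
    ∃ l : List S, l.length = wl Sg x ∧ (∀ a ∈ l, a ∈ Sg ∨ a⁻¹ ∈ Sg) ∧ l.prod = x := by
  obtain ⟨l, h1, h2, h3⟩ := wordDist_list h 1 x
  exact ⟨l, h1, h2, by rw [h3, inv_one, one_mul]⟩

theorem wl_le_one {x : S} (hx : x ∈ Sg) : wl Sg x ≤ 1 :=
  wl_le_of_list [x] (by simp [hx]) (by simp)

theorem wl_one : wl Sg (1 : S) = 0 := Nat.le_zero.1 (wl_le_of_list [] (by simp) rfl)

theorem wl_mul (h : Subgroup.closure Sg = ⊤) (x y : S) : wl Sg (x * y) ≤ wl Sg x + wl Sg y := by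
  obtain ⟨l, h1, h2, h3⟩ := wl_list h x
  obtain ⟨m, k1, k2, k3⟩ := wl_list h y
  rw [← h1, ← k1, ← List.length_append]
  refine wl_le_of_list _ ?_ (by rw [List.prod_append, h3, k3])
  intro a ha
  rcases List.mem_append.1 ha with ha | ha
  · exact h2 a ha
  · exact k2 a ha

theorem wl_inv_le (h : Subgroup.closure Sg = ⊤) (x : S) : wl Sg x⁻¹ ≤ wl Sg x := by
  obtain ⟨l, h1, h2, h3⟩ := wl_list h x
  have h4 : (l.map fun x => x⁻¹).reverse.length = wl Sg x := by
    rw [List.length_reverse, List.length_map, h1]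
  rw [← h4]
  refine wl_le_of_list _ ?_ (by rw [← List.prod_inv_reverse, h3])
  intro a ha
  rw [List.mem_reverse, List.mem_map] at ha
  obtain ⟨b, hb, rfl⟩ := ha
  rcases h2 b hb with h | h
  · right; rwa [inv_inv]
  · left; exact h

theorem wl_inv (h : Subgroup.closure Sg = ⊤) (x : S) : wl Sg x⁻¹ = wl Sg x := by
  refine le_antisymm (wl_inv_le h x) ?_
  have := wl_inv_le h x⁻¹
  rwa [inv_inv] at this

theorem cut_list (R : ℕ) : ∀ (J : ℕ) (l : List S), (∀ a ∈ l, a ∈ Sg ∨ a⁻¹ ∈ Sg) →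
    l.length ≤ J * R → ∃ g : Fin J → S, (∀ i, wl Sg (g i) ≤ R) ∧ xp J g = l.prod
  | 0, l, _, hl => by
    have : l = [] := by
      rw [zero_mul] at hl
      exact List.length_eq_zero_iff.1 (Nat.le_zero.1 hl)
    subst this
    exact ⟨Fin.elim0, fun i => Fin.elim0 i, rfl⟩
  | J + 1, l, ha, hl => by
    obtain ⟨g, hg1, hg2⟩ := cut_list R J (l.drop R) (fun a h => ha a (List.mem_of_mem_drop h))
      (by rw [List.length_drop]; rw [Nat.succ_mul] at hl; omega)
    refine ⟨Fin.cons (l.take R).prod g, ?_, ?_⟩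
    · intro i
      refine Fin.cases ?_ (fun i => ?_) i
      · rw [Fin.cons_zero]
        refine (wl_le_of_list (l.take R) (fun a h => ha a (List.mem_of_mem_take h)) rfl).trans ?_
        rw [List.length_take]
        exact min_le_left _ _
      · rw [Fin.cons_succ]
        exact hg1 i
    · have h1 : xp (J + 1) (Fin.cons (l.take R).prod g : Fin (J + 1) → S) =
        1 * (l.take R).prod * xp J g := rfl
      rw [h1, hg2, one_mul, ← List.prod_append, List.take_append_drop]

/-- the word length is a length function -/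
theorem isLen_wl (h : Subgroup.closure Sg = ⊤) : IsLen (wl Sg) where
  one := wl_one
  mul := wl_mul h
  inv := wl_inv h
  cut := by
    intro R J _ x hx
    obtain ⟨l, h1, h2, h3⟩ := wl_list h x
    obtain ⟨g, hg1, hg2⟩ := cut_list R J l h2 (by rw [h1]; exact hx)
    exact ⟨g, hg1, by rw [hg2, h3]⟩

end Vale.Agent.P188.H615
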