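import Vale.Agent.P188.H615.Pieces2
import Vale.Agent.P188.H615.WL
import Vale.Agent.P188.H796.Metr

/-!
The metric facts for the word length of `U F`; change of length function.
-/

open Finset Filter Topology Pointwise
open scoped commutatorElement

universe u v

namespace Vale.Agent.P188.H615

open Vale.Agent.P188.H796

section transfer

variable {Γ : Type u} [Group Γ] {N : Subgroup Γ} [hN : N.Normal] {d n : ℕ} {D : MB N d n}

/-- change of length function in `Met` -/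
theorem Met.of_le {l l' : D.S → ℕ} {e : LieIdeal ℝ D.R.V} (h : Met D l e) (hs : SubN l') {C : ℕ}
    (h1 : ∀ s, l s ≤ C * l' s) (h2 : ∀ s, l' s ≤ C * l s) : Met D l' e where
  sub := hs
  inv := h.inv
  up := by
    obtain ⟨C1, hC1, H⟩ := h.up
    refine ⟨C * C1, by positivity, fun X hX => ?_⟩
    have h3 : (l' (D.ex X) : ℝ) ≤ C * l (D.ex X) := by exact_mod_cast h2 _
    refine h3.trans ?_
    rw [mul_assoc]
    exact mul_le_mul_of_nonneg_left (H X hX) (Nat.cast_nonneg C)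
  low := by
    obtain ⟨C1, hC1, H⟩ := h.low
    refine ⟨C1 * (1 + C), by positivity, fun X hX => (H X hX).trans ?_⟩
    rw [mul_assoc]
    refine mul_le_mul_of_nonneg_left ?_ hC1
    have h3 : (l (D.ex X) : ℝ) ≤ C * l' (D.ex X) := by exact_mod_cast h1 _
    have h4 : (0 : ℝ) ≤ l' (D.ex X) := Nat.cast_nonneg _
    have h5 : (0 : ℝ) ≤ C := Nat.cast_nonneg _
    nlinarith
  ad := by
    intro k
    obtain ⟨r, hr, H⟩ := h.ad (C * k)
    exact ⟨r, hr, fun s hs v => H s ((h1 s).trans (Nat.mul_le_mul_left C hs)) v⟩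

/-- change of length function in `Pieces` -/
theorem Pieces.of_le {l l' : D.S → ℕ} {e : LieIdeal ℝ D.R.V} (h : Pieces D l e) {C : ℕ}
    (h1 : ∀ s, l s ≤ C * l' s) (h2 : ∀ s, l' s ≤ C * l s) : Pieces D l' e := by
  obtain ⟨C1, H⟩ := h
  refine ⟨C * C1 * (C + 1), fun ε hε => ?_⟩
  have hC : (0 : ℝ) ≤ C := Nat.cast_nonneg C
  obtain ⟨Cε, H⟩ := H (ε / (C + 1)) (by positivity)
  refine ⟨Cε, fun R => ?_⟩
  obtain ⟨P, hP1, hP2, hP3⟩ := H (C * R)
  refine ⟨P, hP1.trans ?_, fun p hp => (h2 p).trans ?_, fun s hs => ?_⟩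
  · rcases le_or_gt 0 Cε with h0 | h0
    · refine mul_le_mul_of_nonneg_left (Real.exp_le_exp.2 ?_) h0
      push_cast
      rw [div_mul_eq_mul_div, div_le_iff₀ (by positivity)]
      have : (0 : ℝ) ≤ R := Nat.cast_nonneg R
      have h3 : 0 ≤ ε * R := by positivity
      nlinarith
    · exfalso
      have h3 : (0 : ℝ) ≤ P.card := Nat.cast_nonneg _
      have h4 := mul_neg_of_neg_of_pos h0 (Real.exp_pos (ε / (C + 1) * ((C * R : ℕ) : ℝ)))
      linarith
  · have h3 := Nat.mul_le_mul_left C (hP2 p hp)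
    refine h3.trans ?_
    have h4 : C * R + 1 ≤ (C + 1) * (R + 1) := by nlinarith
    calc C * (C1 * (C * R + 1)) ≤ C * (C1 * ((C + 1) * (R + 1))) :=
          Nat.mul_le_mul_left _ (Nat.mul_le_mul_left _ h4)
      _ = C * C1 * (C + 1) * (R + 1) := by ring
  · obtain ⟨p, hp, X, hX, b, hb1, hb2⟩ := hP3 s ((h1 s).trans (Nat.mul_le_mul_left C hs))
    refine ⟨p, hp, X, hX, b, hb1, (h2 b).trans ?_⟩
    calc C * l b ≤ C * C1 := Nat.mul_le_mul_left _ hb2
      _ = C * C1 * 1 := (mul_one _).symm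
      _ ≤ _ := Nat.mul_le_mul_left _ (by omega)

end transfer

section inst

variable {Γ : Type u} [Group Γ] {k : ℕ} {η : Γ →* Multiplicative (Fin k → ℤ)} {d n : ℕ}
  {D : MB η.ker d n}

theorem subN_wl {S : Type*} [Group S] {Sg : Set S} (h : Subgroup.closure Sg = ⊤) :
    SubN (wl Sg) := ⟨wl_mul h, wl_inv h⟩

/-- the word length of `U F` has letters in a finite set and a ball -/
theorem lt_wl {F : Set Γ} (hF : F.Finite) (hgen : Subgroup.closure F = ⊤) :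
    ∃ T : Finset D.S, Lt D (wl (D.U F)) T 1 := by
  classical
  have hfin : (D.inΓ '' F ∪ (D.inΓ '' F)⁻¹).Finite := (hF.image _).union (hF.image _).inv
  refine ⟨hfin.toFinset, subN_wl (D.closure_U hgen), wl_one, fun s => ?_, 1, fun v hv => ?_⟩
  · obtain ⟨L, h1, h2, h3⟩ := wl_list (D.closure_U hgen) s
    refine ⟨L, h1.le, fun x hx => ?_, h3⟩
    rcases D.mem_U (h2 x hx) with ⟨f, hf, rfl⟩ | ⟨v, hv, rfl⟩
    · left
      rw [Set.Finite.mem_toFinset]
      rcases hf with hf | hf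
      · exact Or.inl ⟨f, hf, rfl⟩
      · right
        rw [Set.mem_inv]
        exact ⟨f⁻¹, hf, map_inv _ _⟩
    · exact Or.inr ⟨v, hv, rfl⟩
  · exact wl_le_one (Or.inr ⟨v, hv, rfl⟩)

/-- lower bound -/
theorem low_wl (hη : Function.Surjective η) {F : Set Γ} (hF : F.Finite)
    (hgen : Subgroup.closure F = ⊤) : ∃ C : ℝ, 0 ≤ C ∧ ∀ X : D.R.V,
      Real.log (1 + ‖(X : D.Alg)‖) ≤ C * (1 + wl (D.U F) (D.ex X)) := by
  obtain ⟨C, hC, H⟩ := D.M2 hη F hF hgen
  refine ⟨C + 1, by positivity, fun X => ?_⟩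
  have h1 := H (D.R.Ex X)
  rw [D.R.Lo_Ex] at h1
  have hw : (0 : ℝ) ≤ wl (D.U F) (D.inN (D.R.Ex X)) := Nat.cast_nonneg _
  set w : ℝ := ((wl (D.U F) (D.inN (D.R.Ex X)) : ℕ) : ℝ) with hwd
  have h2 : 1 + ‖(X : D.Alg)‖ ≤ Real.exp ((C + 1) * (1 + w)) := by
    have h3 : (1 : ℝ) ≤ Real.exp (C * (w + 1)) := Real.one_le_exp (by positivity)
    have h4 : (2 : ℝ) ≤ Real.exp (1 + w) := by
      have := Real.add_one_le_exp (1 + w)
      linarith
    have h5 : Real.exp ((C + 1) * (1 + w)) = Real.exp (C * (w + 1)) * Real.exp (1 + w) := by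
      rw [← Real.exp_add]; congr 1; ring
    rw [h5]
    nlinarith
  calc Real.log (1 + ‖(X : D.Alg)‖) ≤ Real.log (Real.exp ((C + 1) * (1 + w))) :=
        Real.log_le_log (by positivity) h2
    _ = (C + 1) * (1 + w) := Real.log_exp _

theorem habel_ker (a b : Γ) : ⁅a, b⁆ ∈ η.ker := comm_mem_ker η a b

/-- **the exponential radical and the metric facts**; the hypothesis `had` is `Metr2` of 796 -/
theorem exists_met (hη : Function.Surjective η) {F : Set Γ} (hF : F.Finite)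
    (hgen : Subgroup.closure F = ⊤)
    (had : ∃ C : ℝ, 0 ≤ C ∧ ∀ (s : D.S) (v : D.R.V),
      ‖((D.Ad s v : D.R.V) : D.Alg)‖ ≤ Real.exp (C * (wl (D.U F) s + 1)) * ‖(v : D.Alg)‖)
    {e : LieIdeal ℝ D.R.V} (hinv : ∀ g, ∀ x ∈ e, D.AdE g x ∈ e) {F' : Set D.S}
    (hPF : ∀ x, x ∈ H269.PF D.AdE F' ↔ x ∈ e) : Met D (wl (D.U F)) e where
  sub := subN_wl (D.closure_U hgen)
  inv := fun s X hX => hinv s X hX
  up := M1 D (subN_wl (D.closure_U hgen)) 1 (fun v hv => wl_le_one (Or.inr ⟨v, hv, rfl⟩)) e F' hPF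
  low := by
    obtain ⟨C, hC, H⟩ := low_wl (D := D) hη hF hgen
    exact ⟨C, hC, fun X _ => H X⟩
  ad := by
    obtain ⟨C, hC, H⟩ := had
    intro j
    refine ⟨Real.exp (C * (j + 1)), Real.one_le_exp (by positivity), fun s hs v => (H s v).trans ?_⟩
    refine mul_le_mul_of_nonneg_right (Real.exp_le_exp.2 ?_) (norm_nonneg _)
    refine mul_le_mul_of_nonneg_left ?_ hC
    have : (wl (D.U F) s : ℝ) ≤ j := by exact_mod_cast hs
    linarith

/-- the decomposition into pieces -/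
theorem exists_pieces {F : Set Γ} (hF : F.Finite)
    (hgen : Subgroup.closure F = ⊤) {e : LieIdeal ℝ D.R.V}
    (hE2 : ∀ (S : Finset D.S) (ε : ℝ), 0 < ε → ∃ q : Seminorm ℝ D.R.V, (∀ x, q x = 0 ↔ x ∈ e) ∧
      ∀ g ∈ S, ∀ x, q (D.AdE g x) ≤ Real.exp ε * q x) : Pieces D (wl (D.U F)) e := by
  obtain ⟨T, hT⟩ := lt_wl (D := D) hF hgen
  exact pieces hT (D.comm_mem habel_ker) hE2

/-- existence of the ideal `e` with all properties -/
theorem exists_radical (hη : Function.Surjective η) {F : Set Γ} (hF : F.Finite)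
    (hgen : Subgroup.closure F = ⊤)
    (had : ∃ C : ℝ, 0 ≤ C ∧ ∀ (s : D.S) (v : D.R.V),
      ‖((D.Ad s v : D.R.V) : D.Alg)‖ ≤ Real.exp (C * (wl (D.U F) s + 1)) * ‖(v : D.Alg)‖) :
    ∃ e : LieIdeal ℝ D.R.V, Met D (wl (D.U F)) e ∧ Pieces D (wl (D.U F)) e ∧
      (∀ g, ∀ x ∈ H269.Cn (D.AdE g), x ∈ e) ∧
      (∃ t : D.S, H269.Covers D.AdE ({t, t⁻¹} : Set D.S)) ∧
      ∀ F' : Set D.S, H269.Covers D.AdE F' → ∀ x, x ∈ H269.PF D.AdE F' ↔ x ∈ e := by
  obtain ⟨e, h1, h2, ⟨t, ht⟩, h4, h5⟩ := H269.LRep.main (D.lrep habel_ker)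
  exact ⟨e, exists_met hη hF hgen had h1 (h4 _ ht), exists_pieces hF hgen h5, h2, ⟨t, ht⟩, h4⟩

end inst

end Vale.Agent.P188.H615
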