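import Vale.Agent.P188.H615.GeoL
import Vale.Agent.P188.H131.GeoNu
import Vale.Agent.P188.H532.Geo

/-!
Fields of the geometric interface `H532.Geo` (version 2) for `E = N_R = ker η`.
-/

open Finset Filter Topology MeasureTheory
open scoped Pointwise

namespace Vale.Agent.P188.H615

open Vale.Agent.P188.H796 Vale.Agent.P188.H131 Vale.Agent.P188.Z1
open Vale.P188.H532 (sh sh2 rn ob ls)
open Vale.Agent.P188.H329 (InP prS)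

theorem erf_ge {C : ℝ} (hC : 0 ≤ C) (r : ℝ) : C ≤ erf C r := by
  have := log_max_nonneg r
  rw [erf]
  nlinarith

section gen

variable {S : Type} [Group S] [MeasurableSpace S] {Γ : Type} [Group Γ]
  {V : Type} [AddCommGroup V] [Module ℝ V] {k : ℕ} {M : RModel S Γ V k} {J : Type}
  (Rd : RayD M J) (B : M.NatBox)

/-- the boxes in `N_R` -/
def RayD.NE (ρ : Option J → ℝ) : Set M.NR := Subtype.val ⁻¹' (Rd.Nb B ρ)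

theorem RayD.mem_NE {ρ : Option J → ℝ} {x : M.NR} : x ∈ Rd.NE B ρ ↔ (x : S) ∈ Rd.Nb B ρ := Iff.rfl

/-- the letters in `N_R` -/
noncomputable def sN (M : RModel S Γ V k) (a : M.ι) (x : ℝ) : M.NR :=
  ⟨M.ex (x • M.X a), M.mem_NR.2 (M.η_ex _)⟩

theorem coe_sN (a : M.ι) (x : ℝ) : ((sN M a x : M.NR) : S) = M.ex (x • M.X a) := rfl

theorem coe_ls (ρ : Option J → ℝ) (a : M.ι) (x : ℝ) :
    ((ls Rd.ray Rd.τ (sN M) ρ a x : M.NR) : S) = M.ex ((Rd.sz ρ a * x) • M.X a) := rfl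

theorem RayD.NE_meas (ρ : Option J → ℝ) : MeasurableSet (Rd.NE B ρ) :=
  measurable_subtype_coe (Rd.Nb_meas B ρ)

theorem RayD.NE_mono (ρ ρ' : Option J → ℝ) (h : ∀ j, ρ j ≤ ρ' j) : Rd.NE B ρ ⊆ Rd.NE B ρ' :=
  fun _ hx => Rd.Nb_mono B h hx

theorem RayD.NE_one (ρ : Option J → ℝ) : (1 : M.NR) ∈ Rd.NE B ρ := Rd.Nb_one B ρ

theorem RayD.NE_mul : ∃ C0 : ℝ, 0 ≤ C0 ∧ ∀ C : ℝ, C0 ≤ C → ∀ ρ : Option J → ℝ,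
    ∀ x ∈ Rd.NE B ρ, ∀ y ∈ Rd.NE B ρ, x * y ∈ Rd.NE B (sh ρ C) := by
  obtain ⟨C0, h0, H⟩ := Rd.Nb_mul B
  exact ⟨C0, h0, fun C hC ρ x hx y hy => H C hC ρ _ hx _ hy⟩

theorem RayD.NE_inv' {ρ : Option J → ℝ} {x : M.NR} (hx : x ∈ Rd.NE B ρ) : x⁻¹ ∈ Rd.NE B ρ :=
  Rd.Nb_inv B hx

theorem RayD.NE_inv {C : ℝ} (hC : 0 ≤ C) (ρ : Option J → ℝ) : ∀ x ∈ Rd.NE B ρ,
    x⁻¹ ∈ Rd.NE B (sh ρ C) := fun x hx =>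
  Rd.NE_mono B _ _ (fun j => by change ρ j ≤ ρ j + C; linarith) (Rd.NE_inv' B hx)

theorem RayD.nu_NE (ρ : Option J → ℝ) : M.nu (Rd.NE B ρ) = M.μ (Rd.Nb B ρ) :=
  M.nu_preimage fun x hx => B.sub _ x hx

theorem RayD.nu_NE_pos (ρ : Option J → ℝ) : 0 < M.nu (Rd.NE B ρ) := by
  rw [Rd.nu_NE]; exact Rd.Nb_pos B ρ

theorem RayD.nu_NE_top (ρ : Option J → ℝ) : M.nu (Rd.NE B ρ) < ⊤ := by
  rw [Rd.nu_NE]; exact Rd.Nb_top B ρ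

theorem RayD.nu_NE_dbl : ∃ C0 : ℝ, 0 ≤ C0 ∧ ∀ C : ℝ, C0 ≤ C → ∀ ρ : Option J → ℝ, ∀ r : ℝ,
    0 ≤ r → M.nu (Rd.NE B (sh ρ r)) ≤
      ENNReal.ofReal (Real.exp (C * (1 + r))) * M.nu (Rd.NE B ρ) := by
  obtain ⟨C0, h0, H⟩ := Rd.Nb_dbl B
  refine ⟨C0, h0, fun C hC ρ r hr => ?_⟩
  rw [Rd.nu_NE, Rd.nu_NE]
  exact H C hC ρ r hr

theorem RayD.NE_bdd (R : ℝ) : ∃ B' : ℝ, ∀ ρ : Option J → ℝ, (∀ j, ρ j ≤ R) →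
    ∀ n ∈ Rd.NE B ρ, (M.l (M.NR.subtype n) : ℝ) ≤ B' := by
  obtain ⟨B', H⟩ := Rd.Nb_bdd B R
  exact ⟨B', fun ρ hρ n hn => H ρ hρ _ hn⟩

theorem RayD.len_NE : ∃ C0 : ℝ, 0 ≤ C0 ∧ ∀ C : ℝ, C0 ≤ C → ∀ (e : M.NR) (r : ℝ),
    (M.l (M.NR.subtype e) : ℝ) ≤ r → e ∈ Rd.NE B (rn (C * (r + 1)) (erf C r)) := by
  obtain ⟨C0, h0, H⟩ := Rd.len_Nb2 B
  exact ⟨C0, h0, fun C hC e r hr => H C hC _ r (M.mem_NR.1 e.2) hr⟩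

theorem RayD.NE_ls (ρ : Option J → ℝ) (a : M.ι) (x : ℝ) (hx : |x| ≤ 1) :
    ls Rd.ray Rd.τ (sN M) ρ a x ∈ Rd.NE B ρ := Rd.Nb_ls B ρ a hx

theorem RayD.NE_gen {C : ℝ} (hC : B.C ≤ C) (ρ : Option J → ℝ) : ∀ y ∈ Rd.NE B ρ,
    InP (ls Rd.ray Rd.τ (sN M) ρ) B.m C 1 y := by
  intro y hy
  obtain ⟨x, hx, h⟩ := Rd.Nb_gen B ρ hy
  refine ⟨B.J, x, fun t => (hx t).trans hC, ?_⟩
  rw [one_mul]
  apply Subtype.ext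
  have e : ((prS (ls Rd.ray Rd.τ (sN M) ρ) B.J x : M.NR) : S) =
      (List.ofFn fun t => M.ex ((Rd.sz ρ (B.J t) * x t) • M.X (B.J t))).prod := by
    rw [prS, ← Subgroup.subtype_apply, map_list_prod, List.map_ofFn]
    rfl
  rw [e]
  exact h

end gen

section conjs

variable {Γ : Type} [Group Γ] {k : ℕ} {η : Γ →* Multiplicative (Fin k → ℤ)} {d n : ℕ}
  {D : MB η.ker d n} {M : RModel D.S Γ D.R.V k} {J : Type} (Rd : RayD M J) {B : M.NatBox}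
  (hB : B.Bx = NBx D M.X)

include hB in
theorem RayD.cj_NE (h : NatHyp M) : ∃ C0 : ℝ, 0 ≤ C0 ∧ ∀ C : ℝ, C0 ≤ C → ∀ (g : D.S) (r : ℝ),
    (M.l g : ℝ) ≤ r → ∀ ρ : Option J → ℝ, (∀ j, 0 ≤ ρ j) → ∀ n ∈ Rd.NE B ρ,
      M.cj g n ∈ Rd.NE B (sh2 ρ (C * (r + 1)) (erf C r)) := by
  obtain ⟨C0, h0, H⟩ := Rd.cj_Nb2 hB h
  refine ⟨C0, h0, fun C hC g r hr ρ hρ n hn => ?_⟩
  rw [Rd.mem_NE, M.coe_cj]
  exact H C hC g r hr ρ hρ _ hn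

include hB in
theorem RayD.cj_CaE (h : NatHyp M) : ∃ C0 : ℝ, 0 ≤ C0 ∧ ∀ C : ℝ, C0 ≤ C →
    ∀ κ ∈ Set.range M.τ, ∀ ρ ρ' : Option J → ℝ,
    (∀ j, ρ j + ob (fun j => ((Rd.b j : Z1.Ht k →L[ℝ] ℝ) : Z1.Ht k →ₗ[ℝ] ℝ)) j (M.θ κ) +
      erf C ‖M.θ κ‖ ≤ ρ' j) → ∀ n ∈ Rd.NE B ρ, M.cj κ n ∈ Rd.NE B ρ' := by
  obtain ⟨C0, h0, H⟩ := Rd.cj_Ca h hB
  refine ⟨C0, h0, fun C hC => ?_⟩
  rintro _ ⟨w, rfl⟩ ρ ρ' hρ n hn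
  rw [Rd.mem_NE, M.coe_cj]
  refine H C hC w ρ ρ' ?_ (fun j => ?_) _ hn
  · have := hρ none
    rw [erf_of_nonneg (norm_nonneg _)] at this
    have h0 : ob (fun j => ((Rd.b j : Z1.Ht k →L[ℝ] ℝ) : Z1.Ht k →ₗ[ℝ] ℝ)) none
      (M.θ (M.τ w)) = 0 := rfl
    rw [h0, add_zero] at this
    exact this
  · have := hρ (some j)
    rw [erf_of_nonneg (norm_nonneg _)] at this
    exact this

include hB in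
theorem RayD.conj_NE (h : NatHyp M) : ∃ C0 : ℝ, 0 ≤ C0 ∧ ∀ C : ℝ, C0 ≤ C →
    ∀ (ρ : Option J → ℝ) (lam : ℝ), 0 ≤ lam → ∀ g ∈ Rd.NE B (sh ρ lam),
    ∀ (a : M.ι) (x : ℝ), |x| ≤ 1 →
      g * ls Rd.ray Rd.τ (sN M) (sh ρ (-(C * (lam + 1)))) a x * g⁻¹ ∈ Rd.NE B ρ := by
  obtain ⟨C0, h0, H⟩ := Rd.conj_Nb hB h
  exact ⟨C0, h0, fun C hC ρ lam hlam g hg a x hx => H C hC ρ lam hlam _ hg a x hx⟩

end conjs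

end Vale.Agent.P188.H615
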