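import Vale.Agent.P188.H615.GeoC

/-!
The Cartan section and the sublinear error function: fields of the geometric interface.
-/

open Finset Filter Topology MeasureTheory
open scoped Pointwise

namespace Vale.Agent.P188.H615

open Vale.Agent.P188.Z1

/-- the sublinear error function -/
noncomputable def erf (C r : ℝ) : ℝ := C * (1 + Real.log (1 + max r 0))

theorem erf_of_nonneg {C r : ℝ} (hr : 0 ≤ r) : erf C r = C * (1 + Real.log (1 + r)) := by
  rw [erf, max_eq_left hr]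

theorem log_max_nonneg (r : ℝ) : 0 ≤ Real.log (1 + max r 0) :=
  Real.log_nonneg (by linarith [le_max_right r 0])

theorem erf_nonneg {C : ℝ} (hC : 0 ≤ C) (r : ℝ) : 0 ≤ erf C r :=
  mul_nonneg hC (by linarith [log_max_nonneg r])

theorem erf_mono {C : ℝ} (hC : 0 ≤ C) : Monotone (erf C) := by
  intro r r' h
  refine mul_le_mul_of_nonneg_left (add_le_add le_rfl ?_) hC
  have h0 := le_max_right r 0
  exact Real.log_le_log (by linarith) (add_le_add le_rfl (max_le_max h le_rfl))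

theorem erf_mono_C {C C' : ℝ} (h : C ≤ C') (r : ℝ) : erf C r ≤ erf C' r :=
  mul_le_mul_of_nonneg_right h (by linarith [log_max_nonneg r])

theorem log_le_lin {ε : ℝ} (hε : 0 < ε) : ∃ K : ℝ, ∀ r : ℝ, 0 ≤ r →
    Real.log (1 + r) ≤ ε * r + K := by
  refine ⟨ε - 1 - Real.log ε, fun r hr => ?_⟩
  have h1 := Real.log_le_sub_one_of_pos (show 0 < ε * (1 + r) by positivity)
  rw [Real.log_mul hε.ne' (by positivity)] at h1
  linarith

theorem erf_sub {C : ℝ} (hC : 0 ≤ C) : ∀ ε : ℝ, 0 < ε → ∃ K : ℝ, ∀ r : ℝ, 0 ≤ r →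
    erf C r ≤ ε * r + K := by
  intro ε hε
  obtain ⟨K, hK⟩ := log_le_lin (show 0 < ε / (C + 1) by positivity)
  refine ⟨C * (1 + |K|), fun r hr => ?_⟩
  rw [erf_of_nonneg hr]
  have h1 := hK r hr
  have h2 : C * (ε / (C + 1) * r) ≤ ε * r := by
    have h3 : C / (C + 1) ≤ 1 := by rw [div_le_one (by positivity)]; linarith
    calc C * (ε / (C + 1) * r) = (C / (C + 1)) * (ε * r) := by ring
      _ ≤ 1 * (ε * r) := mul_le_mul_of_nonneg_right h3 (by positivity)
      _ = _ := one_mul _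
  have h4 : C * (1 + Real.log (1 + r)) ≤ C * (1 + (ε / (C + 1) * r + |K|)) :=
    mul_le_mul_of_nonneg_left (by linarith [le_abs_self K]) hC
  have h5 : C * (1 + (ε / (C + 1) * r + |K|)) = C * (1 + |K|) + C * (ε / (C + 1) * r) := by ring
  linarith

section cartan

variable {S : Type} [Group S] [MeasurableSpace S] {Γ : Type} [Group Γ]
  {V : Type} [AddCommGroup V] [Module ℝ V] {k : ℕ} (M : RModel S Γ V k)

/-- field `Ca_len` -/
theorem Ca_len : ∃ C0 : ℝ, 0 ≤ C0 ∧ ∀ C : ℝ, C0 ≤ C → ∀ κ ∈ Set.range M.τ,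
    (M.l κ : ℝ) ≤ C * (‖M.θ κ‖ + 1) := by
  obtain ⟨C1, hC1, H⟩ := M.l_τ
  refine ⟨C1, by linarith, fun C hC => ?_⟩
  rintro _ ⟨w, rfl⟩
  have h1 : ∀ i, |(w i : ℝ)| ≤ ‖M.θ (M.τ w)‖ := by
    intro i
    have := norm_le_pi_norm (fun i => (w i : ℝ)) i
    rw [Real.norm_eq_abs] at this
    rw [M.θ_τ]
    exact this
  have h2 := H w _ (norm_nonneg _) h1
  refine h2.trans ?_
  rw [add_comm 1]
  exact mul_le_mul_of_nonneg_right hC (by positivity)

/-- field `Ca_fin` -/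
theorem Ca_fin : ∃ C0 : ℝ, 0 ≤ C0 ∧ ∀ C : ℝ, C0 ≤ C → ∀ r : ℝ, 0 ≤ r → ∃ F : Finset S,
    (F.card : ℝ) ≤ Real.exp (erf C r) ∧ (∀ κ ∈ F, κ ∈ Set.range M.τ) ∧
      ∀ κ ∈ Set.range M.τ, ‖M.θ κ‖ ≤ r → κ ∈ F := by
  classical
  refine ⟨2 * k, by positivity, fun C hC r hr => ?_⟩
  let bx : Finset (Fin k → ℤ) := Fintype.piFinset fun _ => Finset.Icc (-⌊r⌋) ⌊r⌋
  have hfl : 0 ≤ ⌊r⌋ := Int.floor_nonneg.2 hr
  refine ⟨bx.image M.τ, ?_, ?_, ?_⟩
  · have h1 : ((bx.image M.τ).card : ℝ) ≤ (2 * r + 1) ^ k := by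
      have h2 : (bx.image M.τ).card ≤ (2 * ⌊r⌋ + 1).toNat ^ k := by
        refine card_image_le.trans (le_of_eq ?_)
        rw [Fintype.card_piFinset_const, Int.card_Icc]
        congr 2; ring
      have h3 : ((2 * ⌊r⌋ + 1).toNat : ℝ) ≤ 2 * r + 1 := by
        have h4 : (((2 * ⌊r⌋ + 1).toNat : ℤ) : ℝ) = ((2 * ⌊r⌋ + 1 : ℤ) : ℝ) := by
          rw [Int.toNat_of_nonneg (by omega)]
        have h5 := Int.floor_le r
        rw [Int.cast_natCast] at h4
        rw [h4]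
        push_cast
        linarith
      calc ((bx.image M.τ).card : ℝ) ≤ (((2 * ⌊r⌋ + 1).toNat ^ k : ℕ) : ℝ) := by exact_mod_cast h2
        _ = ((2 * ⌊r⌋ + 1).toNat : ℝ) ^ k := by push_cast; rfl
        _ ≤ _ := pow_le_pow_left₀ (Nat.cast_nonneg _) h3 k
    refine h1.trans ?_
    have h6 : (2 * r + 1) ^ k ≤ ((1 + r) ^ 2) ^ k :=
      pow_le_pow_left₀ (by positivity) (by nlinarith) k
    refine h6.trans ?_
    have hl : 0 ≤ Real.log (1 + r) := Real.log_nonneg (by linarith)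
    have h7 : ((1 + r) ^ 2) ^ k = Real.exp (2 * k * Real.log (1 + r)) := by
      rw [← pow_mul]
      have h8 : (2 * (k : ℝ)) * Real.log (1 + r) = ((2 * k : ℕ) : ℝ) * Real.log (1 + r) := by
        push_cast; ring
      rw [h8, Real.exp_nat_mul, Real.exp_log (by linarith)]
    rw [h7, erf_of_nonneg hr, Real.exp_le_exp]
    have h9 : (2 * (k : ℝ)) * Real.log (1 + r) ≤ C * Real.log (1 + r) :=
      mul_le_mul_of_nonneg_right hC hl
    have h10 : 0 ≤ C := le_trans (by positivity) hC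
    linarith
  · intro κ hκ
    obtain ⟨w, _, rfl⟩ := Finset.mem_image.1 hκ
    exact ⟨w, rfl⟩
  · rintro _ ⟨w, rfl⟩ hw
    refine Finset.mem_image.2 ⟨w, ?_, rfl⟩
    rw [Fintype.mem_piFinset]
    intro i
    have h1 : |(w i : ℝ)| ≤ r := by
      have := norm_le_pi_norm (M.θ (M.τ w)) i
      rw [M.θ_τ, Real.norm_eq_abs] at this
      rw [M.θ_τ] at hw
      exact this.trans hw
    have h2 := abs_le.1 h1
    rw [Finset.mem_Icc]
    constructor
    · have h3 : ((-w i : ℤ) : ℝ) ≤ r := by push_cast; linarith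
      have := Int.le_floor.2 h3
      omega
    · exact Int.le_floor.2 h2.2

end cartan

end Vale.Agent.P188.H615
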