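import Vale.Agent.P188.H8.GeoP
import Vale.Agent.P188.H615.GeoK
import Vale.Agent.P188.H650.GeoY

/-!
Merging of the pure elements and the pure neutral elements: fields `U_merge` and `Y_U` of the
geometric interface of route B.
-/

open Finset Filter Topology MeasureTheory
open scoped Pointwise

namespace Vale.Agent.P188.H615

open Vale.Agent.P188.H796 Vale.Agent.P188.H131 Vale.Agent.P188.Z1 Vale.Agent.P188.H8
open Vale.P188.H532 (exto)

section geou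

variable {Γ : Type} [Group Γ] {k : ℕ} {η : Γ →* Multiplicative (Fin k → ℤ)} {d n : ℕ}
  {D : MB η.ker d n}

/-- norms of the elements of the box -/
theorem nm_nb_LB {ι : Type} [Fintype ι] (X : ι → D.R.V) (r : ι → ℝ) : ∃ K : ℝ, 1 ≤ K ∧
    ∀ v ∈ nb (LB X r), D.nm v ≤ K := by
  obtain ⟨K, hK⟩ := (isCompact_nb X r).isBounded.exists_norm_le
  refine ⟨max K 1, le_max_right _ _, fun v hv => ?_⟩
  rw [D.nm_eq]
  exact (hK v hv).trans (le_max_left _ _)

variable (M : RModel D.S Γ D.R.V k)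

/-- Cartan words act on the boxes of letters -/
theorem conjL (h : NatHyp M) : ∃ C : ℝ, 1 ≤ C ∧ ∀ m, ∀ c ∈ M.CB m, ∀ r : M.ι → ℝ,
    (∀ i, 0 ≤ r i) → (∀ i j, M.wt j = M.wt i → r i ≤ r j) → ∀ v ∈ LB M.X r,
      D.AdE c v ∈ LB M.X (fun i => C * (1 + m) ^ M.deg * Real.exp (M.wt i (M.θ c)) * r i) := by
  classical
  have hco : ∀ i : M.ι, ∃ C : ℝ, 0 ≤ C ∧ ∀ v ∈ M.Vw (M.wt i), ∃ a : M.ι → ℝ,
      v = ∑ j, a j • M.X j ∧ (∀ j, M.wt j ≠ M.wt i → a j = 0) ∧ ∀ j, |a j| ≤ C * D.nm v := by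
    intro i
    exact span_coord M.X (fun j => M.wt j = M.wt i) (M.Vw (M.wt i)) (h.span _ (M.wt_mem i))
  choose Ci hCi0 hCi using hco
  have hS0 : 0 ≤ ∑ i, Ci i := sum_nonneg fun i _ => hCi0 i
  have hC00 : 0 ≤ M.C0 := by linarith [M.one_le_C0]
  refine ⟨max ((∑ i, Ci i) * M.C0 * Fintype.card M.ι) 1, le_max_right _ _,
    fun m c hc r hpos hr => ?_⟩
  set K : ℝ := (∑ i, Ci i) * M.C0 * Fintype.card M.ι with hK
  refine map_LB M.X (D.AdE c) fun i => ?_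
  have h1 : M.Ad c (M.X i) ∈ M.Vw (M.wt i) := M.C_inv m c hc _ _ (M.X_mem i)
  have hWt : M.wt i ∈ M.Wt := by
    rcases M.wt_mem i with h | h
    · exact M.Φ_sub h
    · rw [h]; exact M.zero_mem_Wt
  have h2 := M.C_le m c hc _ hWt _ (M.X_mem i)
  rw [h.hAd] at h1 h2
  rw [h.hnm, h.hnm] at h2
  obtain ⟨a, ha1, ha2, ha3⟩ := hCi i _ h1
  have hX1 : D.nm (M.X i) ≤ 1 := by rw [← h.hnm]; exact M.X_le i
  refine ⟨fun j => r i * a j, ?_, fun j => ?_⟩
  · rw [map_smul]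
    conv_lhs => rw [ha1]
    rw [smul_sum]
    exact sum_congr rfl fun j _ => by rw [smul_smul]
  · by_cases hj : M.wt j = M.wt i
    · have hrij : r i ≤ r j := hr i j hj
      have hri := hpos i
      have hrj := hpos j
      set E : ℝ := Real.exp (M.wt i (M.θ c)) with hE
      have hE0 : 0 < E := Real.exp_pos _
      have h3 : |a j| ≤ (∑ i, Ci i) * (M.C0 * (1 + m) ^ M.deg * E) := by
        refine (ha3 j).trans ?_
        refine mul_le_mul (single_le_sum (fun i _ => hCi0 i) (mem_univ i)) ?_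
          (apply_nonneg _ _) hS0
        refine h2.trans ?_
        have : M.C0 * (1 + (m : ℝ)) ^ M.deg * E * D.nm (M.X i) ≤
            M.C0 * (1 + (m : ℝ)) ^ M.deg * E * 1 :=
          mul_le_mul_of_nonneg_left hX1 (by positivity)
        rw [mul_one] at this
        exact this
      rw [abs_mul, abs_of_nonneg hri, hj]
      have h4 : r i * |a j| ≤ r j * ((∑ i, Ci i) * (M.C0 * (1 + m) ^ M.deg * E)) :=
        mul_le_mul hrij h3 (abs_nonneg _) hrj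
      calc r i * |a j| * Fintype.card M.ι
          ≤ r j * ((∑ i, Ci i) * (M.C0 * (1 + m) ^ M.deg * E)) * Fintype.card M.ι :=
            mul_le_mul_of_nonneg_right h4 (Nat.cast_nonneg _)
        _ = K * ((1 + m) ^ M.deg * E * r j) := by rw [hK]; ring
        _ ≤ max K 1 * ((1 + m) ^ M.deg * E * r j) :=
            mul_le_mul_of_nonneg_right (le_max_left _ _) (by positivity)
        _ = _ := by ring
    · have h3 : r i * a j = 0 := by rw [ha2 j hj, mul_zero]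
      simp only [h3, abs_zero, zero_mul]
      have := hpos j
      positivity

variable {M} {J : Type} [DecidableEq J] (Rd : RayD M J)

theorem so_mono_wt (o : Option J) (μ r : ℝ) {p : M.ι → Prop}
    (hp : ∀ i j, M.wt j = M.wt i → p i → p j) (i j : M.ι) (hij : M.wt j = M.wt i) :
    on p (so Rd o μ r) i ≤ on p (so Rd o μ r) j := by
  unfold on
  by_cases h : p i
  · rw [if_pos h, if_pos (hp i j hij h)]
    exact (Rd.sz_eq_of_wt _ hij).ge
  · rw [if_neg h]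
    split_ifs
    · exact (so_pos _ _ _ _).le
    · exact le_rfl

/-- all the letters of a pure element of the ray `i` -/
theorem mrg_all {K : ℝ} (hK : 1 ≤ K) {m : ℕ} {c : D.S}
    (HK : ∀ r : M.ι → ℝ, (∀ i, 0 ≤ r i) → (∀ i j, M.wt j = M.wt i → r i ≤ r j) →
      ∀ v ∈ LB M.X r,
        D.AdE c v ∈ LB M.X (fun i => K * (1 + m) ^ M.deg * Real.exp (M.wt i (M.θ c)) * r i))
    {i : J} {μ r : ℝ} (hr : 0 ≤ r) (hμ : μ + Rd.b i (M.θ c) ≤ 0) :
    ∀ v ∈ LB M.X (on (po Rd (some i)) (so Rd (some i) μ r)),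
      D.AdE c v ∈ (K * (1 + m) ^ M.deg * Real.exp r) • LB M.X (fun _ => (1 : ℝ)) := by
  intro v hv
  have hm1 : (0 : ℝ) ≤ m := Nat.cast_nonneg m
  have h1 := HK _ (on_nonneg fun a => (so_pos (Rd := Rd) _ _ _ a).le) (so_mono_wt Rd _ μ r (by
    intro a b hab ha
    unfold po at ha ⊢
    rwa [(Rd.eq_of_wt hab).1])) v hv
  rw [smul_LB]
  refine LB_mono _ (fun a => ?_) (fun a => ?_) h1
  · have := on_nonneg (p := po Rd (some i))
      (fun a => (so_pos (Rd := Rd) (some i) μ r a).le) a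
    positivity
  · rw [mul_one]
    unfold on
    split_ifs with ha
    · rw [mul_assoc]
      refine mul_le_mul_of_nonneg_left ?_ (by positivity)
      unfold so RayD.sz
      rw [← Real.exp_add, Real.exp_le_exp]
      rcases ha with ha | ha
      · rw [Rd.wt_some a i ha, ha]
        simp only [exto, _root_.smul_apply, smul_eq_mul, if_true]
        have h3 : Rd.τ a * (Rd.b i (M.θ c) + μ) ≤ 0 :=
          mul_nonpos_of_nonneg_of_nonpos (Rd.τ_pos a).le (by linarith)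
        linarith
      · rw [Rd.wt_none a ha, ha, Rd.τ_none a ha]
        simp [exto]
    · rw [mul_zero]
      positivity

/-- the letters of the ray `i` -/
theorem mrg_one {K t0 : ℝ} (hK : 1 ≤ K) (hτ : ∀ a, t0 ≤ Rd.τ a) {m : ℕ} {c : D.S}
    (HK : ∀ r : M.ι → ℝ, (∀ i, 0 ≤ r i) → (∀ i j, M.wt j = M.wt i → r i ≤ r j) →
      ∀ v ∈ LB M.X r,
        D.AdE c v ∈ LB M.X (fun i => K * (1 + m) ^ M.deg * Real.exp (M.wt i (M.θ c)) * r i))
    {i : J} {μ r x : ℝ} (hx : 0 ≤ x) (hμ : μ + x + Rd.b i (M.θ c) ≤ 0) :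
    ∀ v ∈ LB M.X (on (fun a => Rd.ray a = some i) (so Rd (some i) μ r)),
      D.AdE c v ∈ (K * (1 + m) ^ M.deg * Real.exp (-(t0 * x))) • LB M.X (fun _ => (1 : ℝ)) := by
  intro v hv
  have hm1 : (0 : ℝ) ≤ m := Nat.cast_nonneg m
  have h1 := HK _ (on_nonneg fun a => (so_pos (Rd := Rd) _ _ _ a).le) (so_mono_wt Rd _ μ r (by
    intro a b hab ha
    rwa [(Rd.eq_of_wt hab).1])) v hv
  rw [smul_LB]
  refine LB_mono _ (fun a => ?_) (fun a => ?_) h1
  · have := on_nonneg (p := fun a => Rd.ray a = some i)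
      (fun a => (so_pos (Rd := Rd) (some i) μ r a).le) a
    positivity
  · rw [mul_one]
    unfold on
    split_ifs with ha
    · rw [mul_assoc]
      refine mul_le_mul_of_nonneg_left ?_ (by positivity)
      unfold so RayD.sz
      rw [← Real.exp_add, Real.exp_le_exp, Rd.wt_some a i ha, ha]
      simp only [exto, _root_.smul_apply, smul_eq_mul, if_true]
      have h3 : Rd.τ a * (Rd.b i (M.θ c) + μ) ≤ Rd.τ a * (-x) :=
        mul_le_mul_of_nonneg_left (by linarith) (Rd.τ_pos a).le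
      have h4 : t0 * x ≤ Rd.τ a * x := mul_le_mul_of_nonneg_right (hτ a) hx
      linarith
    · rw [mul_zero]
      positivity

/-- the pure elements of a ray are in the exponential radical -/
theorem mrg_mem (hid : ∀ x : D.R.V, ∀ y ∈ M.e, ⁅x, y⁆ ∈ M.e) {G : Set D.R.V} {i : J} {μ r : ℝ}
    {v : D.R.V} (hv : v ∈ mnb G (LB M.X (on (fun a => Rd.ray a = some i) (so Rd (some i) μ r)))) :
    v ∈ M.e := by
  refine mnb_le_ideal M.e hid ?_ v hv
  rintro _ ⟨y, hy, rfl⟩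
  refine M.e.sum_mem fun a _ => M.e.smul_mem _ ?_
  unfold on
  split_ifs with ha
  · refine M.e.smul_mem _ (M.Vw_e _ ?_ (M.X_mem a))
    rw [Rd.wt_some a i ha]
    exact smul_ne_zero (Rd.τ_pos a).ne' (Rd.b_ne i)
  · rw [zero_smul]; exact M.e.zero_mem

theorem AdE_mem_e (h : NatHyp M) {c : D.S} {v : D.R.V} (hv : v ∈ M.e) : D.AdE c v ∈ M.e := by
  have h6 : M.ex (M.Ad c v) ∈ M.E := by
    rw [M.ex_Ad]
    exact M.E_normal.conj_mem _ ((M.mem_E _).2 ⟨v, hv, rfl⟩) c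
  obtain ⟨u, hu, hu2⟩ := (M.mem_E _).1 h6
  have h7 := M.ex_inj hu2
  rw [← h.hAd, ← h7]
  exact hu

/-- norms after merging -/
theorem mrg_nm {K K2 t0 : ℝ} (hK : 1 ≤ K) (ht0 : 0 < t0) (hτ : ∀ a, t0 ≤ Rd.τ a) {m : ℕ}
    {c : D.S} (H2 : ∀ v ∈ nb (LB M.X fun _ => (1 : ℝ)), D.nm v ≤ K2)
    (HK : ∀ r : M.ι → ℝ, (∀ i, 0 ≤ r i) → (∀ i j, M.wt j = M.wt i → r i ≤ r j) →
      ∀ v ∈ LB M.X r,
        D.AdE c v ∈ LB M.X (fun i => K * (1 + m) ^ M.deg * Real.exp (M.wt i (M.θ c)) * r i))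
    {i : J} {μ r C : ℝ} (hr : 0 ≤ r) (hC : D.R.m / t0 ≤ C)
    (hμ : μ + C * r + Rd.b i (M.θ c) ≤ 0) {v : D.R.V}
    (hv : v ∈ mnb (LB M.X (on (po Rd (some i)) (so Rd (some i) μ r)))
      (LB M.X (on (fun a => Rd.ray a = some i) (so Rd (some i) μ r)))) :
    D.nm (D.AdE c v) ≤ (K * (1 + m) ^ M.deg) ^ (D.R.m + 1) * K2 := by
  have hm1 : (0 : ℝ) ≤ m := Nat.cast_nonneg m
  have hC0 : 0 ≤ C := le_trans (by positivity) hC
  have hP1 : 1 ≤ K * (1 + (m : ℝ)) ^ M.deg :=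
    one_le_mul_of_one_le_of_one_le hK (one_le_pow₀ (by linarith))
  have hw := mnb_map (D.AdE c) (D.Ad_lie c)
    (mrg_all Rd hK HK hr (by linarith [mul_nonneg hC0 hr]))
    (mrg_one Rd hK hτ HK (mul_nonneg hC0 hr) hμ) v hv
  set P : ℝ := K * (1 + (m : ℝ)) ^ M.deg with hP
  have hPe : 1 ≤ P * Real.exp r := one_le_mul_of_one_le_of_one_le hP1 (Real.one_le_exp hr)
  obtain ⟨u, hu, hu2⟩ := mnb_sub_smul (csy_LB M.X (fun _ => (1 : ℝ))) hPe
    (show 0 ≤ P * Real.exp (-(t0 * (C * r))) by positivity) le_rfl le_rfl hw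
  simp only at hu2
  rw [← hu2, map_smul_eq_mul, Real.norm_eq_abs, abs_of_nonneg (by positivity)]
  refine mul_le_mul ?_ (H2 u hu) (apply_nonneg _ _) (by positivity)
  rw [mul_pow, ← Real.exp_nat_mul]
  have h5 : Real.exp (-(t0 * (C * r))) * Real.exp (D.R.m * r) ≤ 1 := by
    rw [← Real.exp_add, Real.exp_le_one_iff]
    rw [div_le_iff₀ ht0] at hC
    have := mul_le_mul_of_nonneg_right hC hr
    linarith
  calc P * Real.exp (-(t0 * (C * r))) * (P ^ D.R.m * Real.exp (D.R.m * r))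
      = P ^ (D.R.m + 1) * (Real.exp (-(t0 * (C * r))) * Real.exp (D.R.m * r)) := by ring
    _ ≤ P ^ (D.R.m + 1) * 1 := mul_le_mul_of_nonneg_left h5 (by positivity)
    _ = _ := mul_one _

theorem mrg_num {C0 K K2 x : ℝ} {dg mm m : ℕ} (hC0 : 1 ≤ C0) (hK : 1 ≤ K) (hK2 : 1 ≤ K2)
    (hx0 : 0 ≤ x) (hx : x ≤ (K * (1 + (m : ℝ)) ^ dg) ^ (mm + 1) * K2) :
    C0 * (1 + Real.log (1 + x)) ≤ C0 * (2 + Real.log K2 + (mm + 1) * Real.log K +
      (mm + 1) * dg) * (1 + Real.log (1 + m)) := by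
  have hm1 : (0 : ℝ) ≤ m := Nat.cast_nonneg m
  have hlK : 0 ≤ Real.log K := Real.log_nonneg hK
  have hlK2 : 0 ≤ Real.log K2 := Real.log_nonneg hK2
  have hP1 : 1 ≤ K * (1 + (m : ℝ)) ^ dg :=
    one_le_mul_of_one_le_of_one_le hK (one_le_pow₀ (by linarith))
  have hl : 0 ≤ Real.log (1 + (m : ℝ)) := Real.log_nonneg (by linarith)
  have h8 : Real.log (1 + x) ≤
      1 + Real.log K2 + (mm + 1) * (Real.log K + dg * Real.log (1 + m)) := by
    have h9 : 1 + x ≤ 2 * ((K * (1 + (m : ℝ)) ^ dg) ^ (mm + 1) * K2) := by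
      have : 1 ≤ (K * (1 + (m : ℝ)) ^ dg) ^ (mm + 1) * K2 :=
        one_le_mul_of_one_le_of_one_le (one_le_pow₀ hP1) hK2
      linarith
    refine (Real.log_le_log (by linarith) h9).trans ?_
    rw [Real.log_mul (by norm_num) (by positivity), Real.log_mul (by positivity) (by positivity),
      Real.log_pow, Real.log_mul (by positivity) (by positivity), Real.log_pow]
    push_cast
    have := Real.log_two_lt_d9
    linarith
  rw [mul_assoc]
  refine mul_le_mul_of_nonneg_left ?_ (by linarith)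
  have h10 : 0 ≤ (2 + Real.log K2 + (mm + 1) * Real.log K) * Real.log (1 + m) := by
    positivity
  have h11 : 0 ≤ ((mm : ℝ) + 1) * dg := by positivity
  nlinarith

/-- **merging of the pure elements** -/
theorem Uo_merge0 (h : NatHyp M) (hid : ∀ x : D.R.V, ∀ y ∈ M.e, ⁅x, y⁆ ∈ M.e) :
    ∃ C0 : ℝ, 1 ≤ C0 ∧ ∀ C : ℝ, C0 ≤ C → ∀ (i : J) (m : ℕ), ∀ c ∈ M.CB m, ∀ μ r : ℝ,
      0 ≤ r → μ + C * r + Rd.b i (M.θ c) ≤ 0 → ∀ x ∈ Uo Rd (some i) μ r,
        (M.l (c * (x : D.S) * c⁻¹) : ℝ) ≤ C * (1 + Real.log (1 + m)) := by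
  obtain ⟨t0, T0, ht0, hT0, hτ⟩ := Rd.exists_τ
  obtain ⟨K, hK1, HK⟩ := conjL M h
  obtain ⟨K2, hK2, H2⟩ := nm_nb_LB (D := D) M.X (fun _ => (1 : ℝ))
  have hC0 := M.one_le_C0
  have hlK : 0 ≤ Real.log K := Real.log_nonneg hK1
  have hlK2 : 0 ≤ Real.log K2 := Real.log_nonneg hK2
  set A : ℝ := M.C0 * (2 + Real.log K2 + (D.R.m + 1) * Real.log K + (D.R.m + 1) * M.deg) with hA
  have hA0 : 0 ≤ (D.R.m : ℝ) / t0 := by positivity
  have hA1 : 1 ≤ A := by
    have h1 : 0 ≤ ((D.R.m : ℝ) + 1) * Real.log K := by positivity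
    have h2 : 0 ≤ ((D.R.m : ℝ) + 1) * M.deg := by positivity
    exact one_le_mul_of_one_le_of_one_le hC0 (by linarith)
  refine ⟨A + D.R.m / t0, by linarith, fun C hC i m c hc μ r hr hμ x hx => ?_⟩
  obtain ⟨v, hv, hvx⟩ := hx
  have hn := mrg_nm Rd hK1 ht0 (fun a => (hτ a).1) H2 (HK m c hc) hr
    (show (D.R.m : ℝ) / t0 ≤ C by linarith) hμ hv
  have hlen := M.met_e _ (AdE_mem_e h (c := c) (mrg_mem Rd hid hv))
  have hex : M.ex (D.AdE c v) = c * (x : D.S) * c⁻¹ := by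
    rw [← hvx, h.hex]
    exact D.ex_AdE c v
  rw [hex, h.hnm] at hlen
  have hm1 : (0 : ℝ) ≤ m := Nat.cast_nonneg m
  have hl : 0 ≤ Real.log (1 + (m : ℝ)) := Real.log_nonneg (by linarith)
  refine hlen.trans ((mrg_num hC0 hK1 hK2 (apply_nonneg _ _) hn).trans ?_)
  exact mul_le_mul_of_nonneg_right (by linarith) (by linarith)

/-- field `U_merge` -/
theorem Uo_merge (h : NatHyp M) (hid : ∀ x : D.R.V, ∀ y ∈ M.e, ⁅x, y⁆ ∈ M.e) [Fintype J]
    (w : J → Fin k → ℤ) : ∃ C0 : ℝ, 1 ≤ C0 ∧ ∀ C : ℝ, C0 ≤ C → ∀ (i : J) (μ r : ℝ),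
      0 ≤ μ → 0 ≤ r → ∀ x ∈ Uo Rd (some i) μ r, ∀ m : ℕ,
        μ + C * r ≤ m * gb Rd i (M.θ (M.τ (w i))) →
          (M.l (((M.τ (w i)) ^ m)⁻¹ * M.NR.subtype x * (M.τ (w i)) ^ m) : ℝ) ≤ erf C m := by
  obtain ⟨C1, hC1, H⟩ := Uo_merge0 Rd h hid
  have hw : ∃ n : ℕ, 1 ≤ n ∧ ∀ i, M.τ (w i) ∈ M.CB n := by
    refine ⟨∑ i, ⌈M.C0 * (1 + ‖(fun t => (w i t : ℝ))‖)⌉₊ + 1, by omega, fun i => ?_⟩
    refine M.CB_mono ?_ (M.τ_CB (w i))
    refine le_trans ?_ (Nat.le_succ _)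
    exact single_le_sum (f := fun i => ⌈M.C0 * (1 + ‖(fun t => (w i t : ℝ))‖)⌉₊)
      (fun _ _ => Nat.zero_le _) (mem_univ i)
  obtain ⟨n, hn1, hn⟩ := hw
  have hn1' : (1 : ℝ) ≤ n := by exact_mod_cast hn1
  have hln : 0 ≤ Real.log n := Real.log_nonneg hn1'
  refine ⟨C1 * (1 + Real.log n), by nlinarith, fun C hC i μ r hμ hr x hx m hm => ?_⟩
  have hc : ((M.τ (w i)) ^ m)⁻¹ ∈ M.CB (m * n) := M.CB_inv (M.CB_pow (hn i) m)
  have hθ : M.θ ((M.τ (w i)) ^ m)⁻¹ = -((m : ℝ) • M.θ (M.τ (w i))) := by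
    have h1 : ∀ m : ℕ, M.θ ((M.τ (w i)) ^ m) = (m : ℝ) • M.θ (M.τ (w i)) := by
      intro m
      induction m with
      | zero => rw [pow_zero, M.θ_one, Nat.cast_zero, zero_smul]
      | succ m ih => rw [pow_succ, M.θ_mul, ih, Nat.cast_succ, add_smul, one_smul]
    have h2 : M.θ (((M.τ (w i)) ^ m)⁻¹ * (M.τ (w i)) ^ m) = 0 := by
      rw [inv_mul_cancel, M.θ_one]
    rw [M.θ_mul, h1] at h2
    exact eq_neg_of_add_eq_zero_left h2
  have hC1C : C1 ≤ C := by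
    refine le_trans ?_ hC
    nlinarith
  have hle : μ + C1 * r + Rd.b i (M.θ ((M.τ (w i)) ^ m)⁻¹) ≤ 0 := by
    rw [hθ, map_neg, map_smul, smul_eq_mul]
    rw [gb_apply] at hm
    have := mul_le_mul_of_nonneg_right hC1C hr
    linarith
  have h1 := H C1 le_rfl i (m * n) _ hc μ r hr hle x hx
  rw [inv_inv] at h1
  refine h1.trans ?_
  rw [erf_of_nonneg (Nat.cast_nonneg m)]
  have h2 : Real.log (1 + ((m * n : ℕ) : ℝ)) ≤ Real.log n + Real.log (1 + m) := by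
    rw [← Real.log_mul (by positivity) (by positivity)]
    refine Real.log_le_log (by positivity) ?_
    push_cast
    nlinarith
  have hl : 0 ≤ Real.log (1 + (m : ℝ)) := Real.log_nonneg (by
    have : (0 : ℝ) ≤ m := Nat.cast_nonneg m
    linarith)
  calc C1 * (1 + Real.log (1 + ((m * n : ℕ) : ℝ)))
      ≤ C1 * (1 + (Real.log n + Real.log (1 + m))) :=
        mul_le_mul_of_nonneg_left (by linarith) (by linarith)
    _ ≤ C1 * ((1 + Real.log n) * (1 + Real.log (1 + m))) := by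
        refine mul_le_mul_of_nonneg_left ?_ (by linarith)
        nlinarith [mul_nonneg hln hl]
    _ = C1 * (1 + Real.log n) * (1 + Real.log (1 + m)) := by ring
    _ ≤ _ := mul_le_mul_of_nonneg_right hC (by linarith)

/-- field `Y_U` -/
theorem U0_Y (h : NatHyp M) (h0 : ∀ x ∈ M.Vw 0, ∀ y ∈ M.Vw 0, ⁅x, y⁆ ∈ M.Vw 0) :
    ∃ C0 : ℝ, 1 ≤ C0 ∧ ∀ C : ℝ, C0 ≤ C → ∀ μ r : ℝ, 0 ≤ μ → U0 Rd none μ r ⊆ M.gY C μ := by
  obtain ⟨K2, hK2, H2⟩ := nm_nb_LB (D := D) M.X (fun _ => (1 : ℝ))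
  refine ⟨max K2 D.R.m, le_trans hK2 (le_max_left _ _), fun C hC μ r hμ x hx => ?_⟩
  have hC1 : K2 ≤ C := (le_max_left _ _).trans hC
  have hC2 : (D.R.m : ℝ) ≤ C := (le_max_right _ _).trans hC
  obtain ⟨v, hv, hvx⟩ := hx
  refine ⟨v, ?_, ?_, by rw [h.hex]; exact hvx⟩
  · refine nb_le h0 ?_ hv
    rintro _ ⟨y, hy, rfl⟩
    refine (M.Vw 0).sum_mem fun a _ => (M.Vw 0).smul_mem _ ?_
    unfold on
    split_ifs with ha
    · have ha' : Rd.ray a = none := ha.elim id id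
      have := M.X_mem a
      rw [Rd.wt_none a ha'] at this
      exact (M.Vw 0).smul_mem _ this
    · rw [zero_smul]; exact (M.Vw 0).zero_mem
  · have hE : 1 ≤ Real.exp μ := Real.one_le_exp hμ
    have hsub : LB M.X (on (po Rd none) (so Rd none μ r)) ⊆
        Real.exp μ • LB M.X (fun _ => (1 : ℝ)) := by
      rw [smul_LB]
      refine LB_mono _ (on_nonneg fun a => (so_pos _ _ _ a).le) fun a => ?_
      rw [mul_one]
      unfold on
      split_ifs with ha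
      · have ha' : Rd.ray a = none := ha.elim id id
        unfold so RayD.sz
        rw [ha', Rd.τ_none a ha']
        simp [exto]
      · positivity
    obtain ⟨u, hu, hu2⟩ := nb_smul_sub (csy_LB M.X (fun _ => (1 : ℝ))) hE (nb_mono hsub hv)
    simp only at hu2
    rw [h.hnm, ← hu2, map_smul_eq_mul, Real.norm_eq_abs, abs_of_nonneg (by positivity),
      ← Real.exp_nat_mul, mul_comm C]
    refine mul_le_mul (Real.exp_le_exp.2 ?_) ((H2 u hu).trans hC1) (apply_nonneg _ _)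
      (Real.exp_pos _).le
    exact mul_le_mul_of_nonneg_right hC2 hμ

end geou

end Vale.Agent.P188.H615
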