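import Vale.Agent.P188.H615.HExt

/-!
Comparison of the packing numbers of two windows: the field `H_ext` of the geometric interface of
route B.
-/

open Finset Filter Topology MeasureTheory
open scoped Pointwise

namespace Vale.Agent.P188.H615

open Vale.Agent.P188.H796 Vale.Agent.P188.H131 Vale.Agent.P188.Z1 Vale.Agent.P188.H8
open Vale.P188.H532 (exto)
open Vale.P188.H532 renaming sh → shH

section num

theorem pos_lb {J : Type} [Fintype J] (f : J → ℝ) (hf : ∀ i, 0 < f i) :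
    ∃ ε : ℝ, 0 < ε ∧ ∀ i, ε ≤ f i := by
  have h0 : 0 ≤ ∑ i, (f i)⁻¹ := sum_nonneg fun i _ => (inv_pos.2 (hf i)).le
  refine ⟨(1 + ∑ i, (f i)⁻¹)⁻¹, by positivity, fun i => ?_⟩
  rw [inv_le_comm₀ (by positivity) (hf i)]
  have := single_le_sum (f := fun i => (f i)⁻¹) (fun i _ => (inv_pos.2 (hf i)).le) (mem_univ i)
  linarith

theorem fin_ub {J : Type} [Fintype J] (f : J → ℝ) : ∃ A : ℝ, 0 ≤ A ∧ ∀ i, f i ≤ A := by
  refine ⟨∑ i, |f i|, sum_nonneg fun _ _ => abs_nonneg _, fun i => ?_⟩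
  exact (le_abs_self _).trans
    (single_le_sum (f := fun i => |f i|) (fun _ _ => abs_nonneg _) (mem_univ i))

theorem mm_le {β y : ℝ} (hβ : 0 < β) : y ≤ (⌈y / β⌉₊ : ℝ) * β := by
  have h1 := Nat.le_ceil (y / β)
  rwa [div_le_iff₀ hβ] at h1

theorem mm_ge {β y : ℝ} (hβ : 0 < β) (hy : 0 ≤ y) : (⌈y / β⌉₊ : ℝ) * β ≤ y + β := by
  have h1 := (Nat.ceil_lt_add_one (show 0 ≤ y / β by positivity)).le
  have h2 := mul_le_mul_of_nonneg_right h1 hβ.le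
  rw [add_mul, div_mul_cancel₀ _ hβ.ne', one_mul] at h2
  exact h2

theorem mm_bound {β A1 y Y x n0 : ℝ} (hβ : 0 < β) (hA1 : β⁻¹ ≤ A1) (hy : 0 ≤ y)
    (hyY : y ≤ Y * (1 + x)) (hx : 0 ≤ x) (hn0 : 0 ≤ n0) :
    1 + (⌈y / β⌉₊ : ℝ) * n0 ≤ (1 + n0 * (A1 * Y + 1)) * (1 + x) := by
  have h1 := (Nat.ceil_lt_add_one (show 0 ≤ y / β by positivity)).le
  have h2 : y / β ≤ A1 * (Y * (1 + x)) := by
    rw [div_eq_mul_inv, mul_comm]
    exact mul_le_mul hA1 hyY hy ((inv_pos.2 hβ).le.trans hA1)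
  have h3 : (⌈y / β⌉₊ : ℝ) ≤ A1 * (Y * (1 + x)) + 1 := by linarith
  have h4 := mul_le_mul_of_nonneg_right h3 hn0
  have h5 : 0 ≤ n0 * x := mul_nonneg hn0 hx
  nlinarith

end num

section hext

variable {Γ : Type} [Group Γ] {k : ℕ} {η : Γ →* Multiplicative (Fin k → ℤ)} {d n : ℕ}
  {D : MB η.ker d n} {M : RModel D.S Γ D.R.V k} {J : Type} [DecidableEq J] (Rd : RayD M J)

theorem th_inv_pow (w : Fin k → ℤ) (m : ℕ) :
    M.θ ((M.τ w ^ m)⁻¹) = -((m : ℝ) • RModel.ht w) := by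
  have h1 : ∀ m : ℕ, M.θ ((M.τ w) ^ m) = (m : ℝ) • RModel.ht w := by
    intro m
    induction m with
    | zero => rw [pow_zero, M.θ_one, Nat.cast_zero, zero_smul]
    | succ m ih =>
      rw [pow_succ, M.θ_mul, ih, M.θ_τ, Nat.cast_succ, add_smul, one_smul]
      rfl
  have h2 : M.θ (((M.τ w) ^ m)⁻¹ * (M.τ w) ^ m) = 0 := by
    rw [inv_mul_cancel, M.θ_one]
  rw [M.θ_mul, h1] at h2
  exact eq_neg_of_add_eq_zero_left h2

/-- one element of a pure box which lies in another window -/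
theorem ext_one (h : NatHyp M) {K K2 Cs C1 ε0 t0 T0 c β : ℝ} {Q : ℝ} (hQ : 1 ≤ Q)
    (hK : 1 ≤ K) (hK2 : 1 ≤ K2) (hCs : 1 ≤ Cs) (hC1 : 0 ≤ C1) (hε0 : 0 < ε0) (ht0 : 0 < t0)
    (hτ : ∀ a, t0 ≤ Rd.τ a ∧ Rd.τ a ≤ T0) (hc : 0 < c)
    (H2 : ∀ v ∈ nb (LB M.X fun _ => (1 : ℝ)), D.nm v ≤ K2)
    (HK : ∀ m, ∀ c ∈ M.CB m, ∀ r : M.ι → ℝ, (∀ i, 0 ≤ r i) →
      (∀ i j, M.wt j = M.wt i → r i ≤ r j) → ∀ v ∈ LB M.X r,
        D.AdE c v ∈ LB M.X (fun i => K * (1 + m) ^ M.deg * Real.exp (M.wt i (M.θ c)) * r i))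
    {i : J} (hb : ∀ w ∈ MI M (po Rd (some i)), D.nm w ≤ ε0 → w ∈ Mx1 M (po Rd (some i)))
    {m : ℕ} {g : D.S} (hg : g ∈ M.CB m) {x l : ℝ} (hx : 0 ≤ x) (hl : 0 ≤ l) (hβ : 0 ≤ β)
    {ρ ρ' : Option J → ℝ} (hr : 0 ≤ ρ none) (h0 : ρ' none = ρ none)
    (hi : ρ' (some i) = ρ (some i))
    (h1 : ρ (some i) + l + C1 + Rd.b i (M.θ g) ≤ 0)
    (h2 : -(l + C1 + β) ≤ ρ (some i) + Rd.b i (M.θ g))
    (h3 : ∀ j, j ≠ i → c * x ≤ ρ (some j) + Rd.b j (M.θ g))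
    (hq : 2 * (Cs * (K * (1 + (m : ℝ)) ^ M.deg * Real.exp (ρ none + C1))) ^ D.R.m * K2 / ε0 *
        (Real.exp (-(t0 * (c * x))) * Real.exp (T0 * (l + C1 + β)) ^ D.R.m) *
        (K * (1 + (m : ℝ)) ^ M.deg) ^ D.R.m ≤ Q) {v : D.R.V}
    (hv : v ∈ nb (LB M.X (on (po Rd (some i))
      fun a => Cs * so Rd (some i) (ρ (some i) + l) (ρ none) a)))
    (hv' : v ∈ nb (LB M.X (Rd.sz (shH ρ' C1)))) :
    v ∈ nb (LB M.X (Rd.sz (shH ρ (C1 + Real.log (1 + Q) / t0)))) := by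
  obtain ⟨p, hp1, hp2, w, hw, hvw⟩ := ext_split Rd h0 hi hv'
  have hm1 : (0 : ℝ) ≤ m := Nat.cast_nonneg m
  have hn := ext_nm Rd (c := g) hK hCs (by linarith) H2 (HK m g hg) (i := i) hr hC1
    (by linarith) (by linarith) hvw hv hp1
  have hN : 0 < 2 * (Cs * (K * (1 + (m : ℝ)) ^ M.deg * Real.exp (ρ none + C1))) ^ D.R.m * K2 := by
    positivity
  have h4 := mix_bound Rd h hK ht0.le hτ hε0 hN hg HK hb (y := l + C1 + β) (z := c * x)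
    (by linarith) (mul_nonneg hc.le hx) hr h2 h3 hw hn
  have h5 := (csy_nb (csy_LB M.X (Rd.sz ρ))).mem_mono (by positivity) hq h4
  rw [hvw]
  exact add_nb Rd ht0 (fun a => (hτ a).1) hQ hC1 hp2 h5

variable {Rd} {B : M.NatBox}

/-- **comparison of two windows for one element** -/
theorem ext_mem (h : NatHyp M) (hB : B.Bx = NBx D M.X) [Fintype J] {Cs C1 : ℝ} (hCs : 1 ≤ Cs)
    (hC1 : 0 ≤ C1) : ∃ δ1 : ℝ, 0 < δ1 ∧ ∃ C4 : ℝ, 0 ≤ C4 ∧ ∃ x0 : ℝ,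
    ∀ (i : J) (x : ℝ) (ρ ρ' : Option J → ℝ) (l : ℝ), x0 ≤ x → 0 ≤ x →
    (∀ j, |ρ (some j) - x * en (Rd.b j)| ≤ δ1 * x) →
    0 ≤ ρ none → ρ none ≤ δ1 * x → ρ' none = ρ none → ρ' (some i) = ρ (some i) → 0 ≤ l →
    l ≤ δ1 * x → ∀ u : M.NR,
      u ∈ H8.US M (po Rd (some i)) (fun a => Cs * so Rd (some i) (ρ (some i) + l) (ρ none) a) →
      u ∈ H8.NE Rd B (shH ρ' C1) → u ∈ H8.NE Rd B (shH ρ C4) := by
  classical
  obtain ⟨t0, T0, ht0, hT0, hτ⟩ := Rd.exists_τ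
  obtain ⟨v, c, hc, hv, hen, hdir⟩ := exists_dirs Rd
  obtain ⟨K, hK, HK⟩ := conjL M h
  obtain ⟨K2, hK2, H2⟩ := nm_nb_LB (D := D) M.X (fun _ => (1 : ℝ))
  have h1 : ∀ i : J, ∃ ε : ℝ, 0 < ε ∧ ∀ w ∈ MI M (po Rd (some i)), D.nm w ≤ ε →
      w ∈ Mx1 M (po Rd (some i)) := by
    intro i
    obtain ⟨ε, hε, H⟩ := csy_span_ball (csy_Mx1 (M := M) (po Rd (some i)))
    exact ⟨ε, hε, fun w hw hwn => H w hw (by rwa [D.nm_eq] at hwn)⟩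
  choose εi hεi Hε using h1
  obtain ⟨ε0, hε0, hε0i⟩ := pos_lb εi hεi
  obtain ⟨β, hβ, hβi⟩ := fin_ub fun i => Rd.b i (RModel.ht (v i))
  obtain ⟨A1, hA1, hA1i⟩ := fin_ub fun i => (Rd.b i (RModel.ht (v i)))⁻¹
  obtain ⟨En, hEn, hEni⟩ := fin_ub fun i => en (Rd.b i)
  obtain ⟨n0, hn0⟩ : ∃ n : ℕ, ∀ i, M.τ (v i) ∈ M.CB n := by
    refine ⟨∑ i, ⌈M.C0 * (1 + ‖(fun t => (v i t : ℝ))‖)⌉₊, fun i => ?_⟩
    exact M.CB_mono (single_le_sum (f := fun i => ⌈M.C0 * (1 + ‖(fun t => (v i t : ℝ))‖)⌉₊)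
      (fun _ _ => Nat.zero_le _) (mem_univ i)) (M.τ_CB (v i))
  have hn00 : (0 : ℝ) ≤ n0 := Nat.cast_nonneg _
  have hm0 : (0 : ℝ) < D.R.m := by exact_mod_cast D.R.hm0
  obtain ⟨Q, hQ, HQ⟩ := ext_num D.R.m M.deg (C1 := C1) (β := β) hK hK2 hCs hε0 ht0
    (by linarith : 0 ≤ T0) hc (A := 1 + n0 * (A1 * (En + 2 + C1) + 1))
    (by have : 0 ≤ (n0 : ℝ) * (A1 * (En + 2 + C1) + 1) := by positivity
        linarith)
  have hlQ : 0 ≤ Real.log (1 + Q) := Real.log_nonneg (by linarith)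
  refine ⟨min (min (c / 2) 1) (t0 * c / (2 * (D.R.m + D.R.m * T0))), by positivity,
    C1 + Real.log (1 + Q) / t0, by positivity, 2 * (C1 + β) / c, ?_⟩
  set δ1 : ℝ := min (min (c / 2) 1) (t0 * c / (2 * (D.R.m + D.R.m * T0))) with hδ1
  have hd1 : δ1 ≤ c / 2 := (min_le_left _ _).trans (min_le_left _ _)
  have hd2 : δ1 ≤ 1 := (min_le_left _ _).trans (min_le_right _ _)
  have hd3 : δ1 * (D.R.m + D.R.m * T0) ≤ t0 * c / 2 := by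
    have h2 : δ1 ≤ t0 * c / (2 * (D.R.m + D.R.m * T0)) := min_le_right _ _
    rw [le_div_iff₀ (by positivity)] at h2
    linarith
  intro i x ρ ρ' l hx0 hx hρ hr0 hr h0 hi hl0 hl u hu hu'
  have hcx : C1 + β ≤ c * x / 2 := by
    rw [div_le_iff₀ hc] at hx0
    linarith
  have hd1x : δ1 * x ≤ c * x / 2 := by
    have := mul_le_mul_of_nonneg_right hd1 hx
    linarith
  have hd2x : δ1 * x ≤ x := by
    have := mul_le_mul_of_nonneg_right hd2 hx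
    linarith
  have hβ0 : 0 < Rd.b i (RModel.ht (v i)) := hv i
  have hρi := abs_le.1 (hρ i)
  have hρi0 : 0 ≤ ρ (some i) := by
    have e1 := mul_le_mul_of_nonneg_left (hen i) hx
    have e2 : 0 ≤ c * x := mul_nonneg hc.le hx
    linarith
  have hy0 : 0 ≤ ρ (some i) + l + C1 := by linarith
  set m : ℕ := ⌈(ρ (some i) + l + C1) / Rd.b i (RModel.ht (v i))⌉₊ with hm
  have hm1 : ρ (some i) + l + C1 ≤ m * Rd.b i (RModel.ht (v i)) := mm_le hβ0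
  have hm2 : m * Rd.b i (RModel.ht (v i)) ≤ ρ (some i) + l + C1 + Rd.b i (RModel.ht (v i)) :=
    mm_ge hβ0 hy0
  have hβi' : Rd.b i (RModel.ht (v i)) ≤ β := hβi i
  have hθ : ∀ j, Rd.b j (M.θ ((M.τ (v i) ^ m)⁻¹)) = -(m * Rd.b j (RModel.ht (v i))) := by
    intro j
    rw [th_inv_pow, map_neg, map_smul, smul_eq_mul]
  have hy1 : ρ (some i) + l + C1 ≤ (En + 2 + C1) * (1 + x) := by
    have e1 := mul_le_mul_of_nonneg_left (hEni i) hx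
    have e3 : 0 ≤ C1 * x := mul_nonneg hC1 hx
    linarith
  have hmb := mm_bound hβ0 (hA1i i) hy0 hy1 hx hn00
  rw [← hm] at hmb
  obtain ⟨v1, hv1, hv1u⟩ := hu
  rw [mem_NE hB] at hu' ⊢
  obtain ⟨v2, hv2, hv2u⟩ := hu'
  have hvv : v2 = v1 := by
    apply M.ex_inj
    rw [h.hex, h.hex, hv1u, hv2u]
  subst hvv
  refine ⟨v2, ?_, hv2u⟩
  refine ext_one Rd h hQ hK hK2 hCs hC1 hε0 ht0 hτ hc H2 HK
    (fun w hw hwn => Hε i w hw (hwn.trans (hε0i i)))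
    (M.CB_inv (M.CB_pow (hn0 i) m)) hx hl0 hβ hr0 h0 hi ?_ ?_ ?_ ?_ hv1 hv2
  · rw [hθ]; linarith
  · rw [hθ]; linarith
  · intro j hji
    rw [hθ]
    have e1 := hdir c c hc.le le_rfl hc.le le_rfl i j hji x (ρ (some i)) (ρ (some j)) m hx
      (Nat.cast_nonneg _) ((hρ i).trans (by linarith [mul_nonneg hc.le hx]))
      ((hρ j).trans (by linarith [mul_nonneg hc.le hx])) (by linarith)
    linarith
  · have e2 := HQ δ1 x (ρ none) l ((m * n0 : ℕ) : ℝ) hx (Nat.cast_nonneg _)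
      (by push_cast; exact hmb) hr hl hd3
    exact e2

/-- **field `H_ext`** -/
theorem Hp_ext (h : NatHyp M) (hB : B.Bx = NBx D M.X) [Fintype J] : ∃ δ1 : ℝ, 0 < δ1 ∧
    ∃ C0 : ℝ, 0 ≤ C0 ∧ ∀ δ0 : ℝ, 0 < δ0 → δ0 ≤ δ1 → ∀ C : ℝ, C0 ≤ C →
    ∀ (i : J) (x : ℝ) (ρ ρ' : Option J → ℝ) (l : ℝ),
    (∀ j, |ρ (some j) - x * en (Rd.b j)| ≤ δ0 * x) →
    (∀ j, |ρ' (some j) - x * en (Rd.b j)| ≤ δ0 * x) →
    0 ≤ ρ none → ρ none ≤ δ0 * x → ρ' none = ρ none → ρ' (some i) = ρ (some i) → 0 ≤ l →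
    l ≤ δ0 * x → Hp Rd B (some i) ρ l ≤ Hp Rd B (some i) ρ' l + C := by
  classical
  obtain ⟨Cs, hCs, hdiv⟩ := US_div (M := M)
  obtain ⟨C1, hC1, hmul⟩ := Rd.Nb_mul B
  obtain ⟨δ1, hδ1, C4, hC4, x0, hext⟩ := ext_mem (Rd := Rd) h hB hCs hC1
  obtain ⟨Cb, hCb, hbox⟩ := pkn_box Rd B
  obtain ⟨Ch, hCh, hsh⟩ := Hp_sh (Rd := Rd) hB h
  have hx00 := abs_nonneg x0
  refine ⟨δ1, hδ1, Cb * (1 + C4) + Ch * (1 + 2 * δ1 * |x0|), by positivity,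
    fun δ0 hδ0 hδ01 C hC i x ρ ρ' l hρ hρ' hr0 hr h0 hi hl0 hl => ?_⟩
  have hδx : 0 ≤ δ0 * x := (abs_nonneg _).trans (hρ i)
  have hx : 0 ≤ x := nonneg_of_mul_nonneg_right hδx hδ0
  have hδx' : δ0 * x ≤ δ1 * x := mul_le_mul_of_nonneg_right hδ01 hx
  have e0 : 0 ≤ Cb * (1 + C4) := by positivity
  have e1 : 0 ≤ Ch * (1 + 2 * δ1 * |x0|) := by positivity
  rcases le_total x0 x with hxx | hxx
  · have h1 : pkn (H8.NE Rd B (shH ρ C4)) (U0 Rd (some i) (ρ (some i) + l) (ρ none)) ≤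
        pkn (H8.NE Rd B ρ') (U0 Rd (some i) (ρ (some i) + l) (ρ none)) := by
      refine pkn_le fun X hX hs => le_pkn (bdd_U0 hB _ _ _ _) hX ?_
      intro y hy z hz hyz n hn n' hn' he
      have h2 : y * z⁻¹ = n⁻¹ * n' := by
        have : y = n⁻¹ * (n' * z) := by rw [← he]; group
        rw [this]; group
      have h3 : y * z⁻¹ ∈ H8.NE Rd B (shH ρ' C1) := by
        rw [h2]
        exact hmul C1 le_rfl ρ' _ (inv_mem_NE hn) _ hn'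
      have h4 := hext i x ρ ρ' l hxx hx (fun j => (hρ j).trans hδx') hr0 (hr.trans hδx') h0 hi hl0
        (hl.trans hδx') _ (hdiv _ _ _ (hX y hy) _ (hX z hz)) h3
      refine hs y hy z hz hyz 1 (one_mem_NE B _) _ h4 ?_
      group
    have h2 := hbox ρ (shH ρ C4) C4 hC4 (fun j => le_rfl)
      (U0 Rd (some i) (ρ (some i) + l) (ρ none)) (bdd_U0 hB _ _ _ _) (bdd_U0 hB _ _ _ _)
    have h3 : Real.exp (Hp Rd B (some i) ρ l) ≤
        Real.exp (Cb * (1 + C4) + Hp Rd B (some i) ρ' l) := by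
      rw [exp_Hp hB, Real.exp_add, exp_Hp hB, h0, hi]
      refine h2.trans (mul_le_mul_of_nonneg_left ?_ (Real.exp_pos _).le)
      exact_mod_cast h1
    have h4 := Real.exp_le_exp.1 h3
    linarith
  · have h1 : δ0 * x ≤ δ1 * |x0| :=
      mul_le_mul hδ01 (hxx.trans (le_abs_self _)) hx hδ1.le
    have h2 := hsh Ch le_rfl (some i) ρ' ρ l (2 * δ1 * |x0|) (by positivity) (fun j => by
      rcases j with _ | j
      · rw [h0, sub_self, abs_zero]; positivity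
      · have a1 := abs_le.1 (hρ j)
        have a2 := abs_le.1 (hρ' j)
        rw [abs_le]
        constructor <;> linarith)
    linarith

end hext

end Vale.Agent.P188.H615
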