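import Vale.Agent.P188.H615.GeoN

/-!
Conjugation of the natural boxes: fields `cj_N`, `cj_Ca`, `conj` of the geometric interface.
-/

open Finset Filter Topology MeasureTheory
open scoped Pointwise

namespace Vale.Agent.P188.H615

open Vale.Agent.P188.H796 Vale.Agent.P188.H131 Vale.Agent.P188.Z1

section adj

variable {N : Type} [Group N] {d n : ℕ} {D : MB N d n} {A : Type} [NormedRing A]
  [NormedAlgebra ℝ A] [FiniteDimensional ℝ A] {R : RD D A}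

/-- brackets with an element of the box -/
theorem ad_pow_nb {G : Set R.V} (h : CSy G) {v w : R.V} {Λ t : ℝ} (hΛ : 1 ≤ Λ)
    (hv : v ∈ nb (Λ • G)) (hw : w ∈ t • nb G) (j : ℕ) :
    ((LieAlgebra.ad ℝ R.V v) ^ j) w ∈ ((Λ ^ R.m * (R.m ^ 2 * 2 ^ R.m)) ^ j * t) • nb G := by
  have hcs := csy_nb h
  have hcv := csv_nb h
  obtain ⟨v', hv', rfl⟩ := nb_smul_sub h hΛ hv
  induction j with
  | zero => simpa using hw
  | succ j ih =>
    obtain ⟨z, hz, hz2⟩ := ih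
    simp only at hz2
    obtain ⟨u, hu, hu2⟩ := hcv.br v' hv' z hz
    simp only at hu2
    refine ⟨u, hu, ?_⟩
    simp only
    have e : ((LieAlgebra.ad ℝ R.V (Λ ^ R.m • v')) ^ (j + 1)) w =
        ⁅Λ ^ R.m • v', ((LieAlgebra.ad ℝ R.V (Λ ^ R.m • v')) ^ j) w⁆ := by
      rw [pow_succ', Module.End.mul_apply, LieAlgebra.ad_apply]
    rw [e, ← hz2, smul_lie, lie_smul, ← hu2, smul_smul, smul_smul]
    congr 1
    ring

/-- conjugates of small elements by elements of a larger box -/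
theorem adn_nb {G : Set R.V} (h : CSy G) {v w : R.V} {Λ t : ℝ} (hΛ : 1 ≤ Λ) (ht : 0 ≤ t)
    (hv : v ∈ nb (Λ • G)) (hw : w ∈ t • nb G) :
    R.Adn (R.Ex v) w ∈ ((2 * R.m) * (Λ ^ R.m * (R.m ^ 2 * 2 ^ R.m)) ^ (2 * R.m) * t) • nb G := by
  have hcs := csy_nb h
  rw [R.Adn_Ex]
  have hm1 : (1 : ℝ) ≤ R.m := by exact_mod_cast R.hm0
  have hb : 1 ≤ Λ ^ R.m * ((R.m : ℝ) ^ 2 * 2 ^ R.m) := by
    have h1 : 1 ≤ Λ ^ R.m := one_le_pow₀ hΛ
    have h2 : (1 : ℝ) ≤ (R.m : ℝ) ^ 2 := one_le_pow₀ hm1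
    have h3 : (1 : ℝ) ≤ 2 ^ R.m := one_le_pow₀ (by norm_num)
    exact one_le_mul_of_one_le_of_one_le h1 (one_le_mul_of_one_le_of_one_le h2 h3)
  have h1 := hcs.mem_sum (range (2 * R.m))
    (fun _ => (Λ ^ R.m * ((R.m : ℝ) ^ 2 * 2 ^ R.m)) ^ (2 * R.m) * t)
    (fun k => ((k.factorial : ℝ)⁻¹) • ((LieAlgebra.ad ℝ R.V v) ^ k) w)
    (fun _ _ => by positivity) (fun k hk => by
      obtain ⟨z, hz, hz2⟩ := ad_pow_nb h hΛ hv hw k
      simp only at hz2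
      refine hcs.mem_mono (a := (k.factorial : ℝ)⁻¹ *
        ((Λ ^ R.m * ((R.m : ℝ) ^ 2 * 2 ^ R.m)) ^ k * t)) (by positivity) ?_ ⟨z, hz, ?_⟩
      · have h2 : (k.factorial : ℝ)⁻¹ ≤ 1 := by
          refine inv_le_one_of_one_le₀ ?_
          exact_mod_cast Nat.one_le_iff_ne_zero.2 (Nat.factorial_ne_zero k)
        have h3 : (Λ ^ R.m * ((R.m : ℝ) ^ 2 * 2 ^ R.m)) ^ k ≤
            (Λ ^ R.m * ((R.m : ℝ) ^ 2 * 2 ^ R.m)) ^ (2 * R.m) :=
          pow_le_pow_right₀ hb (mem_range.1 hk).le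
        calc (k.factorial : ℝ)⁻¹ * ((Λ ^ R.m * ((R.m : ℝ) ^ 2 * 2 ^ R.m)) ^ k * t)
            ≤ 1 * ((Λ ^ R.m * ((R.m : ℝ) ^ 2 * 2 ^ R.m)) ^ k * t) :=
              mul_le_mul_of_nonneg_right h2 (by positivity)
          _ = (Λ ^ R.m * ((R.m : ℝ) ^ 2 * 2 ^ R.m)) ^ k * t := one_mul _
          _ ≤ _ := mul_le_mul_of_nonneg_right h3 ht
      · simp only
        rw [mul_smul, hz2])
  rw [sum_const, card_range, nsmul_eq_mul] at h1
  push_cast at h1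
  rw [← mul_assoc] at h1
  exact h1

end adj

section conjs

variable {Γ : Type} [Group Γ] {k : ℕ} {η : Γ →* Multiplicative (Fin k → ℤ)} {d n : ℕ}
  {D : MB η.ker d n} (M : RModel D.S Γ D.R.V k)

/-- conjugation by Cartan words, for all sizes depending only on the weights -/
theorem conjW (h : NatHyp M) : ∃ C : ℝ, 0 ≤ C ∧ ∀ C' : ℝ, C ≤ C' →
    ∀ m, ∀ c ∈ M.CB m, ∀ r : M.ι → ℝ, (∀ i, 0 < r i) → (∀ i j, M.wt j = M.wt i → r i ≤ r j) →
      ∀ u ∈ NBx D M.X r, c * u * c⁻¹ ∈ NBx D M.X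
        (fun i => C' * (1 + m) ^ M.deg * Real.exp (M.wt i (M.θ c)) * r i) := by
  classical
  have hco : ∀ i : M.ι, ∃ C : ℝ, 0 ≤ C ∧ ∀ v ∈ M.Vw (M.wt i), ∃ a : M.ι → ℝ,
      v = ∑ j, a j • M.X j ∧ (∀ j, M.wt j ≠ M.wt i → a j = 0) ∧ ∀ j, |a j| ≤ C * D.nm v := by
    intro i
    exact span_coord M.X (fun j => M.wt j = M.wt i) (M.Vw (M.wt i)) (h.span _ (M.wt_mem i))
  choose Ci hCi0 hCi using hco
  set K : ℝ := (∑ i, Ci i) * M.C0 * Fintype.card M.ι with hK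
  have hS0 : 0 ≤ ∑ i, Ci i := sum_nonneg fun i _ => hCi0 i
  have hC00 : 0 ≤ M.C0 := by linarith [M.one_le_C0]
  refine ⟨K, by positivity, fun C' hC' m c hc r hpos hr => ?_⟩
  rintro _ ⟨v, hv, rfl⟩
  have e1 : c * D.ex v * c⁻¹ = D.ex (D.AdE c v) := (D.ex_AdE c v).symm
  rw [e1]
  refine ⟨D.AdE c v, ?_, rfl⟩
  rw [Gb_eq_LB] at hv ⊢
  refine nb_map (D.AdE c) (D.Ad_lie c) ?_ hv
  refine map_LB M.X (D.AdE c) fun i => ?_
  have h1 : M.Ad c (M.X i) ∈ M.Vw (M.wt i) := M.C_inv m c hc _ _ (M.X_mem i)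
  have hWt : M.wt i ∈ M.Wt := by
    rcases M.wt_mem i with h | h
    · exact M.Φ_sub h
    · rw [h]; exact M.zero_mem_Wt
  have h2 := M.C_le m c hc _ hWt _ (M.X_mem i)
  rw [h.hAd] at h1 h2
  rw [h.hnm, h.hnm] at h2
  obtain ⟨a, ha1, ha2, ha3⟩ := hCi i _ h1
  have hX1 : D.nm (M.X i) ≤ 1 := by rw [← h.hnm]; exact M.X_le i
  refine ⟨fun j => r i * a j, ?_, fun j => ?_⟩
  · rw [map_smul]
    conv_lhs => rw [ha1]
    rw [smul_sum]
    exact sum_congr rfl fun j _ => by rw [smul_smul]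
  · by_cases hj : M.wt j = M.wt i
    · have hrij : r i ≤ r j := hr i j hj
      have hri := hpos i
      have hrj := hpos j
      set E : ℝ := Real.exp (M.wt i (M.θ c)) with hE
      have hE0 : 0 < E := Real.exp_pos _
      have h3 : |a j| ≤ (∑ i, Ci i) * (M.C0 * (1 + m) ^ M.deg * E) := by
        refine (ha3 j).trans ?_
        refine mul_le_mul (single_le_sum (fun i _ => hCi0 i) (mem_univ i)) ?_
          (apply_nonneg _ _) hS0
        refine h2.trans ?_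
        have : M.C0 * (1 + (m : ℝ)) ^ M.deg * E * D.nm (M.X i) ≤
            M.C0 * (1 + (m : ℝ)) ^ M.deg * E * 1 :=
          mul_le_mul_of_nonneg_left hX1 (by positivity)
        rw [mul_one] at this
        exact this
      rw [abs_mul, abs_of_pos hri, hj]
      have h4 : r i * |a j| ≤ r j * ((∑ i, Ci i) * (M.C0 * (1 + m) ^ M.deg * E)) :=
        mul_le_mul hrij h3 (abs_nonneg _) hrj.le
      calc r i * |a j| * Fintype.card M.ι
          ≤ r j * ((∑ i, Ci i) * (M.C0 * (1 + m) ^ M.deg * E)) * Fintype.card M.ι :=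
            mul_le_mul_of_nonneg_right h4 (Nat.cast_nonneg _)
        _ = K * ((1 + m) ^ M.deg * E * r j) := by rw [hK]; ring
        _ ≤ C' * ((1 + m) ^ M.deg * E * r j) :=
            mul_le_mul_of_nonneg_right hC' (by positivity)
        _ = _ := by ring
    · have h3 : r i * a j = 0 := by rw [ha2 j hj, mul_zero]
      simp only [h3, abs_zero, zero_mul]
      have := hpos j
      have hC'0 : 0 ≤ C' := le_trans (by positivity) hC'
      positivity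

variable {M} {J : Type} (Rd : RayD M J) {B : M.NatBox} (hB : B.Bx = NBx D M.X)

include hB in
/-- conjugation by Cartan words, in terms of extents: `er r = C (1 + log (1 + r))`-form -/
theorem RayD.cj_CB (h : NatHyp M) : ∃ κ : ℝ, 0 ≤ κ ∧ ∀ m, ∀ c ∈ M.CB m, ∀ ρ ρ' : Option J → ℝ,
    (ρ none + κ * (1 + Real.log (1 + m)) ≤ ρ' none) →
    (∀ j, ρ (some j) + Rd.b j (M.θ c) + κ * (1 + Real.log (1 + m)) ≤ ρ' (some j)) →
    ∀ u ∈ Rd.Nb B ρ, c * u * c⁻¹ ∈ Rd.Nb B ρ' := by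
  obtain ⟨t0, T0, ht0, -, hτ⟩ := Rd.exists_τ
  obtain ⟨C, hC, H⟩ := conjW M h
  set K : ℝ := max C 1 with hK
  have hK1 : 1 ≤ K := le_max_right _ _
  have hlogK : 0 ≤ Real.log K := Real.log_nonneg hK1
  refine ⟨(Real.log K + M.deg) / t0, by positivity, fun m c hc ρ ρ' h0 h1 u hu => ?_⟩
  set κ := (Real.log K + M.deg) / t0 with hκ
  have hκt : Real.log K + M.deg = κ * t0 := by rw [hκ, div_mul_cancel₀ _ ht0.ne']
  have hκ0 : 0 ≤ κ := by positivity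
  have hl : 0 ≤ Real.log (1 + m) := Real.log_nonneg (by
    have : (0 : ℝ) ≤ m := Nat.cast_nonneg m
    linarith)
  have hu' : u ∈ NBx D M.X (Rd.sz ρ) := by
    have := hu
    rwa [RayD.Nb, hB] at this
  have h2 := H K (le_max_left _ _) m c hc (Rd.sz ρ) (Rd.sz_pos ρ)
    (fun i j hij => (Rd.sz_eq_of_wt ρ hij).ge) u hu'
  rw [RayD.Nb]
  have h3 : c * u * c⁻¹ ∈ B.Bx (fun i => K * (1 + m) ^ M.deg *
      Real.exp (M.wt i (M.θ c)) * Rd.sz ρ i) := by rw [hB]; exact h2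
  refine B.mono _ _ (fun i => by have := Rd.sz_pos ρ i; positivity) (fun i => ?_) h3
  have hm0 : (0 : ℝ) < 1 + m := by positivity
  have e1 : K * (1 + (m : ℝ)) ^ M.deg = Real.exp (Real.log K + M.deg * Real.log (1 + m)) := by
    rw [Real.exp_add, Real.exp_log (by linarith), Real.exp_nat_mul, Real.exp_log hm0]
  rw [e1, RayD.sz, RayD.sz, ← Real.exp_add, ← Real.exp_add, Real.exp_le_exp]
  have e2 : Real.log K + M.deg * Real.log (1 + m) ≤ Rd.τ i * (κ * (1 + Real.log (1 + m))) := by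
    have h4 : Real.log K + M.deg * Real.log (1 + m) ≤
        (Real.log K + M.deg) * (1 + Real.log (1 + m)) := by
      have : (0 : ℝ) ≤ M.deg := Nat.cast_nonneg _
      nlinarith [mul_nonneg hlogK hl]
    rw [hκt] at h4
    refine h4.trans ?_
    have h5 : κ * t0 * (1 + Real.log (1 + m)) = t0 * (κ * (1 + Real.log (1 + m))) := by ring
    rw [h5]
    exact mul_le_mul_of_nonneg_right (hτ i).1 (by positivity)
  have ht := Rd.τ_pos i
  rcases hr : Rd.ray i with _ | j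
  · rw [Rd.wt_none i hr]
    have h6 := mul_le_mul_of_nonneg_left h0 ht.le
    simp only [_root_.zero_apply]
    linarith
  · rw [Rd.wt_some i j hr]
    have h6 := mul_le_mul_of_nonneg_left (h1 j) ht.le
    simp only [_root_.smul_apply, smul_eq_mul]
    linarith

/-- exponentials of vectors of `e` in boxes -/
theorem RayD.ex_e_Nb (B : M.NatBox) : ∃ κ : ℝ, 0 ≤ κ ∧ ∀ ρ : Option J → ℝ, (∀ j, 0 ≤ ρ j) →
    ∀ v ∈ M.e, ∀ x : ℝ, 0 ≤ x → M.nm v ≤ Real.exp x →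
      M.ex v ∈ Rd.Nb B (fun j => ρ j + κ * (x + 1)) := by
  obtain ⟨t0, T0, ht0, -, hτ⟩ := Rd.exists_τ
  have hBC := B.one_le
  have hlog : 0 ≤ Real.log B.C := Real.log_nonneg hBC
  refine ⟨(Real.log B.C + 1) / t0, by positivity, fun ρ hρ v hv x hx hvx => ?_⟩
  set κ : ℝ := (Real.log B.C + 1) / t0 with hκ
  have hκ0 : 0 ≤ κ := by positivity
  have hκt : Real.log B.C + 1 = κ * t0 := by rw [hκ, div_mul_cancel₀ _ ht0.ne']
  have hvn := M.nm_nonneg v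
  refine B.mono _ _ (fun i => ?_) (fun i => ?_) (B.ball_e v hv)
  · unfold RModel.two
    split_ifs
    · exact zero_le_one
    · positivity
  · have h3 : B.C * (1 + M.nm v) ≤ Rd.sz (fun j => ρ j + κ * (x + 1)) i := by
      have h5 : 1 + M.nm v ≤ Real.exp (x + 1) := by
        rw [Real.exp_add]
        have h3 : (2 : ℝ) ≤ Real.exp 1 := by have := Real.add_one_le_exp (1 : ℝ); linarith
        have h4 : 1 ≤ Real.exp x := Real.one_le_exp hx
        nlinarith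
      calc B.C * (1 + M.nm v) ≤ Real.exp (Real.log B.C) * Real.exp (x + 1) := by
            rw [Real.exp_log (by linarith)]
            exact mul_le_mul_of_nonneg_left h5 (by linarith)
        _ ≤ _ := by
            rw [← Real.exp_add, RayD.sz, Real.exp_le_exp]
            have e3 : Real.log B.C + (x + 1) ≤ (κ * t0) * (x + 1) := by
              rw [← hκt]; nlinarith
            have e4 : (κ * t0) * (x + 1) ≤ Rd.τ i * (κ * (x + 1)) := by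
              calc (κ * t0) * (x + 1) = t0 * (κ * (x + 1)) := by ring
                _ ≤ _ := mul_le_mul_of_nonneg_right (hτ i).1 (by positivity)
            have e5 : 0 ≤ Rd.τ i * ρ (Rd.ray i) := mul_nonneg (Rd.τ_pos i).le (hρ _)
            rw [mul_add]
            linarith
    unfold RModel.two
    split_ifs
    · refine Rd.one_le_sz (fun j => ?_) i
      have := hρ j
      positivity
    · exact h3

/-- bound of the functionals of the rays -/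
theorem RayD.exists_β : ∃ β : ℝ, 0 ≤ β ∧ ∀ j, ∀ v : Z1.Ht k, |Rd.b j v| ≤ β * ‖v‖ := by
  refine ⟨∑ b ∈ M.Φ, ‖b‖, sum_nonneg fun _ _ => norm_nonneg _, fun j v => ?_⟩
  have h1 := (Rd.b j).le_opNorm v
  rw [Real.norm_eq_abs] at h1
  exact h1.trans (mul_le_mul_of_nonneg_right
    (single_le_sum (f := fun b : Z1.Ht k →L[ℝ] ℝ => ‖b‖) (fun _ _ => norm_nonneg _) (Rd.mem j))
    (norm_nonneg _))

include hB in
/-- conjugation by Cartan words of bounded length -/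
theorem RayD.cj_CB' (h : NatHyp M) : ∃ κ : ℝ, 0 ≤ κ ∧ ∀ (m : ℕ) (r : ℝ), 0 ≤ r →
    (m : ℝ) ≤ M.C0 * r + 1 → ∀ c ∈ M.CB m, ‖M.θ c‖ ≤ M.C0 * r → ∀ ρ : Option J → ℝ,
    ∀ u ∈ Rd.Nb B ρ, c * u * c⁻¹ ∈ Rd.Nb B (fun j => ρ j + κ * (r + 1)) := by
  obtain ⟨κ, hκ, Hc⟩ := Rd.cj_CB hB h
  obtain ⟨β, hβ0, hβ⟩ := Rd.exists_β
  have hC0 := M.C0_pos
  refine ⟨β * M.C0 + κ * (M.C0 + 2), by positivity, fun m r hr hm c hc hθ ρ u hu => ?_⟩
  have hm0 : (0 : ℝ) ≤ m := Nat.cast_nonneg m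
  have hl := Real.log_le_sub_one_of_pos (show 0 < 1 + (m : ℝ) by positivity)
  have hk : κ * (1 + Real.log (1 + (m : ℝ))) ≤ κ * (M.C0 + 2) * (r + 1) := by
    rw [mul_assoc]
    refine mul_le_mul_of_nonneg_left ?_ hκ
    nlinarith
  have hb : 0 ≤ β * M.C0 * (r + 1) := by positivity
  have e1 : (β * M.C0 + κ * (M.C0 + 2)) * (r + 1) =
      β * M.C0 * (r + 1) + κ * (M.C0 + 2) * (r + 1) := by ring
  refine Hc _ c hc ρ _ ?_ (fun j => ?_) u hu
  · rw [e1]; linarith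
  · have e2 : Rd.b j (M.θ c) ≤ β * M.C0 * (r + 1) := by
      calc Rd.b j (M.θ c) ≤ |Rd.b j (M.θ c)| := le_abs_self _
        _ ≤ β * ‖M.θ c‖ := hβ j _
        _ ≤ β * (M.C0 * (r + 1)) := by
            refine mul_le_mul_of_nonneg_left (hθ.trans ?_) hβ0
            exact mul_le_mul_of_nonneg_left (by linarith) hC0.le
        _ = _ := by ring
    rw [e1]; linarith

include hB in
/-- field `cj_N` -/
theorem RayD.cj_Nb (h : NatHyp M) : ∃ C0 : ℝ, 0 ≤ C0 ∧ ∀ C : ℝ, C0 ≤ C → ∀ (g : D.S) (r : ℝ),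
    (M.l g : ℝ) ≤ r → ∀ ρ : Option J → ℝ, (∀ j, 0 ≤ ρ j) → ∀ u ∈ Rd.Nb B ρ,
      g * u * g⁻¹ ∈ Rd.Nb B (fun j => ρ j + C * (r + 1)) := by
  obtain ⟨κ1, hκ1, Hc⟩ := Rd.cj_CB' hB h
  obtain ⟨κ2, hκ2, He⟩ := Rd.ex_e_Nb B
  obtain ⟨κd, hκd, hdec⟩ := RayD.dec_size (M := M)
  obtain ⟨C1, hC1, hmul⟩ := Rd.Nb_mul B
  have hC0 := M.C0_pos
  set κ3 : ℝ := κ1 + κ2 * (κd + 1) with hκ3
  have hκ30 : 0 ≤ κ3 := by positivity
  refine ⟨κ3 + 2 * C1, by positivity, fun C hC g r hr ρ hρ u hu => ?_⟩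
  have hl0 : (0 : ℝ) ≤ M.l g := Nat.cast_nonneg _
  have hr0 : 0 ≤ r := hl0.trans hr
  obtain ⟨v, hv, c, hc, hg, hvn⟩ := hdec g
  have hθ : ‖M.θ c‖ ≤ M.C0 * r := by
    have e3 : M.θ c = M.θ g := by
      rw [hg, M.θ_mul, M.θ_ex, zero_add]
    rw [e3]
    exact (M.θ_le g).trans (mul_le_mul_of_nonneg_left hr hC0.le)
  have hm : (⌈M.C0 * M.l g⌉₊ : ℝ) ≤ M.C0 * r + 1 := by
    refine ((Nat.ceil_lt_add_one (by positivity)).le).trans ?_
    have := mul_le_mul_of_nonneg_left hr hC0.le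
    linarith
  have hle1 : κ1 * (r + 1) ≤ κ3 * (r + 1) := by
    refine mul_le_mul_of_nonneg_right ?_ (by linarith)
    rw [hκ3]; linarith [mul_nonneg hκ2 (by linarith : 0 ≤ κd + 1)]
  have h1 : c * u * c⁻¹ ∈ Rd.Nb B (fun j => ρ j + κ3 * (r + 1)) :=
    Rd.Nb_mono B (fun j => by linarith) (Hc _ r hr0 hm c hc hθ ρ u hu)
  have h2 : M.ex v ∈ Rd.Nb B (fun j => ρ j + κ3 * (r + 1)) := by
    refine Rd.Nb_mono B (fun j => ?_) (He ρ hρ v hv (κd * (r + 1)) (by positivity)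
      (hvn.trans (Real.exp_le_exp.2 (mul_le_mul_of_nonneg_left (by linarith) hκd))))
    have e1 : κ2 * (κd * (r + 1) + 1) ≤ κ3 * (r + 1) := by
      have e2 : κ2 * (κd * (r + 1) + 1) ≤ κ2 * ((κd + 1) * (r + 1)) :=
        mul_le_mul_of_nonneg_left (by nlinarith) hκ2
      have e3 : κ3 * (r + 1) = κ1 * (r + 1) + κ2 * ((κd + 1) * (r + 1)) := by rw [hκ3]; ring
      have e4 : 0 ≤ κ1 * (r + 1) := by positivity
      linarith
    linarith
  have h3 := hmul C1 le_rfl _ _ h2 _ h1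
  have h4 := hmul C1 le_rfl _ _ h3 _ (Rd.Nb_mono B (fun j => by linarith) (Rd.Nb_inv B h2))
  have h5 : g * u * g⁻¹ = M.ex v * (c * u * c⁻¹) * (M.ex v)⁻¹ := by
    rw [hg]; group
  rw [h5]
  refine Rd.Nb_mono B (fun j => ?_) h4
  have h6 : (κ3 + 2 * C1) * (r + 1) ≤ C * (r + 1) :=
    mul_le_mul_of_nonneg_right hC (by linarith)
  have h7 : C1 ≤ C1 * (r + 1) := by nlinarith
  have h8 : (κ3 + 2 * C1) * (r + 1) = κ3 * (r + 1) + 2 * (C1 * (r + 1)) := by ring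
  linarith

/-- numerical estimate for `conj_Nb` -/
theorem conj_num {m : ℕ} (hm : 0 < m) {t0 T0 τ lam C : ℝ} (ht0 : 0 < t0) (hT0 : 1 ≤ T0)
    (hτ : t0 ≤ τ) (hlam : 0 ≤ lam)
    (hC : (Real.log ((2 * m) * ((m : ℝ) ^ 2 * 2 ^ m) ^ (2 * m)) + T0 * m * (2 * m)) / t0 ≤ C) :
    (2 * (m : ℝ)) * (Real.exp (T0 * lam) ^ m * ((m : ℝ) ^ 2 * 2 ^ m)) ^ (2 * m) *
      Real.exp (-(τ * (C * (lam + 1)))) ≤ 1 := by
  have hm1 : (1 : ℝ) ≤ m := by exact_mod_cast hm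
  set K : ℝ := (2 * m) * ((m : ℝ) ^ 2 * 2 ^ m) ^ (2 * m) with hK
  have hb : 1 ≤ (m : ℝ) ^ 2 * 2 ^ m :=
    one_le_mul_of_one_le_of_one_le (one_le_pow₀ hm1) (one_le_pow₀ (by norm_num))
  have hK1 : 1 ≤ K := one_le_mul_of_one_le_of_one_le (by linarith) (one_le_pow₀ hb)
  have hlogK : 0 ≤ Real.log K := Real.log_nonneg hK1
  rw [div_le_iff₀ ht0] at hC
  have hC0 : 0 ≤ C * t0 := le_trans (by positivity) hC
  have hC0' : 0 ≤ C := nonneg_of_mul_nonneg_left hC0 ht0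
  have e3 : (2 * (m : ℝ)) * (Real.exp (T0 * lam) ^ m * ((m : ℝ) ^ 2 * 2 ^ m)) ^ (2 * m) =
      K * Real.exp (T0 * lam) ^ (m * (2 * m)) := by
    rw [hK, mul_pow, ← pow_mul]; ring
  rw [e3, ← Real.exp_nat_mul]
  have e4 : K = Real.exp (Real.log K) := (Real.exp_log (by linarith)).symm
  rw [e4, ← Real.exp_add, ← Real.exp_add, Real.exp_le_one_iff]
  push_cast
  have e5 : Real.log K + T0 * m * (2 * m) * lam ≤ C * t0 * (lam + 1) := by
    have h1 := mul_le_mul_of_nonneg_right hC (by linarith : 0 ≤ lam + 1)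
    have h6 : 0 ≤ T0 * m * (2 * m) := by positivity
    have h7 := mul_nonneg hlogK hlam
    have h8 : (Real.log K + T0 * m * (2 * m)) * (lam + 1) =
      Real.log K * lam + Real.log K + T0 * m * (2 * m) * lam + T0 * m * (2 * m) := by ring
    linarith
  have e6 : C * t0 * (lam + 1) ≤ τ * (C * (lam + 1)) := by
    have := mul_le_mul_of_nonneg_right hτ (by positivity : 0 ≤ C * (lam + 1))
    linarith
  have e7 : (m : ℝ) * (2 * m) * (T0 * lam) = T0 * m * (2 * m) * lam := by ring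
  linarith

include hB in
/-- field `conj` -/
theorem RayD.conj_Nb (h : NatHyp M) : ∃ C0 : ℝ, 0 ≤ C0 ∧ ∀ C : ℝ, C0 ≤ C →
    ∀ (ρ : Option J → ℝ) (lam : ℝ), 0 ≤ lam → ∀ g ∈ Rd.Nb B (fun j => ρ j + lam),
    ∀ (a : M.ι) (x : ℝ), |x| ≤ 1 →
      g * M.ex ((Rd.sz (fun j => ρ j + (-(C * (lam + 1)))) a * x) • M.X a) * g⁻¹ ∈ Rd.Nb B ρ := by
  obtain ⟨t0, T0, ht0, hT0, hτ⟩ := Rd.exists_τ
  have hm1 : (1 : ℝ) ≤ D.R.m := by exact_mod_cast D.R.hm0
  have hK1 : 1 ≤ (2 * (D.R.m : ℝ)) * ((D.R.m : ℝ) ^ 2 * 2 ^ D.R.m) ^ (2 * D.R.m) :=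
    one_le_mul_of_one_le_of_one_le (by linarith) (one_le_pow₀
      (one_le_mul_of_one_le_of_one_le (one_le_pow₀ hm1) (one_le_pow₀ (by norm_num))))
  have hlogK := Real.log_nonneg hK1
  refine ⟨(Real.log ((2 * (D.R.m : ℝ)) * ((D.R.m : ℝ) ^ 2 * 2 ^ D.R.m) ^ (2 * D.R.m)) +
    T0 * (D.R.m : ℝ) * (2 * (D.R.m : ℝ))) / t0, by positivity,
    fun C hC ρ lam hlam g hg a x hx => ?_⟩
  have hg' : g ∈ NBx D M.X (Rd.sz fun j => ρ j + lam) := by
    have := hg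
    rwa [RayD.Nb, hB] at this
  obtain ⟨v, hv, rfl⟩ := hg'
  rw [RayD.Nb, hB, h.hex]
  have e1 : D.ex v * D.ex ((Rd.sz (fun j => ρ j + (-(C * (lam + 1)))) a * x) • M.X a) *
      (D.ex v)⁻¹ =
      D.ex (D.R.Adn (D.R.Ex v) ((Rd.sz (fun j => ρ j + (-(C * (lam + 1)))) a * x) • M.X a)) := by
    rw [← D.ex_AdE]
    congr 1
    exact D.Ad_inN _ _
  rw [e1]
  refine ⟨_, ?_, rfl⟩
  have hGs : CSy (Gb M.X (Rd.sz ρ)) := csy_Gb _ _
  have hΛ1 : 1 ≤ Real.exp (T0 * lam) := Real.one_le_exp (by positivity)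
  have hv2 : v ∈ nb (Real.exp (T0 * lam) • Gb M.X (Rd.sz ρ)) := by
    refine nb_mono ?_ hv
    rw [← Gb_smul]
    refine Gb_mono _ (fun i => (Rd.sz_pos _ i).le) fun i => ?_
    rw [RayD.sz, RayD.sz, ← Real.exp_add, Real.exp_le_exp, mul_add]
    have := mul_le_mul_of_nonneg_right (hτ i).2 hlam
    linarith
  have hw : (Rd.sz (fun j => ρ j + (-(C * (lam + 1)))) a * x) • M.X a ∈
      Real.exp (-(Rd.τ a * (C * (lam + 1)))) • nb (Gb M.X (Rd.sz ρ)) := by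
    have h1 : (Rd.sz ρ a * x) • M.X a ∈ nb (Gb M.X (Rd.sz ρ)) := by
      refine sub_nb hGs (mem_Gb_letter _ ?_)
      rw [abs_mul, abs_of_pos (Rd.sz_pos ρ a)]
      exact mul_le_of_le_one_right (Rd.sz_pos ρ a).le hx
    refine ⟨_, h1, ?_⟩
    simp only
    rw [smul_smul, ← mul_assoc]
    congr 2
    rw [RayD.sz, RayD.sz, ← Real.exp_add]
    congr 1
    ring
  have h3 := adn_nb hGs hΛ1 (Real.exp_pos _).le hv2 hw
  have h4 := (csy_nb hGs).mem_mono (by positivity)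
    (conj_num D.R.hm0 ht0 hT0 (hτ a).1 hlam hC) h3
  rwa [one_smul] at h4

/-! ### the Cartan section -/

/-- `cj_Ca` -/
theorem RayD.cj_Ca (h : NatHyp M) (hB : B.Bx = NBx D M.X) : ∃ C0 : ℝ, 0 ≤ C0 ∧ ∀ C : ℝ, C0 ≤ C →
    ∀ w : Fin k → ℤ, ∀ ρ ρ' : Option J → ℝ,
    (ρ none + C * (1 + Real.log (1 + ‖M.θ (M.τ w)‖)) ≤ ρ' none) →
    (∀ j, ρ (some j) + Rd.b j (M.θ (M.τ w)) + C * (1 + Real.log (1 + ‖M.θ (M.τ w)‖)) ≤
      ρ' (some j)) →
    ∀ u ∈ Rd.Nb B ρ, M.τ w * u * (M.τ w)⁻¹ ∈ Rd.Nb B ρ' := by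
  obtain ⟨κ, hκ, H⟩ := Rd.cj_CB hB h
  have hC0 := M.C0_pos
  have hl : 0 ≤ Real.log (M.C0 + 2) := Real.log_nonneg (by linarith)
  refine ⟨κ * (1 + Real.log (M.C0 + 2)), by positivity, fun C hC w ρ ρ' h0 h1 u hu => ?_⟩
  have hθ : M.θ (M.τ w) = fun i => (w i : ℝ) := M.θ_τ w
  set r := ‖M.θ (M.τ w)‖ with hr
  have hr0 : 0 ≤ r := norm_nonneg _
  have hlr : 0 ≤ Real.log (1 + r) := Real.log_nonneg (by linarith)
  have hcb := M.τ_CB w
  rw [← hθ, ← hr] at hcb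
  have hm : κ * (1 + Real.log (1 + (⌈M.C0 * (1 + r)⌉₊ : ℝ))) ≤ C * (1 + Real.log (1 + r)) := by
    have e1 : 1 + (⌈M.C0 * (1 + r)⌉₊ : ℝ) ≤ (M.C0 + 2) * (1 + r) := by
      have := (Nat.ceil_lt_add_one (show 0 ≤ M.C0 * (1 + r) by positivity)).le
      nlinarith
    have e2 : Real.log (1 + (⌈M.C0 * (1 + r)⌉₊ : ℝ)) ≤ Real.log (M.C0 + 2) + Real.log (1 + r) := by
      rw [← Real.log_mul (by positivity) (by positivity)]
      exact Real.log_le_log (by positivity) e1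
    calc κ * (1 + Real.log (1 + (⌈M.C0 * (1 + r)⌉₊ : ℝ)))
        ≤ κ * (1 + (Real.log (M.C0 + 2) + Real.log (1 + r))) :=
          mul_le_mul_of_nonneg_left (by linarith) hκ
      _ ≤ κ * ((1 + Real.log (M.C0 + 2)) * (1 + Real.log (1 + r))) := by
          refine mul_le_mul_of_nonneg_left ?_ hκ
          nlinarith [mul_nonneg hl hlr]
      _ = κ * (1 + Real.log (M.C0 + 2)) * (1 + Real.log (1 + r)) := by ring
      _ ≤ _ := mul_le_mul_of_nonneg_right hC (by linarith)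
  exact H _ _ hcb ρ ρ' (by linarith) (fun j => by have := h1 j; linarith) u hu

end conjs

end Vale.Agent.P188.H615
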