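import Vale.Agent.P188.H615.NatI
import Vale.Agent.P188.Z1.Fat

/-!
Rays of the real model: common data for the geometric interface of route B.
-/

open Finset Filter Topology MeasureTheory
open scoped Pointwise

namespace Vale.Agent.P188.H615

open Vale.Agent.P188.Z1

section rays

variable {S : Type} [Group S] [MeasurableSpace S] {Γ : Type} [Group Γ]
  {V : Type} [AddCommGroup V] [Module ℝ V] {k : ℕ} (M : RModel S Γ V k)

/-- representatives of the rays exist -/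
theorem exists_rays : ∃ Φ₁ : Finset (Z1.Ht k →L[ℝ] ℝ), M.Rays Φ₁ := by
  classical
  let s : Setoid {b // b ∈ M.Φ} :=
    { r := fun b b' => ∃ t : ℝ, 0 < t ∧ (b : Z1.Ht k →L[ℝ] ℝ) = t • (b' : Z1.Ht k →L[ℝ] ℝ)
      iseqv :=
        { refl := fun b => ⟨1, one_pos, (one_smul ℝ _).symm⟩
          symm := by
            rintro b b' ⟨t, ht, h⟩
            exact ⟨t⁻¹, inv_pos.2 ht, by rw [h, inv_smul_smul₀ ht.ne']⟩
          trans := by
            rintro b b' b'' ⟨t, ht, h⟩ ⟨t', ht', h'⟩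
            exact ⟨t * t', mul_pos ht ht', by rw [h, h', smul_smul]⟩ } }
  let rep : {b // b ∈ M.Φ} → {b // b ∈ M.Φ} := fun b => (Quotient.mk s b).out
  have hrep : ∀ b, ∃ t : ℝ, 0 < t ∧ (rep b : Z1.Ht k →L[ℝ] ℝ) = t • (b : Z1.Ht k →L[ℝ] ℝ) := fun b =>
    Quotient.exact (s := s) (Quotient.out_eq (Quotient.mk s b))
  have hrep2 : ∀ b b' : {b // b ∈ M.Φ}, (∃ t : ℝ, 0 < t ∧ (b : Z1.Ht k →L[ℝ] ℝ) = t • (b' : Z1.Ht k →L[ℝ] ℝ)) →
      rep b = rep b' := by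
    intro b b' h
    have h1 : Quotient.mk s b = Quotient.mk s b' := Quotient.sound (s := s) h
    simp only [rep, h1]
  refine ⟨univ.image fun b => (rep b : Z1.Ht k →L[ℝ] ℝ), ?_, ?_, ?_⟩
  · intro b hb
    obtain ⟨c, _, rfl⟩ := Finset.mem_image.1 hb
    exact (rep c).2
  · intro b hb
    refine ⟨_, Finset.mem_image.2 ⟨⟨b, hb⟩, mem_univ _, rfl⟩, ?_⟩
    obtain ⟨t, ht, h⟩ := hrep ⟨b, hb⟩
    exact ⟨t⁻¹, inv_pos.2 ht, by rw [h, inv_smul_smul₀ ht.ne']⟩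
  · intro b hb b' hb' t ht h
    obtain ⟨c, _, rfl⟩ := Finset.mem_image.1 hb
    obtain ⟨c', _, rfl⟩ := Finset.mem_image.1 hb'
    obtain ⟨t1, ht1, h1⟩ := hrep c
    obtain ⟨t2, ht2, h2⟩ := hrep c'
    have h3 : ∃ t : ℝ, 0 < t ∧ (c : Z1.Ht k →L[ℝ] ℝ) = t • (c' : Z1.Ht k →L[ℝ] ℝ) := by
      refine ⟨t1⁻¹ * t * t2, by positivity, ?_⟩
      rw [mul_smul, mul_smul, ← h2, ← h, h1, inv_smul_smul₀ ht1.ne']
    rw [hrep2 c c' h3]

/-- the rays of the letters -/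
structure RayD (M : RModel S Γ V k) (J : Type) where
  /-- the representative of the ray -/
  b : J → (Z1.Ht k →L[ℝ] ℝ)
  mem : ∀ j, b j ∈ M.Φ
  /-- the ray of a letter (`none` for the neutral letters) -/
  ray : M.ι → Option J
  τ : M.ι → ℝ
  τ_pos : ∀ a, 0 < τ a
  τ_none : ∀ a, ray a = none → τ a = 1
  wt_none : ∀ a, ray a = none → M.wt a = 0
  wt_some : ∀ a j, ray a = some j → M.wt a = τ a • b j
  uniq : ∀ i j, ∀ t : ℝ, 0 < t → b i = t • b j → i = j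
  surj : ∀ c ∈ M.Φ, ∃ j, ∃ t : ℝ, 0 < t ∧ c = t • b j

theorem exists_rayD {Φ₁ : Finset (Z1.Ht k →L[ℝ] ℝ)} (hΦ : M.Rays Φ₁) :
    ∃ Rd : RayD M {b // b ∈ Φ₁}, ∀ j, Rd.b j = j := by
  classical
  have h1 : ∀ a, M.wt a ≠ 0 → ∃ j : {b // b ∈ Φ₁}, ∃ t : ℝ, 0 < t ∧
      M.wt a = t • (j : Z1.Ht k →L[ℝ] ℝ) := by
    intro a ha
    rcases M.wt_mem a with h | h
    · obtain ⟨b, hb, t, ht, h2⟩ := hΦ.ex _ h
      exact ⟨⟨b, hb⟩, t, ht, h2⟩
    · exact absurd h ha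
  choose j t ht hwt using h1
  refine ⟨{ b := fun j => j
            mem := fun j => hΦ.sub j.2
            ray := fun a => if h : M.wt a ≠ 0 then some (j a h) else none
            τ := fun a => if h : M.wt a ≠ 0 then t a h else 1
            τ_pos := ?_, τ_none := ?_, wt_none := ?_, wt_some := ?_, uniq := ?_, surj := ?_ },
    fun _ => rfl⟩
  · intro a
    by_cases h : M.wt a ≠ 0
    · simp only [dif_pos h]; exact ht a h
    · simp only [dif_neg h]; exact one_pos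
  · intro a ha
    by_cases h : M.wt a ≠ 0
    · rw [dif_pos h] at ha; cases ha
    · rw [dif_neg h]
  · intro a ha
    by_cases h : M.wt a ≠ 0
    · rw [dif_pos h] at ha; cases ha
    · exact not_not.1 h
  · intro a i ha
    by_cases h : M.wt a ≠ 0
    · rw [dif_pos h] at ha ⊢
      rw [← Option.some.inj ha]; exact hwt a h
    · rw [dif_neg h] at ha; cases ha
  · intro i i' t ht h
    exact Subtype.ext (hΦ.uniq _ i.2 _ i'.2 t ht h)
  · intro c hc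
    obtain ⟨b, hb, t, ht, h2⟩ := hΦ.ex _ hc
    exact ⟨⟨b, hb⟩, t, ht, h2⟩

end rays

namespace RayD

variable {S : Type} [Group S] [MeasurableSpace S] {Γ : Type} [Group Γ]
  {V : Type} [AddCommGroup V] [Module ℝ V] {k : ℕ} {M : RModel S Γ V k} {J : Type}
  (Rd : RayD M J)

/-- sizes of the letters at extents `ρ` -/
noncomputable def sz (ρ : Option J → ℝ) (a : M.ι) : ℝ := Real.exp (Rd.τ a * ρ (Rd.ray a))

theorem sz_pos (ρ : Option J → ℝ) (a : M.ι) : 0 < Rd.sz ρ a := Real.exp_pos _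

theorem b_ne (j : J) : Rd.b j ≠ 0 := M.Φ_ne _ (Rd.mem j)

theorem eq_of_wt {a a' : M.ι} (h : M.wt a = M.wt a') : Rd.ray a = Rd.ray a' ∧ Rd.τ a = Rd.τ a' := by
  rcases h1 : Rd.ray a with _ | j <;> rcases h2 : Rd.ray a' with _ | j'
  · exact ⟨rfl, by rw [Rd.τ_none a h1, Rd.τ_none a' h2]⟩
  · exfalso
    rw [Rd.wt_none a h1, Rd.wt_some a' j' h2] at h
    have := (smul_eq_zero.1 h.symm).resolve_left (Rd.τ_pos a').ne'
    exact Rd.b_ne j' this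
  · exfalso
    rw [Rd.wt_none a' h2, Rd.wt_some a j h1] at h
    have := (smul_eq_zero.1 h).resolve_left (Rd.τ_pos a).ne'
    exact Rd.b_ne j this
  · rw [Rd.wt_some a j h1, Rd.wt_some a' j' h2] at h
    have h3 : Rd.b j = ((Rd.τ a)⁻¹ * Rd.τ a') • Rd.b j' := by
      rw [mul_smul, ← h, inv_smul_smul₀ (Rd.τ_pos a).ne']
    have h4 : j = j' := Rd.uniq _ _ _ (mul_pos (inv_pos.2 (Rd.τ_pos a)) (Rd.τ_pos a')) h3
    subst h4
    refine ⟨rfl, ?_⟩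
    exact smul_left_injective ℝ (Rd.b_ne j) h

theorem sz_eq_of_wt (ρ : Option J → ℝ) {a a' : M.ι} (h : M.wt a = M.wt a') :
    Rd.sz ρ a = Rd.sz ρ a' := by
  obtain ⟨h1, h2⟩ := Rd.eq_of_wt h
  rw [sz, sz, h1, h2]

theorem sz_mono {ρ ρ' : Option J → ℝ} (h : ∀ j, ρ j ≤ ρ' j) (a : M.ι) : Rd.sz ρ a ≤ Rd.sz ρ' a :=
  Real.exp_le_exp.2 (mul_le_mul_of_nonneg_left (h _) (Rd.τ_pos a).le)

theorem one_le_sz {ρ : Option J → ℝ} (h : ∀ j, 0 ≤ ρ j) (a : M.ι) : 1 ≤ Rd.sz ρ a :=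
  Real.one_le_exp (mul_nonneg (Rd.τ_pos a).le (h _))

theorem exists_τ : ∃ t0 T0 : ℝ, 0 < t0 ∧ 1 ≤ T0 ∧ ∀ a, t0 ≤ Rd.τ a ∧ Rd.τ a ≤ T0 := by
  classical
  rcases isEmpty_or_nonempty M.ι with hE | hE
  · exact ⟨1, 1, one_pos, le_rfl, fun a => (hE.false a).elim⟩
  · obtain ⟨a0, -, h0⟩ := Finset.exists_min_image univ Rd.τ univ_nonempty
    obtain ⟨a1, -, h1⟩ := Finset.exists_max_image univ Rd.τ univ_nonempty
    exact ⟨Rd.τ a0, max 1 (Rd.τ a1), Rd.τ_pos a0, le_max_left _ _,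
      fun a => ⟨h0 a (mem_univ _), (h1 a (mem_univ _)).trans (le_max_right _ _)⟩⟩

/-- constants are absorbed by the extents -/
theorem mul_sz_le {t0 : ℝ} (ht0 : 0 < t0) (hτ : ∀ a, t0 ≤ Rd.τ a) {K x : ℝ} {κ : ℝ}
    (hK : K ≤ Real.exp κ) (hx : κ / t0 ≤ x) (hx0 : 0 ≤ x) (ρ : Option J → ℝ) (a : M.ι) :
    K * Rd.sz ρ a ≤ Rd.sz (fun j => ρ j + x) a := by
  refine (mul_le_mul_of_nonneg_right hK (Rd.sz_pos ρ a).le).trans ?_
  rw [sz, ← Real.exp_add, sz, Real.exp_le_exp]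
  have h1 : κ ≤ Rd.τ a * x := by
    rw [div_le_iff₀ ht0] at hx
    have := hτ a
    nlinarith
  linarith

end RayD

end Vale.Agent.P188.H615
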