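import Vale.Agent.P188.H615.Letters
import Vale.Agent.P188.H131.NatVol
import Vale.Agent.P188.Z1.DBox

/-!
The natural boxes of the real model.
-/

open Finset Filter Topology MeasureTheory
open scoped Pointwise

namespace Vale.Agent.P188.H615

open Vale.Agent.P188.H796 Vale.Agent.P188.H131 Vale.Agent.P188.Z1

section coordR

variable {N : Type} [Group N] {d n : ℕ} {D : MB N d n} {A : Type} [NormedRing A]
  [NormedAlgebra ℝ A] [FiniteDimensional ℝ A] {R : RD D A} {ι : Type} [Fintype ι]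

/-- coordinates in a family of vectors -/
theorem span_coord (X : ι → R.V) (p : ι → Prop)
    (W : Submodule ℝ R.V) (hW : W ≤ Submodule.span ℝ (X '' {i | p i})) :
    ∃ C : ℝ, 0 ≤ C ∧ ∀ v ∈ W, ∃ a : ι → ℝ, v = ∑ i, a i • X i ∧ (∀ i, ¬ p i → a i = 0) ∧
      ∀ i, |a i| ≤ C * ‖(v : A)‖ := by
  classical
  let T : ({i // p i} → ℝ) →ₗ[ℝ] A :=
    ∑ i : {i // p i}, (LinearMap.proj i : ({i // p i} → ℝ) →ₗ[ℝ] ℝ).smulRight (X i : A)
  have hT : ∀ y, T y = ∑ i : {i // p i}, y i • (X i : A) := by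
    intro y
    simp only [T, LinearMap.sum_apply, LinearMap.smulRight_apply, LinearMap.proj_apply]
  obtain ⟨g, hg⟩ := LinearMap.exists_rightInverse_of_surjective T.rangeRestrict
    (LinearMap.range_eq_top.2 T.surjective_rangeRestrict)
  obtain ⟨G, hG⟩ := LinearMap.exists_extend g
  set c : ℝ := ‖LinearMap.toContinuousLinearMap G‖ with hc
  have hc0 : 0 ≤ c := norm_nonneg _
  refine ⟨c, hc0, fun v hv => ?_⟩
  have hvr : (v : A) ∈ LinearMap.range T := by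
    have h1 : Submodule.span ℝ (X '' {i | p i}) ≤ (LinearMap.range T).comap R.V.subtype := by
      refine Submodule.span_le.2 ?_
      rintro _ ⟨i, hi, rfl⟩
      refine ⟨Pi.single ⟨i, hi⟩ 1, ?_⟩
      rw [hT, Finset.sum_eq_single (⟨i, hi⟩ : {i // p i})]
      · rw [Pi.single_eq_same, one_smul]; rfl
      · intro j _ hj
        rw [Pi.single_eq_of_ne hj, zero_smul]
      · intro h; exact absurd (mem_univ _) h
    exact h1 (hW hv)
  have hTG : T (G (v : A)) = (v : A) := by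
    have h1 : G (v : A) = g ⟨(v : A), hvr⟩ := by rw [← hG]; rfl
    have h2 := LinearMap.congr_fun hg ⟨(v : A), hvr⟩
    have h3 : T (g ⟨(v : A), hvr⟩) = (v : A) := congrArg Subtype.val h2
    rw [h1, h3]
  refine ⟨fun i => if h : p i then G (v : A) ⟨i, h⟩ else 0, ?_, fun i hi => dif_neg hi,
    fun i => ?_⟩
  · apply Subtype.ext
    set a := G (v : A) with ha
    rw [← hTG, hT, Submodule.coe_sum]
    rw [← Fintype.sum_subtype_add_sum_subtype p (fun i => (((if h : p i then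
      a ⟨i, h⟩ else 0) • X i : R.V) : A))]
    have h1 : ∑ i : {i // ¬ p i}, (((if h : p (i : ι) then
        a ⟨i, h⟩ else 0) • X i : R.V) : A) = 0 := by
      refine Finset.sum_eq_zero fun i _ => ?_
      rw [dif_neg i.2, zero_smul]; rfl
    rw [h1, add_zero]
    refine Finset.sum_congr rfl fun i _ => ?_
    rw [dif_pos i.2]; rfl
  · by_cases h : p i
    · simp only [dif_pos h]
      have h1 := (LinearMap.toContinuousLinearMap G).le_opNorm (v : A)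
      have h2 : (LinearMap.toContinuousLinearMap G) (v : A) = G (v : A) := rfl
      rw [h2] at h1
      exact (norm_le_pi_norm (G (v : A)) ⟨i, h⟩).trans h1
    · simp only [dif_neg h, abs_zero]
      exact mul_nonneg hc0 (norm_nonneg _)

end coordR

section folner

/-- invariance of the boxes under small boxes, from products and volumes -/
theorem fol_of {S : Type} [Group S] [MeasurableSpace S] (μ : Measure S) {ι : Type}
    (Bx : (ι → ℝ) → Set S) (hmeas : ∀ R, MeasurableSet (Bx R)) (hfin : ∀ R, μ (Bx R) ≠ ⊤)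
    (hmono : ∀ R R', (∀ i, 0 ≤ R i) → (∀ i, R i ≤ R' i) → Bx R ⊆ Bx R')
    (mp : ∀ w : S, MeasurePreserving (fun x => x * w) μ μ)
    (mpl : ∀ w : S, MeasurePreserving (fun x => w * x) μ μ)
    (fmul : ∀ ε : ℝ, 0 < ε → ∃ δ : ℝ, 0 < δ ∧ δ ≤ 1 ∧ ∀ R : ι → ℝ, (∀ i, 0 ≤ R i) →
      ∀ x ∈ Bx R, ∀ y ∈ Bx (fun i => δ * R i),
        x * y ∈ Bx (fun i => (1 + ε) * R i) ∧ y * x ∈ Bx (fun i => (1 + ε) * R i))
    (fvol : ∀ ε : ℝ, 0 < ε → ∃ δ : ℝ, 0 < δ ∧ ∀ R : ι → ℝ, (∀ i, 0 < R i) →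
      μ (Bx fun i => (1 + δ) * R i) ≤ ENNReal.ofReal (1 + ε) * μ (Bx R)) :
    ∀ ε : ℝ, 0 < ε → ∃ δ : ℝ, 0 < δ ∧ δ ≤ 1 ∧ ∀ R, (∀ i, 0 < R i) →
      ∀ x ∈ Bx (fun i => δ * R i), ∀ y ∈ Bx (fun i => δ * R i),
        μ {v | v ∈ Bx R ∧ x * v * y ∉ Bx R} ≤ ENNReal.ofReal ε * μ (Bx R) := by
  intro ε hε
  obtain ⟨e, he, H⟩ := fvol ε hε
  set e1 : ℝ := min 1 (e / 3) with he1
  have he10 : 0 < e1 := by positivity
  have he11 : e1 ≤ 1 := min_le_left _ _
  have he12 : e1 ≤ e / 3 := min_le_right _ _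
  have he13 : (1 + e1) * (1 + e1) ≤ 1 + e := by nlinarith
  obtain ⟨δ, hδ, hδ1, F⟩ := fmul e1 he10
  refine ⟨δ, hδ, hδ1, fun R hR x hx y hy => ?_⟩
  have hR0 : ∀ i, 0 ≤ R i := fun i => (hR i).le
  have hsub : Bx R ⊆ Bx fun i => (1 + e) * R i := hmono _ _ hR0 fun i => by
    have := hR i
    nlinarith
  have key : ∀ v ∈ Bx R, x * v * y ∈ Bx fun i => (1 + e) * R i := by
    intro v hv
    have h1 := (F R hR0 v hv y hy).1
    have h2 := (F (fun i => (1 + e1) * R i) (fun i => mul_nonneg (by linarith) (hR0 i)) _ h1 x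
      (hmono _ _ (fun i => mul_nonneg hδ.le (hR0 i)) (fun i => by
        have := hR i
        have : R i ≤ (1 + e1) * R i := by nlinarith
        exact mul_le_mul_of_nonneg_left this hδ.le) hx)).2
    rw [mul_assoc]
    refine hmono _ _ (fun i => ?_) (fun i => ?_) h2
    · exact mul_nonneg (by linarith) (mul_nonneg (by linarith) (hR0 i))
    · rw [← mul_assoc]
      exact mul_le_mul_of_nonneg_right he13 (hR0 i)
  have hT : MeasurePreserving (fun v => x * v * y) μ μ := by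
    have := (mp y).comp (mpl x)
    exact this
  have h1 : {v | v ∈ Bx R ∧ x * v * y ∉ Bx R} ⊆
      (fun v => x * v * y) ⁻¹' ((Bx fun i => (1 + e) * R i) \ Bx R) := by
    rintro v ⟨hv, hv2⟩
    exact ⟨key v hv, hv2⟩
  refine (measure_mono h1).trans ?_
  rw [hT.measure_preimage ((hmeas _).diff (hmeas _)).nullMeasurableSet,
    measure_sdiff hsub (hmeas _).nullMeasurableSet (hfin _)]
  refine tsub_le_iff_right.2 ((H R hR).trans (le_of_eq ?_))
  rw [ENNReal.ofReal_add zero_le_one hε.le, ENNReal.ofReal_one, add_mul, one_mul, add_comm]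

end folner

section nati

variable {Γ : Type} [Group Γ] {k : ℕ} {η : Γ →* Multiplicative (Fin k → ℤ)} {d n : ℕ}
  {D : MB η.ker d n}

theorem Gb_eq_LB {ι : Type} [Fintype ι] (X : ι → D.R.V) (r : ι → ℝ) : Gb X r = LB X r := by
  ext v
  constructor
  · rintro ⟨y, hy, rfl⟩
    exact ⟨y, hy, sum_congr rfl fun i _ => by rw [smul_smul]⟩
  · rintro ⟨y, hy, rfl⟩
    exact ⟨y, hy, sum_congr rfl fun i _ => by rw [smul_smul]⟩

/-- the model is the concrete one, and the letters span the weight spaces -/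
structure NatHyp (M : RModel D.S Γ D.R.V k) : Prop where
  hex : ∀ v, M.ex v = D.ex v
  hAd : ∀ s v, M.Ad s v = D.AdE s v
  hη : ∀ s, M.η s = D.θ η s
  hnm : ∀ v, M.nm v = D.nm v
  hμ : M.μ = muD D
  span : ∀ b, (b ∈ M.Φ ∨ b = 0) → M.Vw b ≤ Submodule.span ℝ (M.X '' {i | M.wt i = b})
  e_gen : ∀ v ∈ M.e, v ∈ LieSubalgebra.lieSpan ℝ D.R.V (M.X '' {i | M.wt i ≠ 0})
  gen : ∀ v, v ∈ LieSubalgebra.lieSpan ℝ D.R.V (Set.range M.X)

variable (M : RModel D.S Γ D.R.V k)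

theorem mulC {ι : Type} [Fintype ι] (X : ι → D.R.V) : ∃ C : ℝ, 1 ≤ C ∧ ∀ C' : ℝ, C ≤ C' →
    ∀ r : ι → ℝ, ∀ x ∈ NBx D X r, ∀ y ∈ NBx D X r, x * y ∈ NBx D X fun i => C' * r i := by
  obtain ⟨C, hC, H⟩ := fmul_nb D.R
  refine ⟨1 + C, by linarith, fun C' hC' r => ?_⟩
  rintro _ ⟨v, hv, rfl⟩ _ ⟨w, hw, rfl⟩
  have h1 := (H (Gb X r) (csy_Gb X r) 1 one_pos le_rfl (D.R.Ex v) (D.R.Ex w)
    (by rw [D.R.Lo_Ex]; exact hv) (by rw [D.R.Lo_Ex, one_smul]; exact hw)).1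
  change D.inN (D.R.Ex v) * D.inN (D.R.Ex w) ∈ _
  rw [← map_mul, mem_NBx_Ex, Gb_smul]
  refine nb_mono ?_ h1
  intro u hu
  exact (csy_Gb X r).mem_mono (by linarith) (by linarith) hu

theorem genC (ι : Type) [Fintype ι] : ∃ (p : ℕ) (J : Fin p → ι) (C : ℝ), 1 ≤ C ∧
    ∀ C' : ℝ, C ≤ C' → ∀ (X : ι → D.R.V) (r : ι → ℝ), (∀ i, 0 ≤ r i) → ∀ u ∈ NBx D X r,
      ∃ x : Fin p → ℝ, (∀ t, |x t| ≤ C' * r (J t)) ∧
        u = (List.ofFn fun t => D.ex (x t • X (J t))).prod := by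
  obtain ⟨p, J, C, hC, H⟩ := genW ι D.R.m
  refine ⟨p, J, C, hC, fun C' hC' X r hr => ?_⟩
  rintro _ ⟨v, hv, rfl⟩
  rw [Gb_eq_LB] at hv
  obtain ⟨x, hx, h⟩ := H (R := D.R) rfl X r hr (D.R.Ex v) (by rw [D.R.Lo_Ex]; exact hv)
  refine ⟨x, fun t => (hx t).trans (mul_le_mul_of_nonneg_right hC' (hr _)), ?_⟩
  change D.inN (D.R.Ex v) = _
  rw [h, map_list_prod, List.map_ofFn]
  rfl

theorem conjC (h : NatHyp M) : ∃ C : ℝ, 0 ≤ C ∧ ∀ C' : ℝ, C ≤ C' →
    ∀ m, ∀ c ∈ M.CB m, ∀ r, M.Adm r → ∀ u ∈ NBx D M.X r,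
      c * u * c⁻¹ ∈ NBx D M.X
        (fun i => C' * (1 + m) ^ M.deg * Real.exp (M.wt i (M.θ c)) * r i) := by
  classical
  have hco : ∀ i : M.ι, ∃ C : ℝ, 0 ≤ C ∧ ∀ v ∈ M.Vw (M.wt i), ∃ a : M.ι → ℝ,
      v = ∑ j, a j • M.X j ∧ (∀ j, M.wt j ≠ M.wt i → a j = 0) ∧ ∀ j, |a j| ≤ C * D.nm v := by
    intro i
    exact span_coord M.X (fun j => M.wt j = M.wt i) (M.Vw (M.wt i)) (h.span _ (M.wt_mem i))
  choose Ci hCi0 hCi using hco
  set K : ℝ := (∑ i, Ci i) * M.C0 * Fintype.card M.ι with hK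
  have hS0 : 0 ≤ ∑ i, Ci i := sum_nonneg fun i _ => hCi0 i
  have hC00 : 0 ≤ M.C0 := by linarith [M.one_le_C0]
  refine ⟨K, by positivity, fun C' hC' m c hc r hr => ?_⟩
  rintro _ ⟨v, hv, rfl⟩
  have e1 : c * D.ex v * c⁻¹ = D.ex (D.AdE c v) := (D.ex_AdE c v).symm
  rw [e1]
  refine ⟨D.AdE c v, ?_, rfl⟩
  rw [Gb_eq_LB] at hv ⊢
  refine nb_map (D.AdE c) (D.Ad_lie c) ?_ hv
  refine map_LB M.X (D.AdE c) fun i => ?_
  have h1 : M.Ad c (M.X i) ∈ M.Vw (M.wt i) := M.C_inv m c hc _ _ (M.X_mem i)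
  have hWt : M.wt i ∈ M.Wt := by
    rcases M.wt_mem i with h | h
    · exact M.Φ_sub h
    · rw [h]; exact M.zero_mem_Wt
  have h2 := M.C_le m c hc _ hWt _ (M.X_mem i)
  rw [h.hAd] at h1 h2
  rw [h.hnm, h.hnm] at h2
  obtain ⟨a, ha1, ha2, ha3⟩ := hCi i _ h1
  have hX1 : D.nm (M.X i) ≤ 1 := by rw [← h.hnm]; exact M.X_le i
  refine ⟨fun j => r i * a j, ?_, fun j => ?_⟩
  · rw [map_smul]
    conv_lhs => rw [ha1]
    rw [smul_sum]
    exact sum_congr rfl fun j _ => by rw [smul_smul]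
  · by_cases hj : M.wt j = M.wt i
    · have hrij : r i ≤ r j := by
        have := hr.le i [j] (by simp) (by simp [hj])
        simpa using this
      have hri := hr.pos i
      have hrj := hr.pos j
      set E : ℝ := Real.exp (M.wt i (M.θ c)) with hE
      have hE0 : 0 < E := Real.exp_pos _
      have h3 : |a j| ≤ (∑ i, Ci i) * (M.C0 * (1 + m) ^ M.deg * E) := by
        refine (ha3 j).trans ?_
        refine mul_le_mul (single_le_sum (fun i _ => hCi0 i) (mem_univ i)) ?_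
          (apply_nonneg _ _) hS0
        refine h2.trans ?_
        have : M.C0 * (1 + (m : ℝ)) ^ M.deg * E * D.nm (M.X i) ≤
            M.C0 * (1 + (m : ℝ)) ^ M.deg * E * 1 :=
          mul_le_mul_of_nonneg_left hX1 (by positivity)
        rw [mul_one] at this
        exact this
      rw [abs_mul, abs_of_pos hri, hj]
      have h4 : r i * |a j| ≤ r j * ((∑ i, Ci i) * (M.C0 * (1 + m) ^ M.deg * E)) :=
        mul_le_mul hrij h3 (abs_nonneg _) hrj.le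
      calc r i * |a j| * Fintype.card M.ι
          ≤ r j * ((∑ i, Ci i) * (M.C0 * (1 + m) ^ M.deg * E)) * Fintype.card M.ι :=
            mul_le_mul_of_nonneg_right h4 (Nat.cast_nonneg _)
        _ = K * ((1 + m) ^ M.deg * E * r j) := by rw [hK]; ring
        _ ≤ C' * ((1 + m) ^ M.deg * E * r j) :=
            mul_le_mul_of_nonneg_right hC' (by positivity)
        _ = _ := by ring
    · have h3 : r i * a j = 0 := by rw [ha2 j hj, mul_zero]
      simp only [h3, abs_zero, zero_mul]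
      have := hr.pos j
      have hC'0 : 0 ≤ C' := le_trans (by positivity) hC'
      positivity

theorem ballE (h : NatHyp M) : ∃ C : ℝ, 1 ≤ C ∧ ∀ C' : ℝ, C ≤ C' → ∀ v ∈ M.e,
    M.ex v ∈ NBx D M.X (M.two 1 (C' * (1 + M.nm v))) := by
  classical
  obtain ⟨C, hC, H⟩ := absorb (R := D.R) (fun i : {i // M.wt i ≠ 0} => M.X i) M.e (by
    intro v hv
    have h1 : Set.range (fun i : {i // M.wt i ≠ 0} => M.X i) = M.X '' {i | M.wt i ≠ 0} := by
      ext x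
      constructor
      · rintro ⟨i, rfl⟩
        exact ⟨i, i.2, rfl⟩
      · rintro ⟨i, hi, rfl⟩
        exact ⟨⟨i, hi⟩, rfl⟩
    rw [h1]
    exact h.e_gen v hv)
  refine ⟨C, hC, fun C' hC' v hv => ?_⟩
  rw [h.hex, h.hnm]
  refine ⟨v, ?_, rfl⟩
  have h1 := H C' hC' v hv
  refine nb_mono ?_ h1
  rintro _ ⟨y, hy, rfl⟩
  refine ⟨fun i => if h : M.wt i ≠ 0 then y ⟨i, h⟩ else 0, fun i => ?_, ?_⟩
  · by_cases hi : M.wt i ≠ 0
    · simp only [dif_pos hi]; exact hy _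
    · simp only [dif_neg hi, abs_zero]; exact zero_le_one
  · rw [← Fintype.sum_subtype_add_sum_subtype (fun i => M.wt i ≠ 0)]
    have h2 : ∑ i : {i // ¬ M.wt i ≠ 0}, ((if h : M.wt (i : M.ι) ≠ 0 then y ⟨i, h⟩ else 0) *
        M.two 1 (C' * (1 + D.nm v)) i) • M.X i = 0 := by
      refine Finset.sum_eq_zero fun i _ => ?_
      rw [dif_neg i.2, zero_mul, zero_smul]
    rw [h2, add_zero]
    refine Finset.sum_congr rfl fun i _ => ?_
    simp only [dif_pos i.2]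
    rw [RModel.two, if_neg i.2, smul_smul]
    rfl

theorem ball0 (h : NatHyp M) : ∃ C : ℝ, 0 ≤ C ∧ ∀ C' : ℝ, C ≤ C' → ∀ v ∈ M.Vw 0,
    M.ex v ∈ NBx D M.X (M.two (C' * (1 + M.nm v)) 1) := by
  classical
  obtain ⟨C, hC, H⟩ := span_coord M.X (fun i => M.wt i = 0) (M.Vw 0) (h.span 0 (Or.inr rfl))
  refine ⟨C, hC, fun C' hC' v hv => ?_⟩
  obtain ⟨a, ha1, ha2, ha3⟩ := H v hv
  rw [h.hex, h.hnm]
  refine ⟨v, ?_, rfl⟩
  refine sub_nb (csy_Gb _ _) ?_
  rw [Gb_eq_LB]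
  rw [ha1]
  refine mem_LB_of_le M.X a fun i => ?_
  have hn0 : 0 ≤ D.nm v := apply_nonneg _ _
  by_cases hi : M.wt i = 0
  · rw [RModel.two, if_pos hi, ← ha1]
    refine (ha3 i).trans ?_
    change C * D.nm v ≤ _
    nlinarith
  · rw [RModel.two, if_neg hi, ha2 i hi, abs_zero]
    exact zero_le_one

/-- **the natural boxes of the real model** -/
theorem exists_natBox (h : NatHyp M) : ∃ B : M.NatBox, B.Bx = NBx D M.X ∧ B.Fine := by
  classical
  have := M.countable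
  obtain ⟨C1, hC1, hmul⟩ := mulC (D := D) M.X
  obtain ⟨p, J, C2, hC2, hgen⟩ := genC (D := D) M.ι
  obtain ⟨C3, hC3, hconj⟩ := conjC M h
  obtain ⟨C4, hC4, hbe⟩ := ballE M h
  obtain ⟨C5, hC5, hb0⟩ := ball0 M h
  set C : ℝ := C1 + C2 + C3 + C4 + C5 with hC
  have hmono : ∀ R R' : M.ι → ℝ, (∀ i, 0 ≤ R i) → (∀ i, R i ≤ R' i) →
      NBx D M.X R ⊆ NBx D M.X R' := fun R R' h0 h1 =>
    Set.image_mono (nb_mono (Gb_mono M.X h0 h1))
  have hmeas : ∀ R, MeasurableSet (NBx D M.X R) := meas_NBx D M.X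
  have hfin : ∀ R, M.μ (NBx D M.X R) ≠ ⊤ := by
    intro R; rw [h.hμ]; exact fin_NBx D M.X R
  have hfmul : ∀ ε : ℝ, 0 < ε → ∃ δ : ℝ, 0 < δ ∧ δ ≤ 1 ∧ ∀ R : M.ι → ℝ, (∀ i, 0 ≤ R i) →
      ∀ x ∈ NBx D M.X R, ∀ y ∈ NBx D M.X (fun i => δ * R i),
        x * y ∈ NBx D M.X (fun i => (1 + ε) * R i) ∧
          y * x ∈ NBx D M.X (fun i => (1 + ε) * R i) := by
    intro ε hε
    obtain ⟨δ, h1, h2, h3⟩ := fmul_NBx D M.X ε hε
    exact ⟨δ, h1, h2, fun R _ => h3 R⟩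
  have hfvol : ∀ ε : ℝ, 0 < ε → ∃ δ : ℝ, 0 < δ ∧ ∀ R : M.ι → ℝ, (∀ i, 0 < R i) →
      M.μ (NBx D M.X fun i => (1 + δ) * R i) ≤ ENNReal.ofReal (1 + ε) * M.μ (NBx D M.X R) := by
    intro ε hε
    obtain ⟨δ, h1, h2⟩ := fvol_NBx D M.X ε hε
    exact ⟨δ, h1, fun R _ => by rw [h.hμ]; exact h2 R⟩
  let B : M.NatBox :=
    { C := C
      one_le := by linarith
      Bx := NBx D M.X
      meas := hmeas
      sub := by
        rintro R _ ⟨v, _, rfl⟩
        rw [h.hη]; exact D.θ_ex v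
      one := fun R hR => ⟨0, (csy_nb (csy_Gb _ _)).zero, D.ex_zero⟩
      mono := hmono
      inv := by
        rintro R _ ⟨v, hv, rfl⟩
        refine ⟨-v, (csy_nb (csy_Gb _ _)).neg v hv, ?_⟩
        change D.inN (D.R.Ex (-v)) = (D.inN (D.R.Ex v))⁻¹
        rw [D.R.Ex_neg, map_inv]
      mul := fun R hR x hx y hy => hmul C (by linarith) R x hx y hy
      letter := by
        intro R hR i x hx
        rw [h.hex]
        exact ⟨_, sub_nb (csy_Gb _ _) (mem_Gb_letter M.X hx), rfl⟩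
      m := p
      J := J
      gen := by
        intro R hR u hu
        obtain ⟨x, hx1, hx2⟩ := hgen C (by linarith) M.X R hR u hu
        exact ⟨x, hx1, by rw [hx2]; simp only [h.hex]⟩
      dg := M.deg
      conj := fun n c hc R hR u hu => hconj C (by linarith) n c hc R hR u hu
      ball_e := hbe C (by linarith)
      ball_0 := hb0 C (by linarith)
      fol := fol_of M.μ (NBx D M.X) hmeas hfin hmono M.mp M.mpl hfmul hfvol
      dbl := by
        intro Λ hΛ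
        obtain ⟨C', hC'⟩ := dbl_NBx D M.X Λ hΛ
        exact ⟨C', fun R _ => by rw [h.hμ]; exact hC' R⟩
      pos := by
        intro R hR
        rw [h.hμ]; exact pos_NBx D M.X h.gen hR
      fin := hfin }
  exact ⟨B, rfl, ⟨hfmul, hfvol⟩⟩

end nati

end Vale.Agent.P188.H615
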