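import Vale.Agent.P188.H615.QBCH
import Vale.Agent.P188.H796.Lh

/-!
Baker, Campbell, Hausdorff on the Lie algebra of the real Malcev completion.
-/

open Finset Filter Topology Pointwise

universe u v

namespace Vale.Agent.P188.H615

open Vale.Agent.P188.H796

section hadamard

variable {A : Type*} [NormedRing A] [NormedAlgebra ℝ A] {m : ℕ}

/-- partial sums of `∑ t^k/k! ad^k W` -/
noncomputable def Ht (M : ℕ) (Z W : A) (t : ℝ) : A :=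
  ∑ k ∈ range M, t ^ k • ((k.factorial : ℝ)⁻¹ • ((adL Z) ^ k) W)

theorem hasDerivAt_Ht {M : ℕ} {Z W : A} (hM : ((adL Z) ^ M) W = 0) (t : ℝ) :
    HasDerivAt (Ht M Z W) (adL Z (Ht M Z W t)) t := by
  have h2 : ∀ k ∈ range M, HasDerivAt (fun s : ℝ => s ^ k •
      ((k.factorial : ℝ)⁻¹ • ((adL Z) ^ k) W))
      (((k : ℝ) * t ^ (k - 1)) • ((k.factorial : ℝ)⁻¹ • ((adL Z) ^ k) W)) t := by
    intro k _
    exact (hasDerivAt_pow k t).smul_const _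
  have h3 := HasDerivAt.fun_sum h2
  suffices hs : adL Z (Ht M Z W t) = ∑ k ∈ range M, ((k : ℝ) * t ^ (k - 1)) •
      ((k.factorial : ℝ)⁻¹ • ((adL Z) ^ k) W) by
    rw [hs]; exact h3
  have h6 : adL Z (Ht M Z W t) = ∑ k ∈ range M,
      t ^ k • ((k.factorial : ℝ)⁻¹ • ((adL Z) ^ (k + 1)) W) := by
    unfold Ht
    rw [map_sum]
    refine sum_congr rfl fun k _ => ?_
    rw [map_smul, map_smul, pow_succ' (adL Z), Module.End.mul_apply]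
  rw [h6]
  cases M with
  | zero => simp
  | succ M =>
    rw [sum_range_succ, hM, smul_zero, smul_zero, add_zero,
      sum_range_succ' (fun k => ((k : ℝ) * t ^ (k - 1)) •
        ((k.factorial : ℝ)⁻¹ • ((adL Z) ^ k) W))]
    simp only [Nat.cast_zero, zero_mul, zero_smul, add_zero]
    refine sum_congr rfl fun k _ => ?_
    rw [smul_smul, smul_smul, Nat.add_sub_cancel, Nat.factorial_succ]
    congr 1
    push_cast
    have : ((k : ℝ) + 1) ≠ 0 := by positivity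
    have : (k.factorial : ℝ) ≠ 0 := by positivity
    field_simp

/-- `exp Z * W * exp (-Z) = exp (ad Z) W` -/
theorem hadamard (hm : 0 < m) {Z W : A} (hZ : Z ^ m = 0) :
    ex m Z * W * ex m (-Z) = Ht (2 * m) Z W 1 := by
  have hM : ((adL Z) ^ (2 * m)) W = 0 := by rw [adL_pow_zero hZ]; rfl
  have hZ' : (-Z) ^ m = 0 := by rw [neg_pow, hZ, mul_zero]
  have key : ∀ t : ℝ, HasDerivAt (fun t : ℝ => ex m (t • Z) * W * ex m ((-t) • Z) -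
      Ht (2 * m) Z W t)
      (-(adL (-Z) (ex m (t • Z) * W * ex m ((-t) • Z) - Ht (2 * m) Z W t))) t := by
    intro t
    have h3 := (((hasDerivAt_ex hZ t).mul_const W).fun_mul (hasDerivAt_ex_neg hZ t)).fun_sub
      (hasDerivAt_Ht hM t)
    refine h3.congr_deriv ?_
    rw [adL_apply, adL_apply]
    have h5 := (ex_comm (m := m) Z t).eq
    have h6 := (ex_comm (m := m) Z (-t)).eq
    rw [h6, ← h5]
    noncomm_ring
  have h0 : ex m ((0 : ℝ) • Z) * W * ex m ((-(0 : ℝ)) • Z) - Ht (2 * m) Z W 0 = 0 := by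
    rw [neg_zero, ex_zero_smul hm, one_mul, mul_one, sub_eq_zero]
    unfold Ht
    obtain ⟨n, hn⟩ : ∃ n, 2 * m = n + 1 := ⟨2 * m - 1, by omega⟩
    rw [hn, sum_range_succ']
    simp
  have := ad_unique hm hZ' key h0 1
  rw [neg_smul, one_smul] at this
  exact sub_eq_zero.mp this

theorem hadamard_mem (hm : 0 < m) {H I I' I'' : Submodule ℝ A} (hI'' : I'' ≤ I')
    (hb : ∀ x ∈ H, ∀ y ∈ I, x * y - y * x ∈ I') (hb' : ∀ x ∈ H, ∀ y ∈ I', x * y - y * x ∈ I'')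
    {Z W : A} (hZ : Z ^ m = 0) (hZH : Z ∈ H) (hW : W ∈ I) :
    ex m Z * W * ex m (-Z) - W - (Z * W - W * Z) ∈ I'' := by
  rw [hadamard hm hZ]
  unfold Ht
  obtain ⟨n, hn⟩ : ∃ n, 2 * m = n + 1 + 1 := ⟨2 * m - 2, by omega⟩
  rw [hn, sum_range_succ', sum_range_succ']
  have h1 : ∀ k, ((adL Z) ^ (k + 2)) W ∈ I'' := by
    intro k
    induction k with
    | zero =>
      rw [pow_two, Module.End.mul_apply, adL_apply, adL_apply]
      exact hb' _ hZH _ (hb _ hZH _ hW)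
    | succ k ih =>
      rw [show k + 1 + 2 = (k + 2) + 1 from rfl, pow_succ', Module.End.mul_apply, adL_apply]
      exact hb' _ hZH _ (hI'' ih)
  have h2 : (∑ k ∈ range n, (1 : ℝ) ^ (k + 1 + 1) •
      (((k + 1 + 1).factorial : ℝ)⁻¹ • ((adL Z) ^ (k + 1 + 1)) W)) ∈ I'' :=
    I''.sum_mem fun k _ => I''.smul_mem _ (I''.smul_mem _ (h1 k))
  simpa using h2

end hadamard

section transfer

variable {N : Type u} [Group N] {d n : ℕ} {D : MB N d n} {A : Type v} [NormedRing A]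
  [NormedAlgebra ℝ A] [FiniteDimensional ℝ A] (R : RD D A)

theorem V_pow (v : R.V) : (v : A) ^ R.m = 0 := R.J_nil (R.V_le_J v.2)

theorem V_pow_add (v w : R.V) (s : ℝ) : ((v : A) + s • (w : A)) ^ R.m = 0 :=
  V_pow R (v + s • w)

theorem V_unip (x : R.NR) (v w : R.V) (s : ℝ) :
    (R.toA x * ex R.m ((v : A) + s • (w : A)) - 1) ^ R.m = 0 := by
  have h1 : ex R.m ((v : A) + s • (w : A)) = R.toA (R.Ex (v + s • w)) := by
    rw [R.toA_Ex]; rfl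
  rw [h1, ← map_mul]
  exact R.E_unip _

theorem coe_Lo (x : R.NR) : ((R.Lo x : R.V) : A) = lg R.m (R.toA x) := rfl

theorem coe_Lo_mul_Ex (x : R.NR) (v : R.V) :
    ((R.Lo (x * R.Ex v) : R.V) : A) = lg R.m (R.toA x * ex R.m (v : A)) := by
  rw [coe_Lo, map_mul, R.toA_Ex]

/-- the image of a Lie submodule in the algebra -/
noncomputable def im (I : Submodule ℝ R.V) : Submodule ℝ A := I.map R.V.subtype

theorem mem_im {I : Submodule ℝ R.V} {v : R.V} : (v : A) ∈ im R I ↔ v ∈ I := by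
  constructor
  · rintro ⟨w, hw, h⟩
    have : w = v := Subtype.ext h
    rwa [← this]
  · intro h
    exact ⟨v, h, rfl⟩

theorem im_mono {I J : Submodule ℝ R.V} (h : I ≤ J) : im R I ≤ im R J := Submodule.map_mono h

theorem im_bracket {H I I' : Submodule ℝ R.V} (h : ∀ x ∈ H, ∀ y ∈ I, ⁅x, y⁆ ∈ I') :
    ∀ x ∈ im R H, ∀ y ∈ im R I, x * y - y * x ∈ im R I' := by
  rintro _ ⟨x, hx, rfl⟩ _ ⟨y, hy, rfl⟩
  exact ⟨⁅x, y⁆, h x hx y hy, rfl⟩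

/-- algebraic BCH, submodule form -/
theorem Lo_mul_Ex_add' {H I I' : Submodule ℝ R.V} (hI : I ≤ H) (hI' : I' ≤ I)
    (hb : ∀ x ∈ H, ∀ y ∈ I, ⁅x, y⁆ ∈ I') (x : R.NR) {v w : R.V} (hv : v ∈ H) (hw : w ∈ I)
    (hx : R.Lo (x * R.Ex v) ∈ H) :
    R.Lo (x * R.Ex (v + w)) - R.Lo (x * R.Ex v) - w ∈ I' := by
  rw [← mem_im R]
  have h := bch_mod_gen (R.hm0) (im_mono R hI) (im_mono R hI') (im_bracket R hb)
    (g := R.toA x) (X := (v : A)) (Y := (w : A)) ((mem_im R).2 hv) ((mem_im R).2 hw)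
    (V_pow_add R v w) (V_unip R x v w) (by rw [← coe_Lo_mul_Ex]; exact (mem_im R).2 hx)
  have h2 : (((R.Lo (x * R.Ex (v + w)) - R.Lo (x * R.Ex v) - w : R.V)) : A) =
      lg R.m (R.toA x * ex R.m ((v : A) + (w : A))) - lg R.m (R.toA x * ex R.m (v : A)) - w := by
    rw [Submodule.coe_sub, Submodule.coe_sub, coe_Lo_mul_Ex, coe_Lo_mul_Ex]
    rfl
  rw [h2]
  exact h

theorem Lo_one : R.Lo 1 = 0 := by
  rw [← R.Ex_zero, R.Lo_Ex]

theorem Lo_inv (x : R.NR) : R.Lo x⁻¹ = -R.Lo x := by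
  conv_lhs => rw [← R.Ex_Lo x, ← R.Ex_neg, R.Lo_Ex]

/-- `log (exp v * exp w) ≡ v + w` -/
theorem Lo_Ex_mul_Ex' {H I I' : Submodule ℝ R.V} (hI : I ≤ H) (hI' : I' ≤ I)
    (hb : ∀ x ∈ H, ∀ y ∈ I, ⁅x, y⁆ ∈ I') {v w : R.V} (hv : v ∈ H) (hw : w ∈ I) :
    R.Lo (R.Ex v * R.Ex w) - v - w ∈ I' := by
  have h := Lo_mul_Ex_add' R hI hI' hb (R.Ex v) (v := 0) (w := w) H.zero_mem hw
    (by rw [R.Ex_zero, mul_one, R.Lo_Ex]; exact hv)
  rwa [zero_add, R.Ex_zero, mul_one, R.Lo_Ex] at h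

/-- `log (exp v⁻¹ * exp (v + w)) ≡ w` -/
theorem Lo_Ex_inv_mul' {H I I' : Submodule ℝ R.V} (hI : I ≤ H) (hI' : I' ≤ I)
    (hb : ∀ x ∈ H, ∀ y ∈ I, ⁅x, y⁆ ∈ I') {v w : R.V} (hv : v ∈ H) (hw : w ∈ I) :
    R.Lo ((R.Ex v)⁻¹ * R.Ex (v + w)) - w ∈ I' := by
  have h := Lo_mul_Ex_add' R hI hI' hb (R.Ex v)⁻¹ (v := v) (w := w) hv hw
    (by rw [inv_mul_cancel, Lo_one]; exact H.zero_mem)
  rwa [inv_mul_cancel, Lo_one, sub_zero] at h

/-- the subgroup `exp W` of a Lie subalgebra -/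
noncomputable def ExS (W : Submodule ℝ R.V) (hW : ∀ x ∈ W, ∀ y ∈ W, ⁅x, y⁆ ∈ W) :
    Subgroup R.NR where
  carrier := {x | R.Lo x ∈ W}
  one_mem' := by
    change R.Lo 1 ∈ W
    rw [Lo_one]; exact W.zero_mem
  mul_mem' := by
    intro x y hx hy
    change R.Lo (x * y) ∈ W
    have h := Lo_Ex_mul_Ex' R le_rfl le_rfl hW hx hy
    rw [R.Ex_Lo, R.Ex_Lo] at h
    have h2 := W.add_mem (W.add_mem h hy) hx
    have h3 : R.Lo (x * y) - R.Lo x - R.Lo y + R.Lo y + R.Lo x = R.Lo (x * y) := by abel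
    rwa [h3] at h2
  inv_mem' := by
    intro x hx
    change R.Lo x⁻¹ ∈ W
    rw [Lo_inv]
    exact W.neg_mem hx

theorem mem_ExS {W : Submodule ℝ R.V} {hW : ∀ x ∈ W, ∀ y ∈ W, ⁅x, y⁆ ∈ W} {x : R.NR} :
    x ∈ ExS R W hW ↔ R.Lo x ∈ W := Iff.rfl

theorem coe_Adn_Ex (v w : R.V) :
    ((R.Adn (R.Ex v) w : R.V) : A) = ex R.m (v : A) * (w : A) * ex R.m (-(v : A)) := by
  rw [R.coe_Adn]
  have h1 : R.E (R.Ex v) = ex R.m (v : A) := R.toA_Ex v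
  have h2 : (((R.EU (R.Ex v))⁻¹ : Aˣ) : A) = ex R.m (-(v : A)) := by
    rw [← R.toA_inv, ← R.Ex_neg]
    exact R.toA_Ex (-v)
  rw [h1, h2]

/-- `Ad (exp v) w ≡ w + [v, w]` -/
theorem Adn_Ex_sub' {H I I' I'' : Submodule ℝ R.V} (hI'' : I'' ≤ I')
    (hb : ∀ x ∈ H, ∀ y ∈ I, ⁅x, y⁆ ∈ I') (hb' : ∀ x ∈ H, ∀ y ∈ I', ⁅x, y⁆ ∈ I'')
    {v w : R.V} (hv : v ∈ H) (hw : w ∈ I) :
    R.Adn (R.Ex v) w - w - ⁅v, w⁆ ∈ I'' := by
  rw [← mem_im R]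
  have h := hadamard_mem (R.hm0) (im_mono R hI'') (im_bracket R hb) (im_bracket R hb')
    (V_pow R v) ((mem_im R).2 hv) ((mem_im R).2 hw)
  rw [Submodule.coe_sub, Submodule.coe_sub, coe_Adn_Ex]
  exact h

theorem Adn_Ex_sub_mem' {H I I' : Submodule ℝ R.V} (hI' : I' ≤ I)
    (hb : ∀ x ∈ H, ∀ y ∈ I, ⁅x, y⁆ ∈ I') {v w : R.V} (hv : v ∈ H) (hw : w ∈ I) :
    R.Adn (R.Ex v) w - w ∈ I' := by
  have h := Adn_Ex_sub' R (I'' := I') le_rfl hb (fun x hx y hy => hb x hx y (hI' hy)) hv hw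
  have h2 := I'.add_mem h (hb v hv w hw)
  rwa [sub_add_cancel] at h2

open scoped commutatorElement in
/-- `log [exp v, exp w] ≡ [v, w]` -/
theorem Lo_comm' {H I I' I'' : Submodule ℝ R.V} (hI : I ≤ H) (hI' : I' ≤ I) (hI'' : I'' ≤ I')
    (hb : ∀ x ∈ H, ∀ y ∈ I, ⁅x, y⁆ ∈ I') (hb' : ∀ x ∈ H, ∀ y ∈ I', ⁅x, y⁆ ∈ I'')
    {v w : R.V} (hv : v ∈ H) (hw : w ∈ I) :
    R.Lo ⁅R.Ex v, R.Ex w⁆ - ⁅v, w⁆ ∈ I'' := by
  set w' := R.Adn (R.Ex v) w with hw'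
  have e1 := Adn_Ex_sub' R hI'' hb hb' hv hw
  have hd : w' - w ∈ I' := Adn_Ex_sub_mem' R hI' hb hv hw
  set dd := w' - w with hdd
  set U := R.Lo ((R.Ex w)⁻¹ * R.Ex (w + dd)) with hU
  have h2 : U - dd ∈ I'' := Lo_Ex_inv_mul' R (hI'.trans hI) hI'' hb' (hI hw) hd
  have hU' : U ∈ I' := by
    have := I'.add_mem (hI'' h2) hd
    rwa [sub_add_cancel] at this
  have h3 : R.Adn (R.Ex w) U - U ∈ I'' := Adn_Ex_sub_mem' R hI'' hb' (hI hw) hU'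
  have h4 : ⁅R.Ex v, R.Ex w⁆ = R.Ex (R.Adn (R.Ex w) U) := by
    rw [R.Ex_Adn, hU, R.Ex_Lo, commutatorElement_def]
    have h5 : w + dd = w' := by rw [hdd]; abel
    rw [h5, hw', R.Ex_Adn]
    group
  rw [h4, R.Lo_Ex]
  have h6 : R.Adn (R.Ex w) U - ⁅v, w⁆ = (R.Adn (R.Ex w) U - U) + (U - dd) +
      (w' - w - ⁅v, w⁆) := by rw [hdd]; abel
  rw [h6]
  exact I''.add_mem (I''.add_mem h3 h2) e1

end transfer

end Vale.Agent.P188.H615
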