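import Vale.Agent.P188.H615.HypBox
import Vale.Agent.P188.Z1.Model

/-!
Matching boxes for the real model.
-/

open Finset Filter Topology Pointwise

namespace Vale.Agent.P188.H615

open Vale.Agent.P188.H796 Vale.Agent.P188.H131 Vale.Agent.P188.Z1 Vale.Agent.P188.H269

section hyp

variable {Γ : Type} [Group Γ] {k : ℕ} {η : Γ →* Multiplicative (Fin k → ℤ)} {d n : ℕ}
  {D : MB η.ker d n}

/-- products in homogeneous boxes -/
theorem hb_mulE (e : LieIdeal ℝ D.R.V) {r : ℝ} (hr1 : 1 ≤ r) : ∃ D' : ℝ, 1 ≤ D' ∧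
    ∀ ρ : ℝ, ∀ x ∈ EK D.R (r • hb D.R e.toSubmodule ρ),
      ∀ y ∈ EK D.R (r • hb D.R e.toSubmodule ρ),
      x * y ∈ EK D.R (D' • hb D.R e.toSubmodule ρ) := by
  have hr0 : 0 < r := by linarith
  have he : ∀ x ∈ e.toSubmodule, ∀ y ∈ e.toSubmodule, ⁅x, y⁆ ∈ e.toSubmodule :=
    fun x _ y hy => e.lie_mem hy
  obtain ⟨C2, hC2, H2⟩ := qbchE D.R (C0 := r * (2 * (D.R.m : ℝ) ^ 2)) (by positivity)
  refine ⟨(C2 + 1) * r, by nlinarith, fun ρ x hx y hy => ?_⟩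
  have hK := (csv_hb (R := D.R) (e := e.toSubmodule) ρ).smul hr0.le
  have h3 := (H2 _ hK 1 zero_le_one le_rfl).1 x hx y (by rw [one_smul]; exact hy)
  rw [mul_one] at h3
  have h4 : D.R.Lo x ∈ (1 : ℝ) • r • hb D.R e.toSubmodule ρ := by rw [one_smul]; exact hx
  have h5 := hK.mem_add hC2 zero_le_one h3 h4
  rw [sub_add_cancel, smul_smul] at h5
  exact h5

theorem lo_mem_of_hb {e : LieIdeal ℝ D.R.V} {c ρ : ℝ} {x : D.R.NR}
    (hx : x ∈ EK D.R (c • hb D.R e.toSubmodule ρ)) : D.R.Lo x ∈ e := by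
  have he : ∀ x ∈ e.toSubmodule, ∀ y ∈ e.toSubmodule, ⁅x, y⁆ ∈ e.toSubmodule :=
    fun x _ y hy => e.lie_mem hy
  obtain ⟨w, hw, hw2⟩ := hx
  rw [← hw2]
  exact e.smul_mem _ (hb_le he hw)

theorem mem_one_hb {e : LieIdeal ℝ D.R.V} {c ρ : ℝ} (hc : 1 ≤ c) {x : D.R.NR}
    (hx : x ∈ EK D.R (hb D.R e.toSubmodule ρ)) : x ∈ EK D.R (c • hb D.R e.toSubmodule ρ) := by
  have h1 : D.R.Lo x ∈ (1 : ℝ) • hb D.R e.toSubmodule ρ := by rw [one_smul]; exact hx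
  exact (csv_hb _).mem_mono zero_le_one hc h1

open Classical in
/-- **matching boxes**, with all the lengths and memberships -/
theorem hypBoxE {l : D.S → ℕ} {e : LieIdeal ℝ D.R.V} (hM : Met D l e) (hP : Pieces D l e) :
    ∃ M C : ℕ, ∀ ε : ℝ, 0 < ε → ∃ Cε : ℝ, ∀ R : ℕ, ∃ (P : Finset D.S) (X1 X2 : Finset D.R.NR),
      (P.card : ℝ) ≤ Cε * Real.exp (ε * R) ∧ X1.Nonempty ∧ X2.card ≤ M * X1.card ∧
      (∀ x ∈ X1, D.R.Lo x ∈ e) ∧ (∀ x ∈ X2, D.R.Lo x ∈ e) ∧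
      (∀ x ∈ X1, l (D.inN x) ≤ C * (R + 1)) ∧ (∀ x ∈ X2, l (D.inN x) ≤ C * (R + 1)) ∧
      (∀ p ∈ P, l p ≤ C * (R + 1)) ∧
      ∀ s : D.S, l s ≤ R → ∃ p ∈ P, ∃ Φ : D.R.NR → D.R.NR, (∀ x ∈ X1, Φ x ∈ X2) ∧
        (∀ y ∈ X2, (X1.filter fun x => Φ x = y).card ≤ M) ∧
        ∀ x ∈ X1, l ((s * D.inN x)⁻¹ * (p * D.inN (Φ x))) ≤ C := by
  obtain ⟨CP, hCP⟩ := hP
  obtain ⟨Cu, hCu, hup⟩ := hM.up
  obtain ⟨Cl, hCl, hlow⟩ := hM.low
  obtain ⟨r, hr1, hr⟩ := hM.ad CP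
  have he : ∀ x ∈ e.toSubmodule, ∀ y ∈ e.toSubmodule, ⁅x, y⁆ ∈ e.toSubmodule :=
    fun x _ y hy => e.lie_mem hy
  obtain ⟨D', hD'1, hmul⟩ := hb_mulE e hr1
  obtain ⟨M, hMn⟩ := netE (R := D.R) (e := e.toSubmodule) he hD'1 (by linarith : 0 < r)
  have hK0 : 0 ≤ Cl * (1 + (2 * (CP : ℝ) + 1)) := by positivity
  obtain ⟨C3, hC3⟩ := len_hb (D := D) (e := e) hCu hup hD'1 hK0
  obtain ⟨C4, hC4⟩ : ∃ C4 : ℕ, C4 = CP + C3 + ⌈Cu * (1 + Real.log (1 + 1))⌉₊ := ⟨_, rfl⟩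
  have hC41 : C3 ≤ C4 := by omega
  have hC42 : CP ≤ C4 := by omega
  have hC43 : CP + ⌈Cu * (1 + Real.log (1 + 1))⌉₊ ≤ C4 := by omega
  refine ⟨M, C4, fun ε hε => ?_⟩
  obtain ⟨Cε, hCε⟩ := hCP ε hε
  refine ⟨Cε, fun R => ?_⟩
  obtain ⟨P, hP1, hP2, hP3⟩ := hCε R
  have hρ1 : 1 ≤ Real.exp (Cl * (1 + (2 * (CP : ℝ) + 1)) * (R + 1)) :=
    Real.one_le_exp (by positivity)
  obtain ⟨X1, X2, hX1n, hX1, hX2, hX12, hX2c, hX1f⟩ := hMn _ hρ1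
  refine ⟨P, X1, X2, hP1, hX1n, hX12, fun x hx => lo_mem_of_hb (mem_one_hb le_rfl (hX1 x hx)),
    fun x hx => lo_mem_of_hb (hX2 x hx), fun x hx =>
      (hC3 R x (mem_one_hb hD'1 (hX1 x hx))).trans (Nat.mul_le_mul_right _ hC41),
    fun x hx => (hC3 R x (hX2 x hx)).trans (Nat.mul_le_mul_right _ hC41),
    fun p hp => (hP2 p hp).trans (Nat.mul_le_mul_right _ hC42), fun s hs => ?_⟩
  obtain ⟨p, hp, X, hX, b, hsb, hb'⟩ := hP3 s hs
  have hXρ := mem_hb_of_len (D := D) (e := e) hM.sub hCl hlow CP R s p b X hX hs (hP2 p hp) hb' hsb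
  obtain ⟨Φ, h1, h2, h3⟩ := match_aux hM hCu hup hr1 (hmul _) hX1 hX2c hX1f s p b X hXρ hb' hsb hr
  exact ⟨p, hp, Φ, h1, h2, fun x hx => (h3 x hx).trans hC43⟩

/-- the metric facts for the exponential radical of the model -/
theorem met_conc {hη : Function.Surjective η} {F : Set Γ} (hF : F.Finite)
    (hgen : Subgroup.closure F = ⊤) {t : D.S} {M : RModel D.S Γ D.R.V k}
    (hM : Conc D hη F t M) : Met D (wl (D.U F)) (eId D.AdE t) :=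
  haveI := (HS D).normal
  met_of hη hF hgen ((HS D).lrep.eId_inv t)
    ((HS D).lrep.mem_PF_iff hM.sep (covers_of_sep hM.sep))

/-- the decomposition into pieces for the exponential radical of the model -/
theorem pieces_conc {hη : Function.Surjective η} {F : Set Γ} (hF : F.Finite)
    (hgen : Subgroup.closure F = ⊤) {t : D.S} {M : RModel D.S Γ D.R.V k}
    (hM : Conc D hη F t M) : Pieces D (wl (D.U F)) (eId D.AdE t) :=
  haveI := (HS D).normal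
  exists_pieces hF hgen fun S _ hε => (HS D).lrep.exists_seminorm hM.sep S hε

open Classical in
/-- **Matching boxes in the real model.** -/
theorem hypBox_model {hη : Function.Surjective η} {F : Set Γ} (hF : F.Finite)
    (hgen : Subgroup.closure F = ⊤) {t : D.S} {M : RModel D.S Γ D.R.V k}
    (hM : Conc D hη F t M) : ∃ M' C : ℕ, ∀ ε : ℝ, 0 < ε → ∃ Cε : ℝ, ∀ R : ℕ,
      ∃ P X1 X2 : Finset D.S,
      (P.card : ℝ) ≤ Cε * Real.exp (ε * R) ∧ X1.Nonempty ∧ X2.card ≤ M' * X1.card ∧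
      (∀ x ∈ X1, x ∈ M.E) ∧ (∀ x ∈ X2, x ∈ M.E) ∧
      (∀ x ∈ X1, M.l x ≤ C * (R + 1)) ∧ (∀ x ∈ X2, M.l x ≤ C * (R + 1)) ∧
      (∀ p ∈ P, M.l p ≤ C * (R + 1)) ∧
      ∀ s : D.S, M.l s ≤ R → ∃ p ∈ P, ∃ Φ : D.S → D.S, (∀ x ∈ X1, Φ x ∈ X2) ∧
        (∀ y ∈ X2, (X1.filter fun x => Φ x = y).card ≤ M') ∧
        ∀ x ∈ X1, M.l ((s * x)⁻¹ * (p * Φ x)) ≤ C := by
  obtain ⟨M', C, H⟩ := hypBoxE (met_conc hF hgen hM) (pieces_conc hF hgen hM)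
  refine ⟨M', C, fun ε hε => ?_⟩
  obtain ⟨Cε, H⟩ := H ε hε
  refine ⟨Cε, fun R => ?_⟩
  obtain ⟨P, X1, X2, h1, h2, h3, h4, h5, h6, h7, h8, h10⟩ := H R
  have hinj : Function.Injective (D.inN : D.R.NR → D.S) := D.P.inK_injective
  have hE : ∀ x : D.R.NR, D.R.Lo x ∈ eId D.AdE t → D.inN x ∈ M.E := by
    intro x hx
    rw [hM.E_eq, mem_ER]
    refine ⟨_, hx, ?_⟩
    change D.inN (D.R.Ex (D.R.Lo x)) = _
    rw [D.R.Ex_Lo]
  rw [hM.l_eq]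
  refine ⟨P, X1.image D.inN, X2.image D.inN, h1, h2.image _, ?_, ?_, ?_, ?_, ?_, h8, ?_⟩
  · rw [card_image_of_injective _ hinj, card_image_of_injective _ hinj]; exact h3
  · intro x hx
    obtain ⟨y, hy, rfl⟩ := Finset.mem_image.1 hx
    exact hE y (h4 y hy)
  · intro x hx
    obtain ⟨y, hy, rfl⟩ := Finset.mem_image.1 hx
    exact hE y (h5 y hy)
  · intro x hx
    obtain ⟨y, hy, rfl⟩ := Finset.mem_image.1 hx
    exact h6 y hy
  · intro x hx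
    obtain ⟨y, hy, rfl⟩ := Finset.mem_image.1 hx
    exact h7 y hy
  · intro s hs
    obtain ⟨p, hp, Φ, e1, e2, e3⟩ := h10 s hs
    have hinv : ∀ x : D.R.NR, Function.invFun (D.inN : D.R.NR → D.S) (D.inN x) = x :=
      Function.leftInverse_invFun hinj
    refine ⟨p, hp, fun z => D.inN (Φ (Function.invFun (D.inN : D.R.NR → D.S) z)), ?_, ?_, ?_⟩
    · intro x hx
      obtain ⟨y, hy, rfl⟩ := Finset.mem_image.1 hx
      simp only [hinv]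
      exact mem_image_of_mem _ (e1 y hy)
    · intro z hz
      obtain ⟨y, hy, rfl⟩ := Finset.mem_image.1 hz
      refine le_trans ?_ (e2 y hy)
      refine le_trans (Finset.card_le_card ?_) (Finset.card_image_le (f := D.inN))
      intro x hx
      rw [Finset.mem_filter] at hx
      obtain ⟨x', hx', rfl⟩ := Finset.mem_image.1 hx.1
      have h11 := hx.2
      simp only [hinv] at h11
      exact mem_image_of_mem _ (Finset.mem_filter.2 ⟨hx', hinj h11⟩)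
    · intro x hx
      obtain ⟨y, hy, rfl⟩ := Finset.mem_image.1 hx
      simp only [hinv]
      exact e3 y hy

end hyp

end Vale.Agent.P188.H615
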