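import Vale.Agent.P188.H615.NB

/-!
Seminorms on `V` vanishing exactly on an ideal; natural boxes of seminorm balls.
-/

open Finset Filter Topology Pointwise

universe u v w

namespace Vale.Agent.P188.H615

open Vale.Agent.P188.H796

section lin

/-- coordinates modulo a subspace -/
theorem exists_coord {V : Type v} [AddCommGroup V] [Module ℝ V] [FiniteDimensional ℝ V]
    (e : Submodule ℝ V) : ∃ (r : ℕ) (φ : V →ₗ[ℝ] (Fin r → ℝ)) (σ : (Fin r → ℝ) →ₗ[ℝ] V),
      (∀ x, φ x = 0 ↔ x ∈ e) ∧ ∀ y, φ (σ y) = y := by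
  let b := Module.finBasis ℝ (V ⧸ e)
  let φ : V →ₗ[ℝ] (Fin (Module.finrank ℝ (V ⧸ e)) → ℝ) := b.equivFun.toLinearMap ∘ₗ e.mkQ
  have hφ : Function.Surjective φ := b.equivFun.surjective.comp e.mkQ_surjective
  obtain ⟨σ, hσ⟩ := LinearMap.exists_rightInverse_of_surjective φ (LinearMap.range_eq_top.2 hφ)
  refine ⟨_, φ, σ, fun x => ?_, fun y => LinearMap.congr_fun hσ y⟩
  change b.equivFun (e.mkQ x) = 0 ↔ _
  rw [LinearEquiv.map_eq_zero_iff, Submodule.mkQ_apply, Submodule.Quotient.mk_eq_zero]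

theorem sem_le {r : ℕ} (q : Seminorm ℝ (Fin r → ℝ)) : ∃ C : ℝ, 0 ≤ C ∧ ∀ y, q y ≤ C * ‖y‖ := by
  classical
  refine ⟨∑ i, q (Pi.single i 1), Finset.sum_nonneg fun i _ => apply_nonneg _ _, fun y => ?_⟩
  have h1 : y = ∑ i, y i • (Pi.single i (1 : ℝ) : Fin r → ℝ) := by
    ext j
    simp [Finset.sum_apply, Pi.single_apply]
  conv_lhs => rw [h1]
  rw [Finset.sum_mul]
  refine (Finset.le_sum_of_subadditive q (map_zero q).le (map_add_le_add q) _ _).trans
    (Finset.sum_le_sum fun i _ => ?_)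
  rw [map_smul_eq_mul, mul_comm]
  exact mul_le_mul_of_nonneg_left (norm_le_pi_norm y i) (apply_nonneg _ _)

theorem sem_ge {r : ℕ} (q : Seminorm ℝ (Fin r → ℝ)) (hq : ∀ y, q y = 0 → y = 0) :
    ∃ C : ℝ, 0 ≤ C ∧ ∀ y, ‖y‖ ≤ C * q y := by
  obtain ⟨C, hC, h⟩ := sem_le q
  have hcont : Continuous q := by
    refine (LipschitzWith.of_dist_le_mul (K := ⟨C, hC⟩) fun x y => ?_).continuous
    rw [Real.dist_eq, dist_eq_norm]
    exact (abs_sub_map_le_sub q x y).trans (h _)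
  rcases Nat.eq_zero_or_pos r with hr | hr
  · subst hr
    exact ⟨0, le_rfl, fun y => by rw [Subsingleton.elim y 0]; simp⟩
  · obtain ⟨y0, hy0, hmin⟩ := (isCompact_sphere (0 : Fin r → ℝ) 1).exists_isMinOn
      ⟨Pi.single (⟨0, hr⟩ : Fin r) (1 : ℝ), by
        rw [mem_sphere_zero_iff_norm, Pi.norm_single, norm_one]⟩ hcont.continuousOn
    have hy1 : ‖y0‖ = 1 := by simpa using hy0
    have hpos : 0 < q y0 := by
      refine lt_of_le_of_ne (apply_nonneg _ _) fun h0 => ?_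
      have := hq y0 h0.symm
      rw [this, norm_zero] at hy1
      exact zero_ne_one hy1
    refine ⟨(q y0)⁻¹, by positivity, fun y => ?_⟩
    by_cases hy : y = 0
    · rw [hy]; simp
    · have hn : 0 < ‖y‖ := norm_pos_iff.2 hy
      have h1 : (‖y‖⁻¹ • y) ∈ Metric.sphere (0 : Fin r → ℝ) 1 := by
        rw [mem_sphere_zero_iff_norm, norm_smul, norm_inv, norm_norm, inv_mul_cancel₀ hn.ne']
      have h2 : q y0 ≤ q (‖y‖⁻¹ • y) := hmin h1
      rw [map_smul_eq_mul, norm_inv, norm_norm, ← div_eq_inv_mul, le_div_iff₀ hn] at h2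
      rw [inv_mul_eq_div, le_div_iff₀ hpos]
      linarith

/-- a seminorm vanishing exactly on `e` is equivalent to the norm of the coordinates -/
theorem sem_coord {V : Type v} [AddCommGroup V] [Module ℝ V] {e : Submodule ℝ V} {r : ℕ}
    {φ : V →ₗ[ℝ] (Fin r → ℝ)} {σ : (Fin r → ℝ) →ₗ[ℝ] V} (hφ : ∀ x, φ x = 0 ↔ x ∈ e)
    (hσ : ∀ y, φ (σ y) = y) (q : Seminorm ℝ V) (hq : ∀ x, q x = 0 ↔ x ∈ e) :
    ∃ C : ℝ, 1 ≤ C ∧ (∀ x, q x ≤ C * ‖φ x‖) ∧ ∀ x, ‖φ x‖ ≤ C * q x := by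
  have key : ∀ x, q x = q (σ (φ x)) := by
    intro x
    have h1 : q (x - σ (φ x)) = 0 := by
      rw [hq, ← hφ, map_sub, hσ, sub_self]
    have h2 := abs_sub_map_le_sub q x (σ (φ x))
    rw [h1] at h2
    exact sub_eq_zero.1 (abs_nonpos_iff.1 h2)
  obtain ⟨C1, h1, hC1⟩ := sem_le (q.comp σ)
  obtain ⟨C2, h2, hC2⟩ := sem_ge (q.comp σ) (fun y hy => by
    have hy' : q (σ y) = 0 := hy
    rw [hq, ← hφ, hσ] at hy'
    exact hy')
  refine ⟨max 1 (max C1 C2), le_max_left _ _, fun x => ?_, fun x => ?_⟩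
  · rw [key]
    refine (hC1 (φ x)).trans (mul_le_mul_of_nonneg_right ?_ (norm_nonneg _))
    exact (le_max_left _ _).trans (le_max_right _ _)
  · rw [key]
    refine (hC2 (φ x)).trans (mul_le_mul_of_nonneg_right ?_ (apply_nonneg _ _))
    exact (le_max_right _ _).trans (le_max_right _ _)

end lin

section nbq

variable {N : Type u} [Group N] {d n : ℕ} {D : MB N d n} {A : Type v} [NormedRing A]
  [NormedAlgebra ℝ A] [FiniteDimensional ℝ A] {R : RD D A}

/-- balls of seminorms are convex symmetric -/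
theorem csy_ball (q : Seminorm ℝ R.V) {ρ : ℝ} (hρ : 0 ≤ ρ) : CSy {v : R.V | q v ≤ ρ} where
  conv := by
    intro x hx y hy a b ha hb hab
    have hx' : q x ≤ ρ := hx
    have hy' : q y ≤ ρ := hy
    change q (a • x + b • y) ≤ ρ
    refine (map_add_le_add q _ _).trans ?_
    rw [map_smul_eq_mul, map_smul_eq_mul, Real.norm_of_nonneg ha, Real.norm_of_nonneg hb]
    nlinarith
  zero := by
    change q 0 ≤ ρ
    rw [map_zero]; exact hρ
  neg := by
    intro x hx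
    change q (-x) ≤ ρ
    rw [map_neg_eq_map]; exact hx

/-- the bracket is bounded for a seminorm vanishing exactly on an ideal -/
theorem sem_lie {e : LieIdeal ℝ R.V} (q : Seminorm ℝ R.V) (hq : ∀ x, q x = 0 ↔ x ∈ e) :
    ∃ C : ℝ, 1 ≤ C ∧ ∀ x y : R.V, q ⁅x, y⁆ ≤ C * (q x * q y) := by
  obtain ⟨r, φ, σ, hφ, hσ⟩ := exists_coord e.toSubmodule
  obtain ⟨C, hC1, hC, hC'⟩ := sem_coord hφ hσ q hq
  have key : ∀ x, q x = q (σ (φ x)) := by
    intro x
    have h1 : q (x - σ (φ x)) = 0 := by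
      rw [hq]
      exact (hφ _).1 (by rw [map_sub, hσ, sub_self])
    have h2 := abs_sub_map_le_sub q x (σ (φ x))
    rw [h1] at h2
    exact sub_eq_zero.1 (abs_nonpos_iff.1 h2)
  have hmod : ∀ x, x - σ (φ x) ∈ e := by
    intro x
    exact (hφ _).1 (by rw [map_sub, hσ, sub_self])
  -- the bracket only depends on the classes
  have hbr : ∀ x y, q ⁅x, y⁆ = q ⁅σ (φ x), σ (φ y)⁆ := by
    intro x y
    have h1 : ⁅x, y⁆ - ⁅σ (φ x), σ (φ y)⁆ ∈ e := by
      have e1 : ⁅x, y⁆ - ⁅σ (φ x), σ (φ y)⁆ = ⁅x - σ (φ x), y⁆ + ⁅σ (φ x), y - σ (φ y)⁆ := by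
        rw [sub_lie, lie_sub]; abel
      rw [e1]
      refine e.add_mem ?_ (e.lie_mem (hmod y))
      have h2 : ⁅y, x - σ (φ x)⁆ ∈ e := e.lie_mem (hmod x)
      rw [← lie_skew]
      exact e.neg_mem h2
    have h2 := abs_sub_map_le_sub q ⁅x, y⁆ ⁅σ (φ x), σ (φ y)⁆
    rw [(hq _).2 h1] at h2
    exact sub_eq_zero.1 (abs_nonpos_iff.1 h2)
  let b : Fin r → (Fin r → ℝ) := fun i => Pi.single i 1
  set K : ℝ := ∑ i, ∑ j, q ⁅σ (b i), σ (b j)⁆ with hK
  have hK0 : 0 ≤ K := Finset.sum_nonneg fun i _ => Finset.sum_nonneg fun j _ => apply_nonneg _ _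
  have hdec : ∀ y : Fin r → ℝ, y = ∑ i, y i • b i := by
    intro y
    ext j
    simp [b, Finset.sum_apply, Pi.single_apply]
  have hb2 : ∀ y z : Fin r → ℝ, q ⁅σ y, σ z⁆ ≤ K * (‖y‖ * ‖z‖) := by
    intro y z
    have h1 : ⁅σ y, σ z⁆ = ∑ i, ∑ j, (y i * z j) • ⁅σ (b i), σ (b j)⁆ := by
      conv_lhs => rw [hdec y, hdec z]
      rw [map_sum, map_sum, sum_lie_sum]
      refine Finset.sum_congr rfl fun i _ => Finset.sum_congr rfl fun j _ => ?_
      rw [map_smul, map_smul, smul_lie, lie_smul, smul_smul]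
    rw [h1]
    refine (Finset.le_sum_of_subadditive q (map_zero q).le (map_add_le_add q) _ _).trans ?_
    rw [hK, Finset.sum_mul]
    refine Finset.sum_le_sum fun i _ => ?_
    refine (Finset.le_sum_of_subadditive q (map_zero q).le (map_add_le_add q) _ _).trans ?_
    rw [Finset.sum_mul]
    refine Finset.sum_le_sum fun j _ => ?_
    rw [map_smul_eq_mul, norm_mul, mul_comm]
    refine mul_le_mul_of_nonneg_left ?_ (apply_nonneg _ _)
    exact mul_le_mul (norm_le_pi_norm y i) (norm_le_pi_norm z j) (norm_nonneg _) (norm_nonneg _)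
  refine ⟨max 1 (K * (C * C)), le_max_left _ _, fun x y => ?_⟩
  rw [hbr]
  calc q ⁅σ (φ x), σ (φ y)⁆ ≤ K * (‖φ x‖ * ‖φ y‖) := hb2 _ _
    _ ≤ K * ((C * q x) * (C * q y)) := by
        refine mul_le_mul_of_nonneg_left ?_ hK0
        exact mul_le_mul (hC' x) (hC' y) (norm_nonneg _)
          (mul_nonneg (by linarith) (apply_nonneg _ _))
    _ = (K * (C * C)) * (q x * q y) := by ring
    _ ≤ _ := mul_le_mul_of_nonneg_right (le_max_right _ _)
        (mul_nonneg (apply_nonneg _ _) (apply_nonneg _ _))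

/-- size of the natural box of a seminorm ball -/
theorem q_nb_le (q : Seminorm ℝ R.V) {C : ℝ} (hC1 : 1 ≤ C)
    (hC : ∀ x y : R.V, q ⁅x, y⁆ ≤ C * (q x * q y)) {ρ : ℝ} (hρ : 1 ≤ ρ) {X : R.V}
    (hX : X ∈ nb {v : R.V | q v ≤ ρ}) : q X ≤ R.m * (C ^ R.m * ρ ^ R.m) := by
  have h1 : ∀ j, ∀ x ∈ nbk {v : R.V | q v ≤ ρ} j, q x ≤ C ^ j * ρ ^ (j + 1) := by
    intro j
    induction j with
    | zero =>
      intro x hx
      have : q x ≤ ρ := hx
      simpa using this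
    | succ j ih =>
      intro x hx
      have h2 : Convex ℝ {x : R.V | q x ≤ C ^ (j + 1) * ρ ^ (j + 1 + 1)} :=
        (csy_ball q (by positivity)).conv
      refine convexHull_min ?_ h2 hx
      rintro _ ⟨a, ha, b, hb, rfl⟩
      have ha' : q a ≤ ρ := ha
      have h3 := ih b hb
      change q ⁅a, b⁆ ≤ C ^ (j + 1) * ρ ^ (j + 1 + 1)
      refine (hC a b).trans ?_
      calc C * (q a * q b) ≤ C * (ρ * (C ^ j * ρ ^ (j + 1))) := by
            refine mul_le_mul_of_nonneg_left ?_ (by linarith)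
            exact mul_le_mul ha' h3 (apply_nonneg _ _) (by linarith)
        _ = _ := by ring
  obtain ⟨x, hx, rfl⟩ := hX
  refine (Finset.le_sum_of_subadditive q (map_zero q).le (map_add_le_add q) _ _).trans ?_
  have h2 : ∀ i ∈ (univ : Finset (Fin R.m)), q (x i) ≤ C ^ R.m * ρ ^ R.m := by
    intro i _
    refine (h1 i _ (hx i)).trans ?_
    refine mul_le_mul (pow_le_pow_right₀ hC1 i.2.le) (pow_le_pow_right₀ hρ i.2) (by positivity)
      (by positivity)
  refine (Finset.sum_le_sum h2).trans ?_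
  rw [sum_const, nsmul_eq_mul, card_univ, Fintype.card_fin]

theorem smul_ball (q : Seminorm ℝ R.V) {c ρ : ℝ} (hc : 0 < c) {v : R.V} (hv : q v ≤ c * ρ) :
    v ∈ c • {v : R.V | q v ≤ ρ} := by
  refine ⟨c⁻¹ • v, ?_, by simp only; rw [smul_inv_smul₀ hc.ne']⟩
  change q (c⁻¹ • v) ≤ ρ
  rw [map_smul_eq_mul, norm_inv, Real.norm_of_nonneg hc.le, inv_mul_le_iff₀ hc]
  exact hv

/-- products of boundedly many letters from a ball are in an exponential of a box -/
theorem prod_letters {C2 : ℝ} (hC2 : 0 ≤ C2) {K : Set R.V} {C0 : ℝ} (hK : CSV R K C0)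
    (H : ∀ c : ℝ, 0 ≤ c → c ≤ 1 → ∀ x ∈ EK R K, ∀ y ∈ EK R (c • K),
      R.Lo (x * y) - R.Lo x ∈ (C2 * c) • K) {a : ℝ} (ha : 0 ≤ a) (ha1 : a ≤ 1) (r : ℕ)
    (hr : C2 * a * r ≤ 1) : ∀ x ∈ (EK R (a • K)) ^ r, R.Lo x ∈ (C2 * a * r) • K := by
  induction r with
  | zero =>
    intro x hx
    rw [pow_zero, Set.mem_one] at hx
    rw [hx, Lo_one]
    exact ⟨0, hK.zero, by simp⟩
  | succ r ih =>
    intro x hx
    rw [pow_succ] at hx
    obtain ⟨y, hy, z, hz, rfl⟩ := hx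
    have hr' : C2 * a * r ≤ 1 := by
      refine le_trans ?_ hr
      refine mul_le_mul_of_nonneg_left ?_ (by positivity)
      push_cast; linarith
    have h1 := ih hr' y hy
    have h2 := H a ha ha1 y (hK.mem_of_smul (by positivity) hr' h1) z hz
    have h3 := hK.mem_add (by positivity) (by positivity) h2 h1
    simp only
    rw [sub_add_cancel] at h3
    have h4 : C2 * a + C2 * a * r = C2 * a * ((r + 1 : ℕ) : ℝ) := by push_cast; ring
    rwa [h4] at h3

end nbq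

end Vale.Agent.P188.H615
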