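import Vale.Agent.P188.H615.Gam

/-!
Quantitative BCH on `V`; convex symmetric sets with brackets; homogeneous boxes.
-/

open Finset Filter Topology Pointwise

universe u v

namespace Vale.Agent.P188.H615

open Vale.Agent.P188.H796

section csv

variable {N : Type u} [Group N] {d n : ℕ} {D : MB N d n} {A : Type v} [NormedRing A]
  [NormedAlgebra ℝ A] [FiniteDimensional ℝ A] (R : RD D A)

/-- convex symmetric subsets of `V`, closed under brackets up to the factor `C0` -/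
structure CSV (K : Set R.V) (C0 : ℝ) : Prop where
  conv : Convex ℝ K
  zero : (0 : R.V) ∈ K
  neg : ∀ x ∈ K, -x ∈ K
  nonneg : 0 ≤ C0
  br : ∀ x ∈ K, ∀ y ∈ K, ⁅x, y⁆ ∈ C0 • K

variable {R} {K : Set R.V} {C0 : ℝ}

theorem coe_mem_smul_image {c : ℝ} {v : R.V} :
    (v : A) ∈ c • ((fun x : R.V => (x : A)) '' K) ↔ v ∈ c • K := by
  constructor
  · rintro ⟨_, ⟨w, hw, rfl⟩, h⟩
    exact ⟨w, hw, Subtype.ext h⟩
  · rintro ⟨w, hw, h⟩
    exact ⟨_, ⟨w, hw, rfl⟩, congrArg Subtype.val h⟩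

theorem coe_mem_image {v : R.V} : (v : A) ∈ ((fun x : R.V => (x : A)) '' K) ↔ v ∈ K := by
  constructor
  · rintro ⟨w, hw, h⟩
    have : w = v := Subtype.ext h
    rwa [← this]
  · exact fun h => ⟨v, h, rfl⟩

theorem CSV.toCS (h : CSV R K C0) : CS ((fun x : R.V => (x : A)) '' K) C0 where
  conv := h.conv.linear_image R.V.subtype
  zero := ⟨0, h.zero, rfl⟩
  neg := by
    rintro _ ⟨x, hx, rfl⟩
    exact ⟨-x, h.neg x hx, rfl⟩
  nonneg := h.nonneg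
  br := by
    rintro _ ⟨x, hx, rfl⟩ _ ⟨y, hy, rfl⟩
    exact (coe_mem_smul_image (v := ⁅x, y⁆)).2 (h.br x hx y hy)

theorem CSV.mem_add (h : CSV R K C0) {a b : ℝ} (ha : 0 ≤ a) (hb : 0 ≤ b) {x y : R.V}
    (hx : x ∈ a • K) (hy : y ∈ b • K) : x + y ∈ (a + b) • K := by
  rw [h.conv.add_smul ha hb]
  exact Set.add_mem_add hx hy

theorem CSV.mem_mono (h : CSV R K C0) {a b : ℝ} (ha : 0 ≤ a) (hab : a ≤ b) {x : R.V}
    (hx : x ∈ a • K) : x ∈ b • K := by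
  have := h.mem_add ha (sub_nonneg.2 hab) hx (⟨0, h.zero, by simp⟩ : (0 : R.V) ∈ (b - a) • K)
  rwa [add_zero, add_sub_cancel] at this

theorem CSV.mem_neg (h : CSV R K C0) {a : ℝ} {x : R.V} (hx : x ∈ a • K) : -x ∈ a • K := by
  obtain ⟨y, hy, rfl⟩ := hx
  exact ⟨-y, h.neg y hy, by simp⟩

theorem CSV.smul (h : CSV R K C0) {c : ℝ} (hc : 0 ≤ c) : CSV R (c • K) (c * C0) where
  conv := h.conv.smul c
  zero := ⟨0, h.zero, by simp⟩
  neg := fun x hx => h.mem_neg hx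
  nonneg := mul_nonneg hc h.nonneg
  br := by
    rintro _ ⟨x, hx, rfl⟩ _ ⟨y, hy, rfl⟩
    obtain ⟨z, hz, hz2⟩ := h.br x hx y hy
    refine ⟨c • z, ⟨z, hz, rfl⟩, ?_⟩
    simp only at hz2 ⊢
    rw [smul_lie, lie_smul, ← hz2, smul_smul, smul_smul, smul_smul]
    congr 1; ring

theorem CSV.mem_of_smul (h : CSV R K C0) {a : ℝ} (ha : 0 ≤ a) (ha1 : a ≤ 1) {x : R.V}
    (hx : x ∈ a • K) : x ∈ K := by
  have := h.mem_mono ha ha1 hx
  rwa [one_smul] at this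

/-- **quantitative BCH on `V`** -/
theorem qbchV (R : RD D A) {C0 : ℝ} (hC0 : 0 ≤ C0) : ∃ C : ℝ, 0 ≤ C ∧ ∀ K : Set R.V, CSV R K C0 →
    ∀ x : R.NR, ∀ v ∈ K, ∀ w ∈ K, R.Lo (x * R.Ex v) ∈ K → ∀ c : ℝ, 0 ≤ c → c ≤ 1 →
    R.Lo (x * R.Ex (v + c • w)) - R.Lo (x * R.Ex v) ∈ (C * c) • K := by
  obtain ⟨C, hC, H⟩ := qbch_gen (A := A) R.hm0 hC0
  refine ⟨C, hC, fun K hK x v hv w hw hx c hc0 hc1 => ?_⟩
  have h := H _ hK.toCS (v : A) (coe_mem_image.2 hv) (w : A) (coe_mem_image.2 hw) (R.toA x)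
    (V_pow_add R v w) (V_unip R x v w) (by
      rw [← coe_Lo_mul_Ex]
      exact coe_mem_image.2 hx) c hc0 hc1
  refine coe_mem_smul_image.1 ?_
  rw [Submodule.coe_sub, coe_Lo_mul_Ex, coe_Lo_mul_Ex]
  exact h

variable (R) in
/-- the subset `exp K` -/
def EK (K : Set R.V) : Set R.NR := {x | R.Lo x ∈ K}

theorem mem_EK {x : R.NR} : x ∈ EK R K ↔ R.Lo x ∈ K := Iff.rfl

theorem CSV.EK_inv (h : CSV R K C0) {x : R.NR} (hx : x ∈ EK R K) : x⁻¹ ∈ EK R K := by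
  rw [mem_EK, Lo_inv]
  exact h.neg _ hx

/-- products, quotients: group form of the quantitative BCH -/
theorem qbchE (R : RD D A) {C0 : ℝ} (hC0 : 0 ≤ C0) : ∃ C : ℝ, 0 ≤ C ∧ ∀ K : Set R.V, CSV R K C0 →
    ∀ c : ℝ, 0 ≤ c → c ≤ 1 →
    (∀ x ∈ EK R K, ∀ y ∈ EK R (c • K), R.Lo (x * y) - R.Lo x ∈ (C * c) • K) ∧
    (∀ x ∈ EK R K, ∀ y ∈ EK R (c • K), R.Lo (y * x) - R.Lo x ∈ (C * c) • K) ∧
    (∀ x ∈ EK R K, ∀ y : R.NR, R.Lo y - R.Lo x ∈ c • K → x⁻¹ * y ∈ EK R ((C * c) • K)) := by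
  obtain ⟨C, hC, H⟩ := qbchV R hC0
  refine ⟨C, hC, fun K hK c hc0 hc1 => ?_⟩
  have h1 : ∀ x ∈ EK R K, ∀ y ∈ EK R (c • K), R.Lo (x * y) - R.Lo x ∈ (C * c) • K := by
    intro x hx y hy
    obtain ⟨w, hw, hw2⟩ := mem_EK.1 hy
    simp only at hw2
    have h := H K hK x 0 hK.zero w hw (by rw [R.Ex_zero, mul_one]; exact hx) c hc0 hc1
    rwa [zero_add, hw2, R.Ex_Lo, R.Ex_zero, mul_one] at h
  refine ⟨h1, ?_, ?_⟩
  · intro x hx y hy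
    have h2 := h1 x⁻¹ (hK.EK_inv hx) y⁻¹ (by
      rw [mem_EK, Lo_inv]; exact hK.mem_neg hy)
    have h3 := hK.mem_neg h2
    rw [← mul_inv_rev, Lo_inv, Lo_inv] at h3
    have h4 : -(-R.Lo (y * x) - -R.Lo x) = R.Lo (y * x) - R.Lo x := by abel
    rwa [h4] at h3
  · intro x hx y hy
    obtain ⟨w, hw, hw2⟩ := hy
    simp only at hw2
    have h := H K hK x⁻¹ (R.Lo x) hx w hw (by
      rw [R.Ex_Lo, inv_mul_cancel, Lo_one]; exact hK.zero) c hc0 hc1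
    rw [R.Ex_Lo, inv_mul_cancel, Lo_one, sub_zero, hw2, add_sub_cancel, R.Ex_Lo] at h
    exact h

end csv

end Vale.Agent.P188.H615
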