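import Vale.Agent.P188.H796.Le

/-!
Derivative of the logarithm along `h ↦ exp Z * exp (h Y)` in a nilpotent algebra: it is a
universal polynomial in `ad Z` applied to `Y`.
-/

open Finset Filter Topology

namespace Vale.Agent.P188.H615

open Vale.Agent.P188.H796

section ad

variable {A : Type*} [NormedRing A] [NormedAlgebra ℝ A]

/-- `ad Z W = Z W - W Z` -/
noncomputable def adL (Z : A) : A →ₗ[ℝ] A := LinearMap.mulLeft ℝ Z - LinearMap.mulRight ℝ Z

@[simp] theorem adL_apply (Z W : A) : adL Z W = Z * W - W * Z := rfl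

theorem adL_pow_zero {m : ℕ} {Z : A} (hZ : Z ^ m = 0) : (adL Z) ^ (2 * m) = 0 := by
  have hc : Commute (LinearMap.mulLeft ℝ Z) (LinearMap.mulRight ℝ Z) := by
    refine LinearMap.ext fun W => ?_
    simp [Module.End.mul_apply, mul_assoc]
  have h1 : IsNilpotent (LinearMap.mulLeft ℝ Z) := ⟨m, by
    rw [LinearMap.pow_mulLeft, hZ]; simp⟩
  have h2 : (LinearMap.mulLeft ℝ Z) ^ m = 0 := by
    rw [LinearMap.pow_mulLeft, hZ]; simp
  have h3 : (-(LinearMap.mulRight ℝ Z)) ^ m = 0 := by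
    rw [neg_pow, LinearMap.pow_mulRight, hZ]; simp
  have h4 : adL Z = LinearMap.mulLeft ℝ Z + (-(LinearMap.mulRight ℝ Z)) := by
    rw [adL, sub_eq_add_neg]
  rw [h4, hc.neg_right.add_pow]
  refine sum_eq_zero fun i hi => ?_
  by_cases h : m ≤ i
  · obtain ⟨j, rfl⟩ := Nat.exists_eq_add_of_le h
    rw [pow_add, h2]; simp
  · have : m ≤ 2 * m - i := by omega
    obtain ⟨j, hj⟩ := Nat.exists_eq_add_of_le this
    rw [hj, pow_add _ m j, h3]; simp

variable {m : ℕ}

/-- coefficients of the derivative of `t ↦ t`-curve powers -/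
noncomputable def Ek (Z W : A) : ℕ → A
  | 0 => 0
  | k + 1 => Ek Z W k * Z + Z ^ k * W

theorem hasDerivAt_pow_curve {c : ℝ → A} {W : A} (hc : HasDerivAt c W 0) (k : ℕ) :
    HasDerivAt (fun h => c h ^ k) (Ek (c 0) W k) 0 := by
  induction k with
  | zero => simpa [Ek] using hasDerivAt_const (0 : ℝ) (1 : A)
  | succ k ih =>
    have := ih.fun_mul hc
    simp only [Ek, pow_succ]
    exact this

/-- `D t = ∂_h ex (t Z(h))` at `h = 0` -/
noncomputable def Dt (m : ℕ) (Z W : A) (t : ℝ) : A :=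
  ∑ k ∈ range m, t ^ k • ((k.factorial : ℝ)⁻¹ • Ek Z W k)

theorem hasDerivAt_ex_curve {c : ℝ → A} {W : A} (hc : HasDerivAt c W 0) (t : ℝ) :
    HasDerivAt (fun h => ex m (t • c h)) (Dt m (c 0) W t) 0 := by
  have h0 : (fun h => ex m (t • c h)) =
      fun h => ∑ k ∈ range m, t ^ k • ((k.factorial : ℝ)⁻¹ • (c h) ^ k) := by
    funext h
    unfold ex
    refine sum_congr rfl fun k _ => ?_
    rw [smul_pow, smul_comm]
  rw [h0]
  unfold Dt
  refine HasDerivAt.fun_sum fun k _ => ?_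
  exact HasDerivAt.const_smul (t ^ k)
    (HasDerivAt.const_smul ((k.factorial : ℝ)⁻¹) (hasDerivAt_pow_curve hc k))

/-- the differential equation of `D` in `t` -/
theorem hasDerivAt_Dt {Z W : A} (hE : Ek Z W m = 0) (t : ℝ) :
    HasDerivAt (Dt m Z W) (Dt m Z W t * Z + ex m (t • Z) * W) t := by
  have h2 : ∀ k ∈ range m, HasDerivAt (fun s : ℝ => s ^ k • ((k.factorial : ℝ)⁻¹ • Ek Z W k))
      (((k : ℝ) * t ^ (k - 1)) • ((k.factorial : ℝ)⁻¹ • Ek Z W k)) t := by
    intro k _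
    exact (hasDerivAt_pow k t).smul_const _
  have h3 := HasDerivAt.fun_sum h2
  suffices hs : Dt m Z W t * Z + ex m (t • Z) * W =
      ∑ i ∈ range m, ((i : ℝ) * t ^ (i - 1)) • ((i.factorial : ℝ)⁻¹ • Ek Z W i) by
    rw [hs]; exact h3
  have h4 : Dt m Z W t * Z + ex m (t • Z) * W =
      ∑ k ∈ range m, t ^ k • ((k.factorial : ℝ)⁻¹ • Ek Z W (k + 1)) := by
    unfold Dt ex
    rw [sum_mul, sum_mul, ← sum_add_distrib]
    refine sum_congr rfl fun k _ => ?_
    simp only [Ek, smul_add, smul_mul_assoc, smul_pow]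
    congr 1
    rw [smul_comm]
  rw [h4]
  cases m with
  | zero => simp
  | succ m =>
    rw [sum_range_succ, sum_range_succ' (fun k => ((k : ℝ) * t ^ (k - 1)) •
      ((k.factorial : ℝ)⁻¹ • Ek Z W k)), hE]
    simp only [smul_zero, add_zero, Nat.cast_zero, zero_mul, zero_smul]
    refine sum_congr rfl fun k _ => ?_
    rw [smul_smul, smul_smul, Nat.add_sub_cancel, Nat.factorial_succ]
    congr 1
    push_cast
    have : ((k : ℝ) + 1) ≠ 0 := by positivity
    have : (k.factorial : ℝ) ≠ 0 := by positivity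
    field_simp

/-- partial sums of `∑ (-1)^k t^{k+1}/(k+1)! ad^k W` -/
noncomputable def St (M : ℕ) (Z W : A) (t : ℝ) : A :=
  ∑ k ∈ range M, t ^ (k + 1) • (((-1) ^ k * ((k + 1).factorial : ℝ)⁻¹) • ((adL Z) ^ k) W)

theorem hasDerivAt_St {M : ℕ} {Z W : A} (hM : ((adL Z) ^ M) W = 0) (t : ℝ) :
    HasDerivAt (St M Z W) (W - adL Z (St M Z W t)) t := by
  have h2 : ∀ k ∈ range M, HasDerivAt (fun s : ℝ => s ^ (k + 1) •
      (((-1) ^ k * ((k + 1).factorial : ℝ)⁻¹) • ((adL Z) ^ k) W))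
      ((((k + 1 : ℕ) : ℝ) * t ^ k) • (((-1) ^ k * ((k + 1).factorial : ℝ)⁻¹) •
        ((adL Z) ^ k) W)) t := by
    intro k _
    exact (hasDerivAt_pow (k + 1) t).smul_const _
  have h3 := HasDerivAt.fun_sum h2
  suffices hs : W - adL Z (St M Z W t) = ∑ k ∈ range M, (((k + 1 : ℕ) : ℝ) * t ^ k) •
      (((-1) ^ k * ((k + 1).factorial : ℝ)⁻¹) • ((adL Z) ^ k) W) by
    rw [hs]; exact h3
  have h5 : ∀ k : ℕ, (((k + 1 : ℕ) : ℝ) * t ^ k) •
      (((-1) ^ k * ((k + 1).factorial : ℝ)⁻¹) • ((adL Z) ^ k) W) =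
      (t ^ k * ((-1) ^ k * ((k.factorial : ℝ))⁻¹)) • ((adL Z) ^ k) W := by
    intro k
    rw [smul_smul, Nat.factorial_succ]
    congr 1
    push_cast
    have : ((k : ℝ) + 1) ≠ 0 := by positivity
    have : (k.factorial : ℝ) ≠ 0 := by positivity
    field_simp
  rw [sum_congr rfl fun k _ => h5 k]
  have h6 : adL Z (St M Z W t) = ∑ k ∈ range M,
      (t ^ (k + 1) * ((-1) ^ k * ((k + 1).factorial : ℝ)⁻¹)) • ((adL Z) ^ (k + 1)) W := by
    unfold St
    rw [map_sum]
    refine sum_congr rfl fun k _ => ?_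
    rw [map_smul, map_smul, smul_smul, pow_succ' (adL Z), Module.End.mul_apply]
  rw [h6]
  cases M with
  | zero =>
    have : W = 0 := by simpa using hM
    simp [this]
  | succ M =>
    rw [sum_range_succ, hM, smul_zero, add_zero, sum_range_succ' (fun k =>
      (t ^ k * ((-1) ^ k * ((k.factorial : ℝ))⁻¹)) • ((adL Z) ^ k) W)]
    simp only [pow_zero, Nat.factorial_zero, Nat.cast_one, inv_one, mul_one, one_smul,
      Module.End.one_apply]
    rw [sub_eq_add_neg, add_comm, ← sum_neg_distrib]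
    congr 1
    refine sum_congr rfl fun k _ => ?_
    rw [← neg_smul]
    congr 1
    rw [pow_succ (-1 : ℝ)]
    ring

/-- uniqueness for `R' = - ad Z R` -/
theorem ad_unique (hm : 0 < m) {Z : A} (hZ : Z ^ m = 0) {R : ℝ → A}
    (hR : ∀ t, HasDerivAt R (-(adL Z (R t))) t) (h0 : R 0 = 0) (t : ℝ) : R t = 0 := by
  have h2 : ∀ t, HasDerivAt (fun t => ex m (t • Z) * R t * ex m ((-t) • Z)) 0 t := by
    intro t
    have h3 := ((hasDerivAt_ex hZ t).fun_mul (hR t)).fun_mul (hasDerivAt_ex_neg hZ t)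
    refine h3.congr_deriv ?_
    rw [adL_apply]
    noncomm_ring
  have h3 : ∀ x y, ex m (x • Z) * R x * ex m ((-x) • Z) = ex m (y • Z) * R y * ex m ((-y) • Z) :=
    is_const_of_deriv_eq_zero (fun t => (h2 t).differentiableAt) fun t => (h2 t).deriv
  have h4 := h3 t 0
  rw [h0, mul_zero, zero_mul] at h4
  have h5 : ex m ((-t) • Z) * ex m (t • Z) = 1 := by
    rw [← ex_add hm hZ, neg_add_cancel, ex_zero_smul hm]
  calc R t = (ex m ((-t) • Z) * ex m (t • Z)) * R t * (ex m ((-t) • Z) * ex m (t • Z)) := by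
        rw [h5, one_mul, mul_one]
    _ = ex m ((-t) • Z) * (ex m (t • Z) * R t * ex m ((-t) • Z)) * ex m (t • Z) := by
        simp only [mul_assoc]
    _ = 0 := by rw [h4, mul_zero, zero_mul]

/-- `ex (-Z) * ∂ ex = ψ(ad Z) W`. -/
theorem dexp_formula (hm : 0 < m) {Z W : A} (hZ : Z ^ m = 0) (hE : Ek Z W m = 0) (t : ℝ) :
    ex m ((-t) • Z) * Dt m Z W t = St (2 * m) Z W t := by
  have hM : ((adL Z) ^ (2 * m)) W = 0 := by rw [adL_pow_zero hZ]; rfl
  have key : ∀ t, HasDerivAt (fun t => ex m ((-t) • Z) * Dt m Z W t - St (2 * m) Z W t)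
      (-(adL Z (ex m ((-t) • Z) * Dt m Z W t - St (2 * m) Z W t))) t := by
    intro t
    have h3 := ((hasDerivAt_ex_neg hZ t).fun_mul (hasDerivAt_Dt hE t)).fun_sub
      (hasDerivAt_St hM t)
    refine h3.congr_deriv ?_
    rw [map_sub, adL_apply Z (ex m ((-t) • Z) * Dt m Z W t)]
    have h5 : ex m ((-t) • Z) * ex m (t • Z) = 1 := by
      rw [← ex_add hm hZ, neg_add_cancel, ex_zero_smul hm]
    have h6 : ex m ((-t) • Z) * (Dt m Z W t * Z + ex m (t • Z) * W) =
        ex m ((-t) • Z) * Dt m Z W t * Z + W := by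
      rw [mul_add, ← mul_assoc, ← mul_assoc, h5, one_mul]
    rw [h6]
    noncomm_ring
  have h0 : ex m ((-(0 : ℝ)) • Z) * Dt m Z W 0 - St (2 * m) Z W 0 = 0 := by
    have h1 : Dt m Z W 0 = 0 := by
      unfold Dt
      refine sum_eq_zero fun k _ => ?_
      cases k with
      | zero => simp [Ek]
      | succ k => simp
    have h2 : St (2 * m) Z W 0 = 0 := by
      unfold St
      exact sum_eq_zero fun k _ => by simp
    rw [h1, h2]; simp
  have := ad_unique hm hZ key h0 t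
  exact sub_eq_zero.mp this

/-- the polynomial `ψ = ∑_{k<2m} (-1)^k X^k / (k+1)!`. -/
noncomputable def psi (m : ℕ) : Polynomial ℝ :=
  ∑ k ∈ range (2 * m), Polynomial.C ((-1) ^ k * ((k + 1).factorial : ℝ)⁻¹) * Polynomial.X ^ k

theorem exists_inv (m : ℕ) (hm : 0 < m) :
    ∃ a b : Polynomial ℝ, a * psi m + b * Polynomial.X ^ (2 * m) = 1 := by
  have h1 : IsCoprime (psi m) (Polynomial.X ^ (2 * m)) := by
    apply IsCoprime.pow_right
    obtain ⟨n, hn⟩ : ∃ n, 2 * m = n + 1 := ⟨2 * m - 1, by omega⟩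
    refine ⟨1, -(∑ k ∈ range n, Polynomial.C ((-1) ^ (k + 1) * ((k + 1 + 1).factorial : ℝ)⁻¹) *
      Polynomial.X ^ k), ?_⟩
    rw [psi, hn, sum_range_succ', one_mul, neg_mul, sum_mul]
    have : ∀ k ∈ range n, Polynomial.C ((-1) ^ (k + 1) * ((k + 1 + 1).factorial : ℝ)⁻¹) *
      Polynomial.X ^ (k + 1) = Polynomial.C ((-1) ^ (k + 1) * ((k + 1 + 1).factorial : ℝ)⁻¹) *
      Polynomial.X ^ k * Polynomial.X := fun k _ => by rw [pow_succ]; ring
    rw [sum_congr rfl this]
    simp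
  exact h1

/-- universal inverse polynomial -/
noncomputable def aa (m : ℕ) (hm : 0 < m) : Polynomial ℝ := (exists_inv m hm).choose

theorem St_eq_aeval (Z W : A) :
    St (2 * m) Z W 1 = (Polynomial.aeval (adL Z) (psi m)) W := by
  unfold St psi
  rw [map_sum, LinearMap.sum_apply]
  refine sum_congr rfl fun k _ => ?_
  rw [one_pow, one_smul, map_mul, Polynomial.aeval_C, map_pow, Polynomial.aeval_X,
    Module.End.mul_apply, Module.algebraMap_end_apply]

theorem aa_coeff_zero (hm : 0 < m) : (aa m hm).coeff 0 = 1 := by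
  obtain ⟨b, hb⟩ := (exists_inv m hm).choose_spec
  change aa m hm * psi m + b * Polynomial.X ^ (2 * m) = 1 at hb
  have h1 := congrArg (fun p => Polynomial.coeff p 0) hb
  simp only [Polynomial.coeff_add, Polynomial.mul_coeff_zero, Polynomial.coeff_one_zero] at h1
  have h2 : (Polynomial.X ^ (2 * m) : Polynomial ℝ).coeff 0 = 0 := by
    rw [Polynomial.coeff_X_pow, if_neg (by omega)]
  have h3 : (psi m).coeff 0 = 1 := by
    unfold psi
    rw [Polynomial.finsetSum_coeff]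
    rw [Finset.sum_eq_single_of_mem 0 (by rw [mem_range]; omega)]
    · simp
    · intro k _ hk
      rw [Polynomial.coeff_C_mul, Polynomial.coeff_X_pow, if_neg (Ne.symm hk), mul_zero]
  rw [h2, h3, mul_zero, add_zero, mul_one] at h1
  exact h1

theorem psi_coeff_zero (hm : 0 < m) : (psi m).coeff 0 = 1 := by
  unfold psi
  rw [Polynomial.finsetSum_coeff]
  rw [Finset.sum_eq_single_of_mem 0 (by rw [mem_range]; omega)]
  · simp
  · intro k _ hk
    rw [Polynomial.coeff_C_mul, Polynomial.coeff_X_pow, if_neg (Ne.symm hk), mul_zero]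

theorem aeval_aa (hm : 0 < m) {Z : A} (hZ : Z ^ m = 0) (W : A) :
    (Polynomial.aeval (adL Z) (aa m hm)) (St (2 * m) Z W 1) = W := by
  obtain ⟨b, hb⟩ := (exists_inv m hm).choose_spec
  have h1 : St (2 * m) Z W 1 = (Polynomial.aeval (adL Z) (psi m)) W := St_eq_aeval Z W
  have h2 := congrArg (Polynomial.aeval (adL Z)) hb
  rw [map_add, map_mul, map_mul, map_pow, Polynomial.aeval_X, adL_pow_zero hZ, mul_zero,
    add_zero, map_one] at h2
  rw [h1, ← Module.End.mul_apply]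
  change ((Polynomial.aeval (adL Z)) (exists_inv m hm).choose * _) W = W
  rw [h2]; rfl

end ad

end Vale.Agent.P188.H615
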