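import Vale.Agent.P188.H615.MetU

/-!
The lower central series of a Lie subalgebra `e` of `V`; families of short elements; logarithmic
length bound on `exp e`.
-/

open Finset Filter Topology Pointwise

universe u v

namespace Vale.Agent.P188.H615

open Vale.Agent.P188.H796

section gam

variable {N : Type u} [Group N] {d n : ℕ} {D : MB N d n} {A : Type v} [NormedRing A]
  [NormedAlgebra ℝ A] [FiniteDimensional ℝ A] (R : RD D A)

/-- lower central series: `gam 0 = e`, `gam (i+1) = [e, gam i]` -/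
noncomputable def gam (e : Submodule ℝ R.V) : ℕ → Submodule ℝ R.V
  | 0 => e
  | i + 1 => Submodule.span ℝ {z | ∃ x ∈ e, ∃ y ∈ gam e i, ⁅x, y⁆ = z}

variable {R} {e : Submodule ℝ R.V}

theorem lie_mem_gam {i : ℕ} {x y : R.V} (hx : x ∈ e) (hy : y ∈ gam R e i) :
    ⁅x, y⁆ ∈ gam R e (i + 1) := Submodule.subset_span ⟨x, hx, y, hy, rfl⟩

theorem gam_succ_le (he : ∀ x ∈ e, ∀ y ∈ e, ⁅x, y⁆ ∈ e) (i : ℕ) : gam R e (i + 1) ≤ gam R e i := by
  induction i with
  | zero =>
    refine Submodule.span_le.2 ?_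
    rintro _ ⟨x, hx, y, hy, rfl⟩
    exact he x hx y hy
  | succ i ih =>
    conv_lhs => rw [gam]
    rw [Submodule.span_le]
    rintro _ ⟨x, hx, y, hy, rfl⟩
    exact lie_mem_gam hx (ih hy)

theorem gam_anti (he : ∀ x ∈ e, ∀ y ∈ e, ⁅x, y⁆ ∈ e) {i j : ℕ} (hij : i ≤ j) :
    gam R e j ≤ gam R e i := by
  induction j, hij using Nat.le_induction with
  | base => exact le_rfl
  | succ j _ ih => exact (gam_succ_le he j).trans ih

theorem gam_le (he : ∀ x ∈ e, ∀ y ∈ e, ⁅x, y⁆ ∈ e) (i : ℕ) : gam R e i ≤ e :=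
  gam_anti he (Nat.zero_le i)

theorem im_gam_le (i : ℕ) : im R (gam R e i) ≤ R.J ^ (i + 1) := by
  induction i with
  | zero =>
    rw [zero_add, pow_one]
    rintro _ ⟨x, _, rfl⟩
    exact R.V_le_J x.2
  | succ i ih =>
    have h1 : gam R e (i + 1) ≤ (R.J ^ (i + 1 + 1)).comap R.V.subtype := by
      conv_lhs => rw [gam]
      rw [Submodule.span_le]
      rintro _ ⟨x, _, y, hy, rfl⟩
      have hx : (x : A) ∈ R.J := R.V_le_J x.2
      have hy : (y : A) ∈ R.J ^ (i + 1) := ih ((mem_im R).2 hy)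
      change (x : A) * (y : A) - (y : A) * (x : A) ∈ R.J ^ (i + 1 + 1)
      refine Submodule.sub_mem _ ?_ ?_
      · rw [pow_succ']
        exact Submodule.mul_mem_mul hx hy
      · rw [pow_succ]
        exact Submodule.mul_mem_mul hy hx
    rintro _ ⟨x, hx, rfl⟩
    exact h1 hx

theorem gam_eq_bot {i : ℕ} (hi : R.m ≤ i + 1) : gam R e i = ⊥ := by
  rw [eq_bot_iff]
  intro x hx
  have h1 := im_gam_le i ((mem_im R).2 hx)
  obtain ⟨k, hk⟩ := Nat.exists_eq_add_of_le hi
  rw [hk, pow_add, R.J_pow, Submodule.bot_mul] at h1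
  have h2 : (x : A) = 0 := (Submodule.mem_bot ℝ).1 h1
  exact (Submodule.mem_bot ℝ).2 (Subtype.ext h2)

/-- brackets with `[e, e]` go down two steps -/
theorem lie_gam_one {i : ℕ} {x y : R.V}
    (hx : x ∈ gam R e 1) (hy : y ∈ gam R e i) : ⁅x, y⁆ ∈ gam R e (i + 2) := by
  rw [gam] at hx
  induction hx using Submodule.span_induction with
  | mem x hx =>
    obtain ⟨a, ha, b, hb, rfl⟩ := hx
    rw [lie_lie]
    refine Submodule.sub_mem _ ?_ ?_
    · exact lie_mem_gam ha (lie_mem_gam hb hy)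
    · exact lie_mem_gam hb (lie_mem_gam ha hy)
  | zero => rw [zero_lie]; exact Submodule.zero_mem _
  | add a b _ _ ha hb => rw [add_lie]; exact Submodule.add_mem _ ha hb
  | smul t a _ ha => rw [smul_lie]; exact Submodule.smul_mem _ t ha

/-- generation of `e` modulo brackets -/
theorem le_span_sup (he : ∀ x ∈ e, ∀ y ∈ e, ⁅x, y⁆ ∈ e) {Cv : Set R.V}
    (hCv : ∀ x, x ∈ LieSubalgebra.lieSpan ℝ R.V Cv ↔ x ∈ e) :
    e ≤ Submodule.span ℝ Cv ⊔ gam R e 1 := by
  have hle : Submodule.span ℝ Cv ⊔ gam R e 1 ≤ e := by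
    refine sup_le (Submodule.span_le.2 fun x hx => ?_) (gam_succ_le he 0)
    exact (hCv x).1 (LieSubalgebra.subset_lieSpan hx)
  let W : LieSubalgebra ℝ R.V :=
    { (Submodule.span ℝ Cv ⊔ gam R e 1 : Submodule ℝ R.V) with
      lie_mem' := by
        intro x y hx hy
        exact Submodule.mem_sup_right (lie_mem_gam (hle hx) (hle hy)) }
  have h1 : LieSubalgebra.lieSpan ℝ R.V Cv ≤ W :=
    LieSubalgebra.lieSpan_le.2 fun x hx => Submodule.mem_sup_left (Submodule.subset_span hx)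
  intro x hx
  exact h1 ((hCv x).2 hx)

/-- one step of the generation of the lower central series -/
theorem gam_step {i : ℕ} {Cv Z : Set R.V}
    (hC : Cv ⊆ e)
    (h0 : e ≤ Submodule.span ℝ Cv ⊔ gam R e 1)
    (hi : gam R e i ≤ Submodule.span ℝ Z ⊔ gam R e (i + 1)) :
    gam R e (i + 1) ≤ Submodule.span ℝ {z | ∃ u ∈ Cv, ∃ y ∈ Z, ⁅u, y⁆ = z} ⊔ gam R e (i + 2) := by
  set W := Submodule.span ℝ {z | ∃ u ∈ Cv, ∃ y ∈ Z, ⁅u, y⁆ = z} ⊔ gam R e (i + 2) with hW
  have k1 : ∀ u ∈ Cv, ∀ y ∈ gam R e i, ⁅u, y⁆ ∈ W := by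
    intro u hu y hy
    obtain ⟨a, ha, b, hb, rfl⟩ := Submodule.mem_sup.1 (hi hy)
    rw [lie_add]
    refine W.add_mem ?_ (Submodule.mem_sup_right (lie_mem_gam (hC hu) hb))
    clear hy hb
    induction ha using Submodule.span_induction with
    | mem x hx => exact Submodule.mem_sup_left (Submodule.subset_span ⟨u, hu, x, hx, rfl⟩)
    | zero => rw [lie_zero]; exact W.zero_mem
    | add a b _ _ ha hb =>
      rw [lie_add]
      exact W.add_mem ha hb
    | smul t a h1 ha =>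
      rw [lie_smul]
      exact W.smul_mem t ha
  conv_lhs => rw [gam]
  rw [Submodule.span_le]
  rintro _ ⟨x, hx, y, hy, rfl⟩
  obtain ⟨a, ha, b, hb, rfl⟩ := Submodule.mem_sup.1 (h0 hx)
  change ⁅a + b, y⁆ ∈ W
  rw [add_lie]
  refine W.add_mem ?_ (Submodule.mem_sup_right (lie_gam_one hb hy))
  clear hx
  induction ha using Submodule.span_induction with
  | mem x hx => exact k1 x hx y hy
  | zero => rw [zero_lie]; exact W.zero_mem
  | add a b _ _ ha hb => rw [add_lie]; exact W.add_mem ha hb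
  | smul t a _ ha => rw [smul_lie]; exact W.smul_mem t ha

end gam

end Vale.Agent.P188.H615
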