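import Vale.Agent.P188.H615.Pieces

/-!
The group `S / E` has subexponential growth: final form.
-/

open Finset Filter Topology Pointwise
open scoped commutatorElement

universe u v

namespace Vale.Agent.P188.H615

open Vale.Agent.P188.H796

theorem num3 {κ u : ℝ} (hκ : 0 < κ) (R : ℕ) (hu : u = (R + 1) * Real.exp (κ * R)) (K : ℕ) :
    u ^ K ≤ (1 + 1 / κ) ^ K * Real.exp (2 * κ * K * R) := by
  have hRn : (0 : ℝ) ≤ R := Nat.cast_nonneg R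
  have h1 : κ * R + 1 ≤ Real.exp (κ * R) := Real.add_one_le_exp _
  have h2 : (R : ℝ) + 1 ≤ (1 + 1 / κ) * Real.exp (κ * R) := by
    calc (R : ℝ) + 1 ≤ (1 + 1 / κ) * (κ * R + 1) := by
          have e1 : (1 + 1 / κ) * (κ * R + 1) = κ * R + 1 + R + 1 / κ := by
            field_simp; ring
          rw [e1]
          have : 0 ≤ κ * R := by positivity
          have : 0 < 1 / κ := by positivity
          linarith
      _ ≤ _ := mul_le_mul_of_nonneg_left h1 (by positivity)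
  have h3 : u ≤ (1 + 1 / κ) * Real.exp (2 * κ * R) := by
    rw [hu]
    calc ((R : ℝ) + 1) * Real.exp (κ * R) ≤ ((1 + 1 / κ) * Real.exp (κ * R)) * Real.exp (κ * R) :=
          mul_le_mul_of_nonneg_right h2 (Real.exp_pos _).le
      _ = (1 + 1 / κ) * Real.exp (2 * κ * R) := by
          rw [mul_assoc, ← Real.exp_add]; congr 2; ring
  have hu0 : 0 ≤ u := by rw [hu]; positivity
  refine (pow_le_pow_left₀ hu0 h3 K).trans (le_of_eq ?_)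
  rw [mul_pow, ← Real.exp_nat_mul]
  congr 2
  ring

theorem num4 {m Cq C2 M0 u B C' : ℝ} {k p r : ℕ} (hu1 : 1 ≤ u) (hB1 : 1 ≤ B) (hC' : 0 ≤ C')
    (hB : B = m * (Cq ^ k * (C2 * M0 * u ^ 2) ^ k)) :
    u ^ p * (2 * (C' * B ^ 2 + 1) + 1) ^ r ≤
      ((2 * C' + 3) * (m * (Cq ^ k * (C2 * M0) ^ k)) ^ 2) ^ r * u ^ (p + 4 * k * r) := by
  have hB2 : B = (m * (Cq ^ k * (C2 * M0) ^ k)) * u ^ (2 * k) := by
    rw [hB, mul_pow, ← pow_mul]; ring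
  have h1 : 2 * (C' * B ^ 2 + 1) + 1 ≤ (2 * C' + 3) * B ^ 2 := by nlinarith
  have h0 : 0 ≤ 2 * (C' * B ^ 2 + 1) + 1 := by positivity
  have h2 : (2 * (C' * B ^ 2 + 1) + 1) ^ r ≤
      ((2 * C' + 3) * (m * (Cq ^ k * (C2 * M0) ^ k)) ^ 2) ^ r * u ^ (4 * k * r) := by
    refine (pow_le_pow_left₀ h0 h1 r).trans (le_of_eq ?_)
    rw [hB2]
    generalize m * (Cq ^ k * (C2 * M0) ^ k) = β
    have e1 : (2 * C' + 3) * (β * u ^ (2 * k)) ^ 2 = ((2 * C' + 3) * β ^ 2) * u ^ (4 * k) := by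
      rw [mul_pow, ← pow_mul]; ring
    rw [e1, mul_pow _ (u ^ (4 * k)) r, ← pow_mul]
  calc u ^ p * (2 * (C' * B ^ 2 + 1) + 1) ^ r
      ≤ u ^ p * (((2 * C' + 3) * (m * (Cq ^ k * (C2 * M0) ^ k)) ^ 2) ^ r * u ^ (4 * k * r)) :=
        mul_le_mul_of_nonneg_left h2 (by positivity)
    _ = _ := by rw [pow_add]; ring

section main

variable {Γ : Type u} [Group Γ] {N : Subgroup Γ} [hN : N.Normal] {d n : ℕ} {D : MB N d n}

/-- **decomposition of balls into `e^{εR}` pieces** -/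
theorem pieces {l : D.S → ℕ} {T : Finset D.S} {ρ : ℝ} (hl : Lt D l T ρ) {e : LieIdeal ℝ D.R.V}
    (hcomm : ∀ s s' : D.S, ⁅s, s'⁆ ∈ (D.inN : D.R.NR →* D.S).range)
    (hE2 : ∀ (S : Finset D.S) (ε : ℝ), 0 < ε → ∃ q : Seminorm ℝ D.R.V, (∀ x, q x = 0 ↔ x ∈ e) ∧
      ∀ g ∈ S, ∀ x, q (D.AdE g x) ≤ Real.exp ε * q x) : Pieces D l e := by
  classical
  obtain ⟨p, a, haT', haT⟩ := enum (D := D) T
  obtain ⟨C1, hC1⟩ := hl.short
  obtain ⟨r, φ, σ, hφ, hσ⟩ := exists_coord e.toSubmodule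
  obtain ⟨C2, hC21, hC2⟩ := exists_C2 D
  obtain ⟨Cs, hCs0, hCs⟩ := sem_le ((sn D.R).comp σ)
  have hCσ : ∀ y, ‖((σ y : D.R.V) : D.Alg)‖ ≤ max 1 Cs * ‖y‖ := by
    intro y
    exact (hCs y).trans (mul_le_mul_of_nonneg_right (le_max_right _ _) (norm_nonneg _))
  refine ⟨max 1 C1, fun ε hε => ?_⟩
  set K : ℕ := p + 4 * D.R.m * r with hK
  set κ : ℝ := ε / (2 * (K + 1)) with hκ
  have hK0 : (0 : ℝ) ≤ K := Nat.cast_nonneg K
  have hκ0 : 0 < κ := by positivity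
  obtain ⟨q, hq0, hq⟩ := hE2 (T.image fun x => x⁻¹) κ hκ0
  obtain ⟨Cq, hCq1, hCq⟩ := sem_lie (R := D.R) q hq0
  obtain ⟨Cc, hCc1, hCc', hCc⟩ := sem_coord hφ hσ q hq0
  obtain ⟨M0, hM01, hρM, hS⟩ := sortD_US hcomm q hκ0.le (a := a) (p := p) (by
    intro i hi x
    exact hq _ (Finset.mem_image_of_mem _ (haT' i hi)) x) ρ
  have hQ : QC D e φ σ q Cq Cc (max 1 Cs) C2 :=
    ⟨hφ, hσ, hCσ, le_max_left _ _, hCq1, hCq, hCc1, hCc, hCc', hC21, hC2⟩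
  have hm1 : (1 : ℝ) ≤ D.R.m := by exact_mod_cast D.R.hm0
  refine ⟨((2 * (Cc ^ 3 * C2 * max 1 Cs) + 3) *
    (D.R.m * (Cq ^ D.R.m * (C2 * M0) ^ D.R.m)) ^ 2) ^ r * (1 + 1 / κ) ^ K, fun R => ?_⟩
  have hRn : (0 : ℝ) ≤ R := Nat.cast_nonneg R
  set u : ℝ := (R + 1) * Real.exp (κ * R) with hu
  set B : ℝ := D.R.m * (Cq ^ D.R.m * (C2 * M0 * u ^ 2) ^ D.R.m) with hB
  obtain ⟨P, hP1, hP2, hP3⟩ := hQ.pieces hl haT hκ0.le hM01 hρM hS hC1 R hu hB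
  obtain ⟨_, _, hB1⟩ := num1 hm1 hCq1 hC21 hM01 hκ0.le R hu hB
  have hexp1 : 1 ≤ Real.exp (κ * R) := Real.one_le_exp (by positivity)
  have hu1 : 1 ≤ u := by rw [hu]; nlinarith
  have hC'0 : 0 ≤ Cc ^ 3 * C2 * max 1 Cs := by
    have : 0 ≤ Cc ^ 3 := pow_nonneg (by linarith) 3
    exact mul_nonneg (mul_nonneg this (by linarith)) (by positivity)
  refine ⟨P, ?_, ?_, ?_⟩
  · refine hP1.trans ((num4 (p := p) (r := r) hu1 hB1 hC'0 hB).trans ?_)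
    rw [mul_assoc _ ((1 + 1 / κ) ^ K)]
    refine mul_le_mul_of_nonneg_left ?_ (pow_nonneg (by positivity) r)
    refine (num3 hκ0 R hu K).trans ?_
    refine mul_le_mul_of_nonneg_left ?_ (by positivity)
    refine Real.exp_le_exp.2 ?_
    refine mul_le_mul_of_nonneg_right ?_ hRn
    rw [hκ, ← mul_div_assoc, div_mul_eq_mul_div, div_le_iff₀ (by positivity)]
    nlinarith
  · intro x hx
    have h1 := hP2 x hx
    have h2 : 1 ≤ max 1 C1 := le_max_left _ _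
    nlinarith
  · intro s hs
    obtain ⟨x, hx, X, hX, b, h1, h2⟩ := hP3 s hs
    exact ⟨x, hx, X, hX, b, h1, h2.trans (le_max_right _ _)⟩

end main

end Vale.Agent.P188.H615
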