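import Vale.Agent.P188.H329.GenU
import Vale.Agent.P188.H615.Pieces2

/-!
Letters in the Lie algebra: universal relations and bounded generation.
-/

open Finset Filter Topology Pointwise

namespace Vale.Agent.P188.H615

open Vale.Agent.P188.H796 Vale.Agent.P188.H329

section letters

variable {N : Type} [Group N] {d n : ℕ} {D : MB N d n} {A : Type} [NormedRing A]
  [NormedAlgebra ℝ A] [FiniteDimensional ℝ A] {R : RD D A} {ι : Type}


theorem nil_V (X : ι → R.V) : Nil (fun i => (X i : A)) R.m := by
  intro w hw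
  have h1 : ∀ w : List ι, (w.map fun i => (X i : A)).prod ∈ R.J ^ w.length := by
    intro w
    induction w with
    | nil =>
      rw [List.map_nil, List.prod_nil, List.length_nil, pow_zero]
      exact Submodule.mem_one.2 ⟨1, map_one _⟩
    | cons i w ih =>
      rw [List.map_cons, List.prod_cons, List.length_cons, pow_succ']
      exact Submodule.mul_mem_mul (R.V_le_J (X i).2) ih
  have h2 := h1 w
  obtain ⟨k, hk⟩ := Nat.exists_eq_add_of_le hw.le
  rw [hk, pow_add, R.J_pow, Submodule.bot_mul] at h2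
  exact (Submodule.mem_bot ℝ).1 h2


theorem rexp_V (v : R.V) : rexp (R.m + 1) (v : A) = R.toA (R.Ex v) := by
  rw [R.toA_Ex]
  unfold rexp ex
  rw [sum_range_succ, V_pow, smul_zero, add_zero]


theorem xu_V (X : ι → R.V) (i : ι) (x : ℝ) :
    ((xu (nil_V X) i x : Aˣ) : A) = R.toA (R.Ex (x • X i)) := by
  rw [xu_val, ← rexp_V]
  rfl


/-- universal relations for letters -/
theorem relV [Finite ι] (X : ι → R.V) : Rel ι R.m (fun i x => R.Ex (x • X i)) := by
  refine Rel.of_map R.toA (fun a b h => R.toA_inj h) ?_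
  have h1 := (Rel.units (nil_V X)).map (Units.coeHom A)
  have h2 : (fun i x => (Units.coeHom A) (xu (nil_V X) i x)) =
      fun i x => R.toA (R.Ex (x • X i)) := by
    funext i x
    exact xu_V X i x
  rw [h2] at h1
  exact h1


/-- the Lie algebra generated by the letters is spanned by their iterated brackets -/
theorem lieSpan_le_br [Finite ι] (X : ι → R.V) {v : R.V}
    (hv : v ∈ LieSubalgebra.lieSpan ℝ R.V (Set.range X)) :
    ∃ y : UW ι R.m → ℝ, ∑ w : UW ι R.m, y w • br (fun i => (X i : A)) w.val = (v : A) := by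
  set e : ι → A := fun i => (X i : A) with he
  let W : LieSubalgebra ℝ R.V :=
    { (⨆ k, Lay e k : Submodule ℝ A).comap R.V.subtype with
      lie_mem' := by
        intro x y hx hy
        change ((⁅x, y⁆ : R.V) : A) ∈ (⨆ k, Lay e k : Submodule ℝ A)
        rw [R.coe_bracket]
        have hx' : (x : A) ∈ (⨆ k, Lay e k : Submodule ℝ A) := hx
        have hy' : (y : A) ∈ (⨆ k, Lay e k : Submodule ℝ A) := hy
        revert hx' hy'
        generalize (x : A) = a
        generalize (y : A) = b
        intro ha hb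
        induction ha using Submodule.iSup_induction' with
        | mem i a ha =>
          induction hb using Submodule.iSup_induction' with
          | mem j b hb => exact Submodule.mem_iSup_of_mem (i + j) (lay_lie e ha hb)
          | zero => simp
          | add b c _ _ hb hc =>
            have : a * (b + c) - (b + c) * a = (a * b - b * a) + (a * c - c * a) := by
              noncomm_ring
            rw [this]
            exact Submodule.add_mem _ hb hc
        | zero => simp
        | add a c _ _ ha hc =>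
          have : (a + c) * b - b * (a + c) = (a * b - b * a) + (c * b - b * c) := by
            noncomm_ring
          rw [this]
          exact Submodule.add_mem _ ha hc }
  have h1 : LieSubalgebra.lieSpan ℝ R.V (Set.range X) ≤ W := by
    refine LieSubalgebra.lieSpan_le.2 ?_
    rintro _ ⟨i, rfl⟩
    exact Submodule.mem_iSup_of_mem 1 (Submodule.subset_span ⟨[i], rfl, rfl⟩)
  have h2 : (v : A) ∈ (⨆ k, Lay e k : Submodule ℝ A) := h1 hv
  let T : (UW ι R.m → ℝ) →ₗ[ℝ] A :=
    ∑ w : UW ι R.m, (LinearMap.proj w : (UW ι R.m → ℝ) →ₗ[ℝ] ℝ).smulRight (br e w.val)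
  have hT : ∀ y, T y = ∑ w : UW ι R.m, y w • br e w.val := by
    intro y
    simp only [T, LinearMap.sum_apply, LinearMap.smulRight_apply, LinearMap.proj_apply]
  have h3 : (⨆ k, Lay e k : Submodule ℝ A) ≤ LinearMap.range T := by
    refine iSup_le fun k => ?_
    refine Submodule.span_le.2 ?_
    rintro _ ⟨w, hw, rfl⟩
    by_cases hk : w.length ≤ R.m
    · classical
      refine ⟨Pi.single ⟨w, hk⟩ 1, ?_⟩
      rw [hT, Finset.sum_eq_single (⟨w, hk⟩ : UW ι R.m)]
      · rw [Pi.single_eq_same, one_smul]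
      · intro u _ hu
        rw [Pi.single_eq_of_ne hu, zero_smul]
      · intro h; exact absurd (mem_univ _) h
    · have hb : br e w ∈ R.J ^ w.length := by
        clear hw hk
        induction w with
        | nil => simp [br]
        | cons i w ih =>
          cases w with
          | nil =>
            simp only [br, List.length_cons, List.length_nil, zero_add, pow_one]
            exact R.V_le_J (X i).2
          | cons j w =>
            simp only [br]
            refine Submodule.sub_mem _ ?_ ?_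
            · rw [List.length_cons, pow_succ']
              exact Submodule.mul_mem_mul (R.V_le_J (X i).2) ih
            · rw [List.length_cons, pow_succ]
              exact Submodule.mul_mem_mul ih (R.V_le_J (X i).2)
      push Not at hk
      obtain ⟨k', hk'⟩ := Nat.exists_eq_add_of_le hk.le
      rw [hk', pow_add, R.J_pow, Submodule.bot_mul] at hb
      have : br e w = 0 := (Submodule.mem_bot ℝ).1 hb
      simp only [SetLike.mem_coe]
      rw [this]
      exact Submodule.zero_mem _
  obtain ⟨y, hy⟩ := h3 h2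
  exact ⟨y, by rw [← hT, hy]⟩

theorem poly_const {K : ℕ} {C : ℝ} (hC : 0 ≤ C) : ∃ K' : ℕ, ∀ t : ℝ, 0 ≤ t →
    (K : ℝ) * (1 + C * t) ^ K ≤ K' * (1 + t) ^ K' := by
  refine ⟨⌈(K : ℝ) * (1 + C) ^ K⌉₊ + K, fun t ht => ?_⟩
  have h1 : (1 + C * t) ^ K ≤ ((1 + C) * (1 + t)) ^ K := by
    refine pow_le_pow_left₀ (by positivity) ?_ K
    nlinarith
  have h2 : (K : ℝ) * (1 + C) ^ K ≤ ((⌈(K : ℝ) * (1 + C) ^ K⌉₊ + K : ℕ) : ℝ) := by
    push_cast
    have := Nat.le_ceil ((K : ℝ) * (1 + C) ^ K)
    have h0 : (0 : ℝ) ≤ K := Nat.cast_nonneg K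
    linarith
  calc (K : ℝ) * (1 + C * t) ^ K ≤ K * ((1 + C) * (1 + t)) ^ K :=
        mul_le_mul_of_nonneg_left h1 (Nat.cast_nonneg K)
    _ = (K * (1 + C) ^ K) * (1 + t) ^ K := by rw [mul_pow]; ring
    _ ≤ ((⌈(K : ℝ) * (1 + C) ^ K⌉₊ + K : ℕ) : ℝ) * (1 + t) ^ (⌈(K : ℝ) * (1 + C) ^ K⌉₊ + K) := by
        refine mul_le_mul h2 ?_ (by positivity) (Nat.cast_nonneg _)
        exact pow_le_pow_right₀ (by linarith) (by omega)

/-- **bounded generation with polynomial control** -/
theorem genV [Finite ι] (X : ι → R.V) (W : Submodule ℝ R.V)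
    (hW : ∀ v ∈ W, v ∈ LieSubalgebra.lieSpan ℝ R.V (Set.range X)) :
    ∃ (m : ℕ) (J : Fin m → ι) (K : ℕ), ∀ v ∈ W, ∃ x : Fin m → ℝ,
      (∀ t, |x t| ≤ K * (1 + ‖(v : A)‖) ^ K) ∧
      R.Ex v = (List.ofFn fun t => R.Ex (x t • X (J t))).prod := by
  classical
  obtain ⟨m, J, K, x, _, hx, hgen⟩ := gen ι R.m
  set e : ι → A := fun i => (X i : A) with he
  let T : (UW ι R.m → ℝ) →ₗ[ℝ] A :=
    ∑ w : UW ι R.m, (LinearMap.proj w : (UW ι R.m → ℝ) →ₗ[ℝ] ℝ).smulRight (br e w.val)
  have hT : ∀ y, T y = ∑ w : UW ι R.m, y w • br e w.val := by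
    intro y
    simp only [T, LinearMap.sum_apply, LinearMap.smulRight_apply, LinearMap.proj_apply]
  obtain ⟨g, hg⟩ := LinearMap.exists_rightInverse_of_surjective T.rangeRestrict
    (LinearMap.range_eq_top.2 T.surjective_rangeRestrict)
  obtain ⟨G, hG⟩ := LinearMap.exists_extend g
  obtain ⟨K', hK'⟩ := poly_const (K := K)
    (norm_nonneg (LinearMap.toContinuousLinearMap G))
  refine ⟨m, J, K', fun v hv => ?_⟩
  obtain ⟨y0, hy0⟩ := lieSpan_le_br X (hW v hv)
  have hvr : (v : A) ∈ LinearMap.range T := ⟨y0, by rw [hT, hy0]⟩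
  have hTG : T (G (v : A)) = (v : A) := by
    have h1 : G (v : A) = g ⟨(v : A), hvr⟩ := by rw [← hG]; rfl
    have h2 := LinearMap.congr_fun hg ⟨(v : A), hvr⟩
    have h3 : T (g ⟨(v : A), hvr⟩) = (v : A) := congrArg Subtype.val h2
    rw [h1, h3]
  refine ⟨x (G (v : A)), fun t => ?_, ?_⟩
  · refine (hx _ t).trans ?_
    have h1 := (LinearMap.toContinuousLinearMap G).le_opNorm (v : A)
    have h2 : (LinearMap.toContinuousLinearMap G) (v : A) = G (v : A) := rfl
    rw [h2] at h1
    refine le_trans ?_ (hK' ‖(v : A)‖ (norm_nonneg _))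
    refine mul_le_mul_of_nonneg_left ?_ (Nat.cast_nonneg K)
    exact pow_le_pow_left₀ (by positivity) (by linarith) K
  · have h1 := hgen A e (nil_V X) (G (v : A))
    rw [← hT, hTG, rexp_V] at h1
    apply R.toA_inj
    rw [h1, prS, map_list_prod]
    have h2 := map_list_prod (Units.coeHom A)
      (List.ofFn fun t => xu (nil_V X) (J t) (x (G (v : A)) t))
    rw [Units.coeHom_apply] at h2
    rw [h2, List.map_ofFn, List.map_ofFn]
    congr 2
    funext t
    exact xu_V X (J t) _

end letters

end Vale.Agent.P188.H615
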