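import Vale.Agent.P188.H615.GeoK
import Vale.Agent.P188.H532.Geo

/-!
Short elements of `N_R` are in boxes with logarithmic neutral extents; conjugation by short elements.
-/

open Finset Filter Topology MeasureTheory
open scoped Pointwise

namespace Vale.Agent.P188.H615

open Vale.Agent.P188.H796 Vale.Agent.P188.H131 Vale.Agent.P188.Z1
open Vale.P188.H532 (sh sh2 rn)

section gen

variable {S : Type} [Group S] [MeasurableSpace S] {Γ : Type} [Group Γ]
  {V : Type} [AddCommGroup V] [Module ℝ V] {k : ℕ} {M : RModel S Γ V k} {J : Type}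
  (Rd : RayD M J) (B : M.NatBox)

theorem RayD.ray_none {a : M.ι} (h : M.wt a = 0) : Rd.ray a = none := by
  rcases h1 : Rd.ray a with _ | j
  · rfl
  · exfalso
    rw [Rd.wt_some a j h1] at h
    exact Rd.b_ne j ((smul_eq_zero.1 h).resolve_left (Rd.τ_pos a).ne')

theorem RayD.ray_some {a : M.ι} (h : M.wt a ≠ 0) : ∃ j, Rd.ray a = some j := by
  rcases h1 : Rd.ray a with _ | j
  · exact absurd (Rd.wt_none a h1) h
  · exact ⟨j, rfl⟩

theorem sh2_le {ι : Type} {ρ : Option ι → ℝ} {a b a' b' : ℝ} (h : a ≤ a') (h' : b ≤ b') (j) :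
    sh2 ρ a b j ≤ sh2 ρ a' b' j := by
  cases j with
  | none => exact add_le_add le_rfl h'
  | some j => exact add_le_add le_rfl h

theorem sh2_add {ι : Type} {ρ : Option ι → ℝ} {a b c : ℝ} (j) :
    sh2 ρ a b j + c = sh2 ρ (a + c) (b + c) j := by
  cases j with
  | none => exact add_assoc _ _ _
  | some j => exact add_assoc _ _ _

/-- exponentials of vectors of `e` in boxes: the neutral extents are not changed -/
theorem RayD.ex_e_Nb2 : ∃ κ : ℝ, 0 ≤ κ ∧ ∀ ρ : Option J → ℝ, (∀ j, 0 ≤ ρ j) →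
    ∀ v ∈ M.e, ∀ x : ℝ, 0 ≤ x → M.nm v ≤ Real.exp x →
      M.ex v ∈ Rd.Nb B (sh2 ρ (κ * (x + 1)) 0) := by
  obtain ⟨t0, T0, ht0, -, hτ⟩ := Rd.exists_τ
  have hBC := B.one_le
  have hlog : 0 ≤ Real.log B.C := Real.log_nonneg hBC
  refine ⟨(Real.log B.C + 1) / t0, by positivity, fun ρ hρ v hv x hx hvx => ?_⟩
  set κ : ℝ := (Real.log B.C + 1) / t0 with hκ
  have hκ0 : 0 ≤ κ := by positivity
  have hκt : Real.log B.C + 1 = κ * t0 := by rw [hκ, div_mul_cancel₀ _ ht0.ne']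
  have hvn := M.nm_nonneg v
  refine B.mono _ _ (fun i => ?_) (fun i => ?_) (B.ball_e v hv)
  · unfold RModel.two
    split_ifs
    · exact zero_le_one
    · positivity
  · unfold RModel.two
    split_ifs with hi
    · rw [RayD.sz, Rd.ray_none hi]
      refine Real.one_le_exp (mul_nonneg (Rd.τ_pos i).le ?_)
      have := hρ none
      change 0 ≤ ρ none + 0
      linarith
    · obtain ⟨j, hj⟩ := Rd.ray_some hi
      have h5 : 1 + M.nm v ≤ Real.exp (x + 1) := by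
        rw [Real.exp_add]
        have h3 : (2 : ℝ) ≤ Real.exp 1 := by have := Real.add_one_le_exp (1 : ℝ); linarith
        have h4 : 1 ≤ Real.exp x := Real.one_le_exp hx
        nlinarith
      calc B.C * (1 + M.nm v) ≤ Real.exp (Real.log B.C) * Real.exp (x + 1) := by
            rw [Real.exp_log (by linarith)]
            exact mul_le_mul_of_nonneg_left h5 (by linarith)
        _ ≤ _ := by
            rw [← Real.exp_add, RayD.sz, Real.exp_le_exp, hj]
            have e3 : Real.log B.C + (x + 1) ≤ (κ * t0) * (x + 1) := by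
              rw [← hκt]; nlinarith
            have e4 : (κ * t0) * (x + 1) ≤ Rd.τ i * (κ * (x + 1)) := by
              calc (κ * t0) * (x + 1) = t0 * (κ * (x + 1)) := by ring
                _ ≤ _ := mul_le_mul_of_nonneg_right (hτ i).1 (by positivity)
            have e5 : 0 ≤ Rd.τ i * ρ (some j) := mul_nonneg (Rd.τ_pos i).le (hρ _)
            change Real.log B.C + (x + 1) ≤ Rd.τ i * (ρ (some j) + κ * (x + 1))
            rw [mul_add]
            linarith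

/-- exponentials of neutral vectors in boxes -/
theorem RayD.ex_0_Nb : ∃ κ : ℝ, 0 ≤ κ ∧ ∀ ρ : Option J → ℝ, (∀ j, 0 ≤ ρ j) →
    ∀ v ∈ M.Vw 0, ∀ x : ℝ, 0 ≤ x → M.nm v ≤ Real.exp x →
      M.ex v ∈ Rd.Nb B (sh2 ρ 0 (x + κ)) := by
  have hBC := B.one_le
  have hlog : 0 ≤ Real.log B.C := Real.log_nonneg hBC
  refine ⟨Real.log B.C + 1, by positivity, fun ρ hρ v hv x hx hvx => ?_⟩
  have hvn := M.nm_nonneg v
  refine B.mono _ _ (fun i => ?_) (fun i => ?_) (B.ball_0 v hv)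
  · unfold RModel.two
    split_ifs
    · positivity
    · exact zero_le_one
  · unfold RModel.two
    split_ifs with hi
    · have hn := Rd.ray_none hi
      have h5 : 1 + M.nm v ≤ Real.exp (x + 1) := by
        rw [Real.exp_add]
        have h3 : (2 : ℝ) ≤ Real.exp 1 := by have := Real.add_one_le_exp (1 : ℝ); linarith
        have h4 : 1 ≤ Real.exp x := Real.one_le_exp hx
        nlinarith
      calc B.C * (1 + M.nm v) ≤ Real.exp (Real.log B.C) * Real.exp (x + 1) := by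
            rw [Real.exp_log (by linarith)]
            exact mul_le_mul_of_nonneg_left h5 (by linarith)
        _ ≤ _ := by
            rw [← Real.exp_add, RayD.sz, Real.exp_le_exp, hn, Rd.τ_none i hn, one_mul]
            have := hρ none
            change Real.log B.C + (x + 1) ≤ ρ none + (x + (Real.log B.C + 1))
            linarith
    · obtain ⟨j, hj⟩ := Rd.ray_some hi
      rw [RayD.sz, hj]
      refine Real.one_le_exp (mul_nonneg (Rd.τ_pos i).le ?_)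
      have := hρ (some j)
      change 0 ≤ ρ (some j) + 0
      linarith

/-- polynomials of `r` are exponentials of `erf` -/
theorem poly_erf (K : ℝ) (hK : 1 ≤ K) (m : ℕ) : ∃ κ : ℝ, 0 ≤ κ ∧ ∀ r : ℝ, 0 ≤ r →
    K * (1 + (K * r + 1)) ^ m ≤ Real.exp (erf κ r) := by
  have hlog : 0 ≤ Real.log K := Real.log_nonneg hK
  have hlog2 : 0 ≤ Real.log (K + 1) := Real.log_nonneg (by linarith)
  have hl2 : 0 ≤ Real.log 2 := Real.log_nonneg (by norm_num)
  refine ⟨Real.log K + m * (Real.log 2 + Real.log (K + 1) + 1), by positivity, fun r hr => ?_⟩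
  rw [erf_of_nonneg hr]
  have h1 : 1 + (K * r + 1) ≤ (2 * (K + 1)) * (1 + r) := by nlinarith
  have hlr : 0 ≤ Real.log (1 + r) := Real.log_nonneg (by linarith)
  have h2 : K * (1 + (K * r + 1)) ^ m ≤
      Real.exp (Real.log K + m * (Real.log 2 + Real.log (K + 1) + Real.log (1 + r))) := by
    rw [Real.exp_add, Real.exp_log (by linarith), Real.exp_nat_mul]
    refine mul_le_mul_of_nonneg_left (pow_le_pow_left₀ (by positivity) ?_ m) (by linarith)
    rw [Real.exp_add, Real.exp_add, Real.exp_log (by norm_num), Real.exp_log (by linarith),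
      Real.exp_log (by linarith)]
    exact h1
  refine h2.trans (Real.exp_le_exp.2 ?_)
  have hm : (0 : ℝ) ≤ m := Nat.cast_nonneg m
  have e1 : m * (Real.log 2 + Real.log (K + 1) + Real.log (1 + r)) ≤
      (m * (Real.log 2 + Real.log (K + 1) + 1)) * (1 + Real.log (1 + r)) := by
    rw [mul_assoc]
    refine mul_le_mul_of_nonneg_left ?_ hm
    nlinarith [mul_nonneg (add_nonneg hl2 hlog2) hlr]
  have e2 : Real.log K ≤ Real.log K * (1 + Real.log (1 + r)) := by nlinarith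
  rw [add_mul]
  linarith

/-- field `len_N` -/
theorem RayD.len_Nb2 : ∃ C0 : ℝ, 0 ≤ C0 ∧ ∀ C : ℝ, C0 ≤ C → ∀ (x : S) (r : ℝ), M.η x = 1 →
    (M.l x : ℝ) ≤ r → x ∈ Rd.Nb B (rn (C * (r + 1)) (erf C r)) := by
  obtain ⟨κd, hκd, hdec⟩ := RayD.dec_size (M := M)
  obtain ⟨κ1, hκ1, He⟩ := Rd.ex_e_Nb2 B
  obtain ⟨κ2, hκ2, H0⟩ := Rd.ex_0_Nb B
  obtain ⟨C1, hC1, hmul⟩ := Rd.Nb_mul B
  have hC0 := M.C0_pos
  obtain ⟨κ3, hκ3, Hp⟩ := poly_erf M.C0 M.one_le_C0 M.deg
  refine ⟨κ1 * (κd + 1) + C1 + κ3 + κ2, by positivity, fun C hC x r hx hr => ?_⟩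
  have hr0 : 0 ≤ r := le_trans (Nat.cast_nonneg _) hr
  obtain ⟨v, hv, c, hc, h, hvn⟩ := hdec x
  have hηc : M.η c = 1 := by
    rw [h, map_mul, M.η_ex, one_mul] at hx; exact hx
  obtain ⟨y, hy, hyc, hyn⟩ := M.C_ker _ c hc hηc
  have hz : ∀ j : Option J, (0 : ℝ) ≤ (fun _ : Option J => (0 : ℝ)) j := fun _ => le_rfl
  have h1 := He (fun _ => 0) hz v hv (κd * (r + 1)) (by positivity)
    (hvn.trans (Real.exp_le_exp.2 (mul_le_mul_of_nonneg_left (by linarith) hκd)))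
  have hm : (⌈M.C0 * M.l x⌉₊ : ℝ) ≤ M.C0 * r + 1 := by
    refine ((Nat.ceil_lt_add_one (by positivity)).le).trans ?_
    have := mul_le_mul_of_nonneg_left hr hC0.le
    linarith
  have hyn2 : M.nm y ≤ Real.exp (erf κ3 r) := by
    refine (hyn.trans (mul_le_mul_of_nonneg_left (pow_le_pow_left₀ (by positivity)
      (by linarith) _) hC0.le)).trans (Hp r hr0)
  have h2 := H0 (fun _ => 0) hz y hy (erf κ3 r) (erf_nonneg hκ3 r) hyn2
  have hlr : 0 ≤ Real.log (1 + r) := Real.log_nonneg (by linarith)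
  have h3 := hmul C1 le_rfl
    (fun j => rn (κ1 * (κd + 1) * (r + 1)) (erf κ3 r + κ2) j) _
    (Rd.Nb_mono B (fun j => ?_) h1) _ (Rd.Nb_mono B (fun j => ?_) h2)
  · rw [hyc, ← h] at h3
    refine Rd.Nb_mono B (fun j => ?_) h3
    cases j with
    | none =>
      change erf κ3 r + κ2 + C1 ≤ erf C r
      rw [erf_of_nonneg hr0, erf_of_nonneg hr0]
      have e1 : (κ1 * (κd + 1) + C1 + κ3 + κ2) * (1 + Real.log (1 + r)) ≤
          C * (1 + Real.log (1 + r)) := mul_le_mul_of_nonneg_right hC (by linarith)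
      have e2 : 0 ≤ κ1 * (κd + 1) := by positivity
      nlinarith [mul_nonneg e2 hlr, mul_nonneg hC1 hlr, mul_nonneg hκ2 hlr]
    | some j =>
      change κ1 * (κd + 1) * (r + 1) + C1 ≤ C * (r + 1)
      have e1 : (κ1 * (κd + 1) + C1 + κ3 + κ2) * (r + 1) ≤ C * (r + 1) :=
        mul_le_mul_of_nonneg_right hC (by linarith)
      nlinarith [mul_nonneg hC1 hr0, mul_nonneg hκ2 hr0, mul_nonneg hκ3 hr0]
  · cases j with
    | none =>
      change (0 : ℝ) + 0 ≤ erf κ3 r + κ2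
      have := erf_nonneg hκ3 r
      linarith
    | some j =>
      change (0 : ℝ) + κ1 * (κd * (r + 1) + 1) ≤ κ1 * (κd + 1) * (r + 1)
      rw [zero_add, mul_assoc]
      exact mul_le_mul_of_nonneg_left (by nlinarith) hκ1
  · cases j with
    | none => 
      change (0 : ℝ) + (erf κ3 r + κ2) ≤ erf κ3 r + κ2
      linarith
    | some j =>
      change (0 : ℝ) + 0 ≤ κ1 * (κd + 1) * (r + 1)
      have : 0 ≤ κ1 * (κd + 1) * (r + 1) := by positivity
      linarith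

/-- field `N_bdd` -/
theorem RayD.Nb_bdd (R : ℝ) : ∃ B' : ℝ, ∀ ρ : Option J → ℝ, (∀ j, ρ j ≤ R) → ∀ x ∈ Rd.Nb B ρ,
    (M.l x : ℝ) ≤ B' := by
  obtain ⟨t0, T0, ht0, hT0, hτ⟩ := Rd.exists_τ
  have hBC := B.one_le
  have hC0 := M.C0_pos
  refine ⟨B.m * (M.C0 * (1 + B.C * Real.exp (T0 * |R|))), fun ρ hρ x hx => ?_⟩
  obtain ⟨y, hy, rfl⟩ := Rd.Nb_gen B ρ hx
  have key : ∀ t, (M.l (M.ex ((Rd.sz ρ (B.J t) * y t) • M.X (B.J t))) : ℝ) ≤
      M.C0 * (1 + B.C * Real.exp (T0 * |R|)) := by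
    intro t
    refine (M.met_V _).trans (mul_le_mul_of_nonneg_left (add_le_add le_rfl ?_) hC0.le)
    rw [map_smul_eq_mul, Real.norm_eq_abs, abs_mul, abs_of_pos (Rd.sz_pos ρ _)]
    have h1 : Rd.sz ρ (B.J t) ≤ Real.exp (T0 * |R|) := by
      rw [RayD.sz, Real.exp_le_exp]
      have h2 : ρ (Rd.ray (B.J t)) ≤ |R| := (hρ _).trans (le_abs_self R)
      have h3 := mul_le_mul_of_nonneg_left h2 (Rd.τ_pos (B.J t)).le
      have h4 := mul_le_mul_of_nonneg_right (hτ (B.J t)).2 (abs_nonneg R)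
      linarith
    have h5 : M.nm (M.X (B.J t)) ≤ 1 := M.X_le _
    have h6 := hy t
    have h7 := Rd.sz_pos ρ (B.J t)
    calc Rd.sz ρ (B.J t) * |y t| * M.nm (M.X (B.J t))
        ≤ Rd.sz ρ (B.J t) * |y t| * 1 := mul_le_mul_of_nonneg_left h5 (by positivity)
      _ = |y t| * Rd.sz ρ (B.J t) := by ring
      _ ≤ B.C * Real.exp (T0 * |R|) := mul_le_mul h6 h1 h7.le (by linarith)
  have hlist : ∀ L : List S, (∀ a ∈ L, (M.l a : ℝ) ≤ M.C0 * (1 + B.C * Real.exp (T0 * |R|))) →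
      (M.l L.prod : ℝ) ≤ L.length * (M.C0 * (1 + B.C * Real.exp (T0 * |R|))) := by
    intro L
    induction L with
    | nil => intro _; simp [M.len.one]
    | cons a L ih =>
      intro h
      rw [List.prod_cons, List.length_cons]
      have h1 : (M.l (a * L.prod) : ℝ) ≤ M.l a + M.l L.prod := by exact_mod_cast M.len.mul _ _
      have h2 := h a (by simp)
      have h3 := ih fun b hb => h b (List.mem_cons_of_mem _ hb)
      push_cast
      linarith
  have h1 := hlist (List.ofFn fun t => M.ex ((Rd.sz ρ (B.J t) * y t) • M.X (B.J t))) (by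
    intro a ha
    rw [List.mem_ofFn] at ha
    obtain ⟨t, rfl⟩ := ha
    exact key t)
  rwa [List.length_ofFn] at h1

end gen

section conjs

variable {Γ : Type} [Group Γ] {k : ℕ} {η : Γ →* Multiplicative (Fin k → ℤ)} {d n : ℕ}
  {D : MB η.ker d n} {M : RModel D.S Γ D.R.V k} {J : Type} (Rd : RayD M J) {B : M.NatBox}
  (hB : B.Bx = NBx D M.X)

include hB in
/-- conjugation by Cartan words of bounded length -/
theorem RayD.cj_CB2 (h : NatHyp M) : ∃ κ : ℝ, 0 ≤ κ ∧ ∀ (m : ℕ) (r : ℝ), 0 ≤ r →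
    (m : ℝ) ≤ M.C0 * r + 1 → ∀ c ∈ M.CB m, ‖M.θ c‖ ≤ M.C0 * r → ∀ ρ : Option J → ℝ,
    ∀ u ∈ Rd.Nb B ρ, c * u * c⁻¹ ∈ Rd.Nb B (sh2 ρ (κ * (r + 1)) (erf κ r)) := by
  obtain ⟨κ, hκ, Hc⟩ := Rd.cj_CB hB h
  obtain ⟨β, hβ0, hβ⟩ := Rd.exists_β
  have hC0 := M.C0_pos
  have hl0 : 0 ≤ Real.log (M.C0 + 2) := Real.log_nonneg (by linarith)
  refine ⟨β * M.C0 + κ * (M.C0 + 2) + κ * (1 + Real.log (M.C0 + 2)), by positivity,
    fun m r hr hm c hc hθ ρ u hu => ?_⟩
  have hm0 : (0 : ℝ) ≤ m := Nat.cast_nonneg m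
  have hlr : 0 ≤ Real.log (1 + r) := Real.log_nonneg (by linarith)
  have hlm : Real.log (1 + (m : ℝ)) ≤ Real.log (M.C0 + 2) + Real.log (1 + r) := by
    rw [← Real.log_mul (by positivity) (by positivity)]
    refine Real.log_le_log (by positivity) ?_
    nlinarith
  have hk2 : κ * (1 + Real.log (1 + (m : ℝ))) ≤
      κ * (1 + Real.log (M.C0 + 2)) * (1 + Real.log (1 + r)) := by
    rw [mul_assoc]
    refine mul_le_mul_of_nonneg_left ?_ hκ
    nlinarith [mul_nonneg hl0 hlr]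
  have hl := Real.log_le_sub_one_of_pos (show 0 < 1 + (m : ℝ) by positivity)
  have hk : κ * (1 + Real.log (1 + (m : ℝ))) ≤ κ * (M.C0 + 2) * (r + 1) := by
    rw [mul_assoc]
    refine mul_le_mul_of_nonneg_left ?_ hκ
    nlinarith
  have hb : 0 ≤ β * M.C0 * (r + 1) := by positivity
  have hb2 : 0 ≤ κ * (1 + Real.log (M.C0 + 2)) * (r + 1) := by positivity
  refine Hc _ c hc ρ _ ?_ (fun j => ?_) u hu
  · change ρ none + _ ≤ ρ none + _
    rw [erf_of_nonneg hr]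
    have e1 : 0 ≤ (β * M.C0 + κ * (M.C0 + 2)) * (1 + Real.log (1 + r)) := by positivity
    have e2 : (β * M.C0 + κ * (M.C0 + 2) + κ * (1 + Real.log (M.C0 + 2))) *
        (1 + Real.log (1 + r)) = (β * M.C0 + κ * (M.C0 + 2)) * (1 + Real.log (1 + r)) +
        κ * (1 + Real.log (M.C0 + 2)) * (1 + Real.log (1 + r)) := by ring
    rw [e2]
    linarith
  · change ρ (some j) + _ + _ ≤ ρ (some j) + _
    have e2 : Rd.b j (M.θ c) ≤ β * M.C0 * (r + 1) := by
      calc Rd.b j (M.θ c) ≤ |Rd.b j (M.θ c)| := le_abs_self _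
        _ ≤ β * ‖M.θ c‖ := hβ j _
        _ ≤ β * (M.C0 * (r + 1)) := by
            refine mul_le_mul_of_nonneg_left (hθ.trans ?_) hβ0
            exact mul_le_mul_of_nonneg_left (by linarith) hC0.le
        _ = _ := by ring
    have e3 : (β * M.C0 + κ * (M.C0 + 2) + κ * (1 + Real.log (M.C0 + 2))) * (r + 1) =
      β * M.C0 * (r + 1) + κ * (M.C0 + 2) * (r + 1) +
        κ * (1 + Real.log (M.C0 + 2)) * (r + 1) := by ring
    rw [e3]
    linarith

include hB in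
/-- field `cj_N` -/
theorem RayD.cj_Nb2 (h : NatHyp M) : ∃ C0 : ℝ, 0 ≤ C0 ∧ ∀ C : ℝ, C0 ≤ C → ∀ (g : D.S) (r : ℝ),
    (M.l g : ℝ) ≤ r → ∀ ρ : Option J → ℝ, (∀ j, 0 ≤ ρ j) → ∀ u ∈ Rd.Nb B ρ,
      g * u * g⁻¹ ∈ Rd.Nb B (sh2 ρ (C * (r + 1)) (erf C r)) := by
  obtain ⟨κ1, hκ1, Hc⟩ := Rd.cj_CB2 hB h
  obtain ⟨κ2, hκ2, He⟩ := Rd.ex_e_Nb2 B
  obtain ⟨κd, hκd, hdec⟩ := RayD.dec_size (M := M)
  obtain ⟨C1, hC1, hmul⟩ := Rd.Nb_mul B
  have hC0 := M.C0_pos
  set κ3 : ℝ := κ1 + κ2 * (κd + 1) with hκ3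
  have hκ30 : 0 ≤ κ3 := by positivity
  refine ⟨κ3 + 2 * C1, by positivity, fun C hC g r hr ρ hρ u hu => ?_⟩
  have hl0 : (0 : ℝ) ≤ M.l g := Nat.cast_nonneg _
  have hr0 : 0 ≤ r := hl0.trans hr
  obtain ⟨v, hv, c, hc, hg, hvn⟩ := hdec g
  have hθ : ‖M.θ c‖ ≤ M.C0 * r := by
    have e3 : M.θ c = M.θ g := by
      rw [hg, M.θ_mul, M.θ_ex, zero_add]
    rw [e3]
    exact (M.θ_le g).trans (mul_le_mul_of_nonneg_left hr hC0.le)
  have hm : (⌈M.C0 * M.l g⌉₊ : ℝ) ≤ M.C0 * r + 1 := by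
    refine ((Nat.ceil_lt_add_one (by positivity)).le).trans ?_
    have := mul_le_mul_of_nonneg_left hr hC0.le
    linarith
  have hle1 : κ1 * (r + 1) ≤ κ3 * (r + 1) := by
    refine mul_le_mul_of_nonneg_right ?_ (by linarith)
    rw [hκ3]; linarith [mul_nonneg hκ2 (by linarith : 0 ≤ κd + 1)]
  have hle2 : erf κ1 r ≤ erf κ3 r := erf_mono_C (by
    rw [hκ3]; linarith [mul_nonneg hκ2 (by linarith : 0 ≤ κd + 1)]) r
  have h1 : c * u * c⁻¹ ∈ Rd.Nb B (sh2 ρ (κ3 * (r + 1)) (erf κ3 r)) :=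
    Rd.Nb_mono B (fun j => sh2_le hle1 hle2 j) (Hc _ r hr0 hm c hc hθ ρ u hu)
  have h2 : M.ex v ∈ Rd.Nb B (sh2 ρ (κ3 * (r + 1)) (erf κ3 r)) := by
    refine Rd.Nb_mono B (fun j => sh2_le ?_ (erf_nonneg hκ30 r) j)
      (He ρ hρ v hv (κd * (r + 1)) (by positivity)
      (hvn.trans (Real.exp_le_exp.2 (mul_le_mul_of_nonneg_left (by linarith) hκd))))
    have e2 : κ2 * (κd * (r + 1) + 1) ≤ κ2 * ((κd + 1) * (r + 1)) :=
      mul_le_mul_of_nonneg_left (by nlinarith) hκ2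
    have e3 : κ3 * (r + 1) = κ1 * (r + 1) + κ2 * ((κd + 1) * (r + 1)) := by rw [hκ3]; ring
    have e4 : 0 ≤ κ1 * (r + 1) := by positivity
    linarith
  have h3 := hmul C1 le_rfl _ _ h2 _ h1
  have h4 := hmul C1 le_rfl _ _ h3 _ (Rd.Nb_mono B (fun j => by linarith) (Rd.Nb_inv B h2))
  have h5 : g * u * g⁻¹ = M.ex v * (c * u * c⁻¹) * (M.ex v)⁻¹ := by
    rw [hg]; group
  rw [h5]
  refine Rd.Nb_mono B (fun j => ?_) h4
  rw [sh2_add, sh2_add]
  have hlr : 0 ≤ Real.log (1 + r) := Real.log_nonneg (by linarith)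
  refine sh2_le ?_ ?_ j
  · have h6 : (κ3 + 2 * C1) * (r + 1) ≤ C * (r + 1) :=
      mul_le_mul_of_nonneg_right hC (by linarith)
    have h7 : C1 ≤ C1 * (r + 1) := by nlinarith
    have h8 : (κ3 + 2 * C1) * (r + 1) = κ3 * (r + 1) + 2 * (C1 * (r + 1)) := by ring
    linarith
  · rw [erf_of_nonneg hr0, erf_of_nonneg hr0]
    have h6 : (κ3 + 2 * C1) * (1 + Real.log (1 + r)) ≤ C * (1 + Real.log (1 + r)) :=
      mul_le_mul_of_nonneg_right hC (by linarith)
    have h7 : C1 ≤ C1 * (1 + Real.log (1 + r)) := by nlinarith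
    have h8 : (κ3 + 2 * C1) * (1 + Real.log (1 + r)) =
      κ3 * (1 + Real.log (1 + r)) + 2 * (C1 * (1 + Real.log (1 + r))) := by ring
    linarith

end conjs

end Vale.Agent.P188.H615
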