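import Vale.Agent.P188.H615.GeoD

/-!
The natural boxes as functions of the extents: fields of the geometric interface of route B.
-/

open Finset Filter Topology MeasureTheory
open scoped Pointwise

namespace Vale.Agent.P188.H615

open Vale.Agent.P188.H796 Vale.Agent.P188.H131 Vale.Agent.P188.Z1

namespace RayD

variable {S : Type} [Group S] [MeasurableSpace S] {Γ : Type} [Group Γ]
  {V : Type} [AddCommGroup V] [Module ℝ V] {k : ℕ} {M : RModel S Γ V k} {J : Type}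
  (Rd : RayD M J) (B : M.NatBox)

/-- the natural box with extents `ρ` -/
def Nb (ρ : Option J → ℝ) : Set S := B.Bx (Rd.sz ρ)

theorem Nb_meas (ρ : Option J → ℝ) : MeasurableSet (Rd.Nb B ρ) := B.meas _

theorem Nb_mono {ρ ρ' : Option J → ℝ} (h : ∀ j, ρ j ≤ ρ' j) : Rd.Nb B ρ ⊆ Rd.Nb B ρ' :=
  B.mono _ _ (fun a => (Rd.sz_pos ρ a).le) fun a => Rd.sz_mono h a

theorem Nb_one (ρ : Option J → ℝ) : (1 : S) ∈ Rd.Nb B ρ := B.one _ fun a => (Rd.sz_pos ρ a).le

theorem Nb_inv {ρ : Option J → ℝ} {x : S} (h : x ∈ Rd.Nb B ρ) : x⁻¹ ∈ Rd.Nb B ρ := B.inv _ _ h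

theorem Nb_pos (ρ : Option J → ℝ) : 0 < M.μ (Rd.Nb B ρ) :=
  pos_iff_ne_zero.2 (B.pos _ (Rd.sz_pos ρ))

theorem Nb_top (ρ : Option J → ℝ) : M.μ (Rd.Nb B ρ) < ⊤ := lt_top_iff_ne_top.2 (B.fin _)

/-- multiplication of the sizes by a constant `K ≤ exp κ` -/
theorem Bx_mul_sub {t0 : ℝ} (ht0 : 0 < t0) (hτ : ∀ a, t0 ≤ Rd.τ a) {K x κ : ℝ} (hK0 : 0 ≤ K)
    (hK : K ≤ Real.exp κ) (hx : κ / t0 ≤ x) (hx0 : 0 ≤ x) (ρ : Option J → ℝ) :
    (B.Bx fun a => K * Rd.sz ρ a) ⊆ Rd.Nb B (fun j => ρ j + x) :=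
  B.mono _ _ (fun a => mul_nonneg hK0 (Rd.sz_pos ρ a).le) fun a =>
    Rd.mul_sz_le ht0 hτ hK hx hx0 ρ a

/-- field `N_mul` -/
theorem Nb_mul : ∃ C0 : ℝ, 0 ≤ C0 ∧ ∀ C : ℝ, C0 ≤ C → ∀ ρ : Option J → ℝ, ∀ x ∈ Rd.Nb B ρ,
    ∀ y ∈ Rd.Nb B ρ, x * y ∈ Rd.Nb B (fun j => ρ j + C) := by
  obtain ⟨t0, T0, ht0, -, hτ⟩ := Rd.exists_τ
  have hC1 := B.one_le
  have hlog : 0 ≤ Real.log B.C := Real.log_nonneg hC1
  refine ⟨Real.log B.C / t0, by positivity, fun C hC ρ x hx y hy => ?_⟩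
  have hC0 : 0 ≤ C := le_trans (by positivity) hC
  exact Rd.Bx_mul_sub B ht0 (fun a => (hτ a).1) (by linarith)
    (by rw [Real.exp_log (by linarith)]) hC hC0 ρ
    (B.mul _ (fun a => (Rd.sz_pos ρ a).le) x hx y hy)

/-- doubling, exponential form -/
theorem dbl_exp : ∃ C1 : ℝ, 0 ≤ C1 ∧ ∀ x : ℝ, 0 ≤ x → ∀ R : M.ι → ℝ, (∀ i, 0 < R i) →
    M.μ (B.Bx fun i => Real.exp x * R i) ≤
      ENNReal.ofReal (Real.exp (C1 * (1 + x))) * M.μ (B.Bx R) := by
  obtain ⟨C', hC'⟩ := B.dbl (Real.exp 1) (Real.one_le_exp zero_le_one)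
  set c : ℝ := max C' 1 with hc
  have hc1 : 1 ≤ c := le_max_right _ _
  have hlog : 0 ≤ Real.log c := Real.log_nonneg hc1
  have hit : ∀ n : ℕ, ∀ R : M.ι → ℝ, (∀ i, 0 < R i) →
      M.μ (B.Bx fun i => Real.exp n * R i) ≤ ENNReal.ofReal (c ^ n) * M.μ (B.Bx R) := by
    intro n
    induction n with
    | zero => intro R hR; simp
    | succ n ih =>
      intro R hR
      have h1 := hC' (fun i => Real.exp n * R i) fun i => mul_pos (Real.exp_pos _) (hR i)
      have h2 : (fun i => Real.exp ((n + 1 : ℕ) : ℝ) * R i) =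
          fun i => Real.exp 1 * (Real.exp n * R i) := by
        funext i
        rw [← mul_assoc, ← Real.exp_add]
        push_cast
        congr 2; ring
      rw [h2]
      refine h1.trans ?_
      refine (mul_le_mul (ENNReal.ofReal_le_ofReal (le_max_left C' 1)) (ih R hR)
        zero_le zero_le).trans (le_of_eq ?_)
      rw [← mul_assoc, ← ENNReal.ofReal_mul (by positivity), pow_succ, mul_comm c]
  refine ⟨Real.log c, hlog, fun x hx R hR => ?_⟩
  have hn : x ≤ (⌈x⌉₊ : ℝ) := Nat.le_ceil x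
  have hn2 : (⌈x⌉₊ : ℝ) ≤ x + 1 := (Nat.ceil_lt_add_one hx).le
  refine (measure_mono (B.mono _ (fun i => Real.exp ⌈x⌉₊ * R i)
    (fun i => mul_nonneg (Real.exp_pos _).le (hR i).le)
    fun i => mul_le_mul_of_nonneg_right (Real.exp_le_exp.2 hn) (hR i).le)).trans ?_
  refine (hit _ R hR).trans ?_
  refine mul_le_mul_left (ENNReal.ofReal_le_ofReal ?_) _
  rw [← Real.rpow_natCast, Real.rpow_def_of_pos (by linarith), Real.exp_le_exp]
  nlinarith

/-- field `ν_dbl` -/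
theorem Nb_dbl : ∃ C0 : ℝ, 0 ≤ C0 ∧ ∀ C : ℝ, C0 ≤ C → ∀ ρ : Option J → ℝ, ∀ r : ℝ, 0 ≤ r →
    M.μ (Rd.Nb B (fun j => ρ j + r)) ≤
      ENNReal.ofReal (Real.exp (C * (1 + r))) * M.μ (Rd.Nb B ρ) := by
  obtain ⟨t0, T0, ht0, hT0, hτ⟩ := Rd.exists_τ
  obtain ⟨C1, hC1, H⟩ := dbl_exp B
  refine ⟨C1 * T0, by positivity, fun C hC ρ r hr => ?_⟩
  have h1 : Rd.Nb B (fun j => ρ j + r) ⊆ B.Bx fun i => Real.exp (T0 * r) * Rd.sz ρ i := by
    refine B.mono _ _ (fun a => (Rd.sz_pos _ a).le) fun a => ?_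
    rw [sz, sz, ← Real.exp_add, Real.exp_le_exp]
    have := (hτ a).2
    nlinarith
  refine (measure_mono h1).trans ((H _ (by positivity) _ (Rd.sz_pos ρ)).trans ?_)
  refine mul_le_mul_left (ENNReal.ofReal_le_ofReal (Real.exp_le_exp.2 ?_)) _
  calc C1 * (1 + T0 * r) ≤ C1 * (T0 * (1 + r)) := by
        refine mul_le_mul_of_nonneg_left ?_ hC1
        nlinarith
    _ = C1 * T0 * (1 + r) := by ring
    _ ≤ C * (1 + r) := mul_le_mul_of_nonneg_right hC (by linarith)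

/-- fields `N_ls` -/
theorem Nb_ls (ρ : Option J → ℝ) (a : M.ι) {x : ℝ} (hx : |x| ≤ 1) :
    M.ex ((Rd.sz ρ a * x) • M.X a) ∈ Rd.Nb B ρ := by
  refine B.letter _ (fun a => (Rd.sz_pos ρ a).le) a _ ?_
  rw [abs_mul, abs_of_pos (Rd.sz_pos ρ a)]
  exact mul_le_of_le_one_right (Rd.sz_pos ρ a).le hx

/-- field `N_gen` -/
theorem Nb_gen (ρ : Option J → ℝ) {u : S} (hu : u ∈ Rd.Nb B ρ) : ∃ x : Fin B.m → ℝ,
    (∀ t, |x t| ≤ B.C) ∧
      u = (List.ofFn fun t => M.ex ((Rd.sz ρ (B.J t) * x t) • M.X (B.J t))).prod := by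
  obtain ⟨x, hx, hu⟩ := B.gen _ (fun a => (Rd.sz_pos ρ a).le) u hu
  refine ⟨fun t => x t / Rd.sz ρ (B.J t), fun t => ?_, ?_⟩
  · rw [abs_div, abs_of_pos (Rd.sz_pos ρ _), div_le_iff₀ (Rd.sz_pos ρ _)]
    exact hx t
  · rw [hu]
    congr 2
    funext t
    rw [mul_div_cancel₀ _ (Rd.sz_pos ρ _).ne']

/-! ### comparison with the length -/

/-- powers are bounded by exponentials -/
theorem pow_le_exp' (x : ℝ) (hx : 0 ≤ x) (m : ℕ) : (1 + x) ^ m ≤ Real.exp (m * x) := by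
  rw [Real.exp_nat_mul]
  refine pow_le_pow_left₀ (by linarith) ?_ m
  have := Real.add_one_le_exp x
  linarith

theorem log_mul_pow_le {K x : ℝ} (hK : 1 ≤ K) (hx : 0 ≤ x) (m : ℕ) :
    K * (1 + x) ^ m ≤ Real.exp (Real.log K + m * x) := by
  rw [Real.exp_add, Real.exp_log (by linarith)]
  exact mul_le_mul_of_nonneg_left (pow_le_exp' x hx m) (by linarith)

/-- the size of the exponential part of the decomposition `s = ex v * c` -/
theorem dec_size : ∃ κ : ℝ, 0 ≤ κ ∧ ∀ s : S, ∃ v ∈ M.e, ∃ c ∈ M.CB ⌈M.C0 * M.l s⌉₊,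
    s = M.ex v * c ∧ M.nm v ≤ Real.exp (κ * (M.l s + 1)) := by
  obtain ⟨C1, hC1, hCB⟩ := M.l_CB
  have hC0 := M.C0_pos
  refine ⟨M.C0 * (1 + 1 + C1 * (M.C0 + 1)), by positivity, fun s => ?_⟩
  obtain ⟨v, hv, c, hc, h⟩ := M.dec s
  refine ⟨v, hv, c, hc, h, (M.met_lo v).trans (Real.exp_le_exp.2 ?_)⟩
  have h1 : M.ex v = s * c⁻¹ := by rw [h, mul_inv_cancel_right]
  have h2 : (M.l (M.ex v) : ℝ) ≤ M.l s + M.l c := by
    rw [h1]
    have := M.len.mul s c⁻¹
    rw [M.len.inv] at this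
    exact_mod_cast this
  have h3 : (M.l c : ℝ) ≤ C1 * (M.C0 * M.l s + 1) := by
    refine (hCB _ c hc).trans (mul_le_mul_of_nonneg_left ?_ (by linarith))
    exact (Nat.ceil_lt_add_one (by positivity)).le
  have hl : (0 : ℝ) ≤ M.l s := Nat.cast_nonneg _
  rw [mul_assoc]
  refine mul_le_mul_of_nonneg_left ?_ hC0.le
  nlinarith [mul_nonneg (mul_nonneg (by linarith : (0:ℝ) ≤ C1) hC0.le) hl,
    mul_nonneg (by linarith : (0:ℝ) ≤ C1) hl]

/-- field `len_N` -/
theorem len_Nb : ∃ C0 : ℝ, 0 ≤ C0 ∧ ∀ C : ℝ, C0 ≤ C → ∀ (x : S) (r : ℝ), M.η x = 1 →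
    (M.l x : ℝ) ≤ r → x ∈ Rd.Nb B (fun _ => C * (r + 1)) := by
  obtain ⟨t0, T0, ht0, -, hτ⟩ := Rd.exists_τ
  obtain ⟨κ, hκ, hdec⟩ := dec_size (M := M)
  have hC0 := M.C0_pos
  have hBC := B.one_le
  have hC01 := M.one_le_C0
  have hlog : 0 ≤ Real.log B.C := Real.log_nonneg hBC
  have hlog0 : 0 ≤ Real.log M.C0 := Real.log_nonneg M.one_le_C0
  set K : ℝ := 2 * Real.log B.C + 1 + κ + Real.log M.C0 + M.deg * (M.C0 + 1) with hK
  have hK0 : 0 ≤ K := by positivity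
  refine ⟨K / t0, by positivity, fun C hC x r hx hr => ?_⟩
  have hr0 : 0 ≤ r := le_trans (Nat.cast_nonneg _) hr
  obtain ⟨v, hv, c, hc, h, hvn⟩ := hdec x
  have hηc : M.η c = 1 := by
    rw [h, map_mul, M.η_ex, one_mul] at hx; exact hx
  obtain ⟨y, hy, hyc, hyn⟩ := M.C_ker _ c hc hηc
  have hCt : K ≤ C * t0 := by rwa [div_le_iff₀ ht0] at hC
  have hC0' : 0 ≤ C := le_trans (by positivity) hC
  -- the target size
  set L : ℝ := Real.exp (κ * (r + 1) + 1 + Real.log B.C + Real.log M.C0 +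
    M.deg * ((M.C0 + 1) * (r + 1))) with hL
  have hm : (⌈M.C0 * M.l x⌉₊ : ℝ) ≤ (M.C0 + 1) * (r + 1) := by
    refine ((Nat.ceil_lt_add_one (by positivity)).le).trans ?_
    nlinarith
  have hv1 : B.C * (1 + M.nm v) ≤ L := by
    have h1 : M.nm v ≤ Real.exp (κ * (r + 1)) :=
      hvn.trans (Real.exp_le_exp.2 (mul_le_mul_of_nonneg_left (by linarith) hκ))
    have h2 : 1 + M.nm v ≤ Real.exp (κ * (r + 1) + 1) := by
      rw [Real.exp_add]
      have h3 : (2 : ℝ) ≤ Real.exp 1 := by have := Real.add_one_le_exp (1 : ℝ); linarith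
      have h4 : 1 ≤ Real.exp (κ * (r + 1)) := Real.one_le_exp (by positivity)
      nlinarith
    calc B.C * (1 + M.nm v) ≤ Real.exp (Real.log B.C) * Real.exp (κ * (r + 1) + 1) := by
          rw [Real.exp_log (by linarith)]
          exact mul_le_mul_of_nonneg_left h2 (by linarith)
      _ ≤ L := by
          rw [← Real.exp_add, hL, Real.exp_le_exp]
          have : (0 : ℝ) ≤ M.deg * ((M.C0 + 1) * (r + 1)) := by positivity
          linarith
  have hy1 : B.C * (1 + M.nm y) ≤ L := by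
    have h1 : M.nm y ≤ Real.exp (Real.log M.C0 + M.deg * ((M.C0 + 1) * (r + 1))) := by
      refine hyn.trans ((mul_le_mul_of_nonneg_left (pow_le_pow_left₀ (by positivity)
        (by linarith) _) hC0.le).trans (log_mul_pow_le M.one_le_C0 (by positivity) _))
    have h2 : 1 + M.nm y ≤
        Real.exp (Real.log M.C0 + M.deg * ((M.C0 + 1) * (r + 1)) + 1) := by
      rw [Real.exp_add]
      have h3 : (2 : ℝ) ≤ Real.exp 1 := by have := Real.add_one_le_exp (1 : ℝ); linarith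
      have h4 : 1 ≤ Real.exp (Real.log M.C0 + M.deg * ((M.C0 + 1) * (r + 1))) :=
        Real.one_le_exp (by positivity)
      nlinarith
    calc B.C * (1 + M.nm y) ≤ Real.exp (Real.log B.C) *
          Real.exp (Real.log M.C0 + M.deg * ((M.C0 + 1) * (r + 1)) + 1) := by
          rw [Real.exp_log (by linarith)]
          exact mul_le_mul_of_nonneg_left h2 (by linarith)
      _ ≤ L := by
          rw [← Real.exp_add, hL, Real.exp_le_exp]
          have : (0 : ℝ) ≤ κ * (r + 1) := by positivity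
          linarith
  have hL0 : 0 < L := Real.exp_pos _
  have hL1 : 1 ≤ L := Real.one_le_exp (by positivity)
  have hbv : M.ex v ∈ B.Bx fun _ => L := by
    refine B.mono _ _ (fun i => ?_) (fun i => ?_) (B.ball_e v hv)
    · unfold RModel.two
      split_ifs
      · exact zero_le_one
      · have := M.nm_nonneg v; positivity
    · unfold RModel.two
      split_ifs
      · exact hL1
      · exact hv1
  have hby : M.ex y ∈ B.Bx fun _ => L := by
    refine B.mono _ _ (fun i => ?_) (fun i => ?_) (B.ball_0 y hy)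
    · unfold RModel.two
      split_ifs
      · have := M.nm_nonneg y; positivity
      · exact zero_le_one
    · unfold RModel.two
      split_ifs
      · exact hy1
      · exact hL1
  have hprod := B.mul _ (fun _ => hL0.le) _ hbv _ hby
  rw [hyc, ← h] at hprod
  refine B.mono _ _ (fun _ => by positivity) (fun a => ?_) hprod
  rw [sz, hL]
  calc B.C * Real.exp (κ * (r + 1) + 1 + Real.log B.C + Real.log M.C0 +
        M.deg * ((M.C0 + 1) * (r + 1)))
      = Real.exp (Real.log B.C + (κ * (r + 1) + 1 + Real.log B.C + Real.log M.C0 +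
        M.deg * ((M.C0 + 1) * (r + 1)))) := by
        rw [Real.exp_add (Real.log B.C), Real.exp_log (by linarith)]
    _ ≤ _ := by
        rw [Real.exp_le_exp]
        have h1 : Real.log B.C + (κ * (r + 1) + 1 + Real.log B.C + Real.log M.C0 +
            M.deg * ((M.C0 + 1) * (r + 1))) ≤ K * (r + 1) := by
          rw [hK]
          nlinarith
        have h2 : C * t0 ≤ Rd.τ a * C := by
          have := (hτ a).1
          nlinarith
        calc _ ≤ K * (r + 1) := h1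
          _ ≤ (C * t0) * (r + 1) := mul_le_mul_of_nonneg_right hCt (by linarith)
          _ ≤ (Rd.τ a * C) * (r + 1) := mul_le_mul_of_nonneg_right h2 (by linarith)
          _ = _ := by ring

end RayD

end Vale.Agent.P188.H615
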