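import Vale.Agent.P188.H615.HExtA

/-!
Comparison of the packing numbers of two windows: field `H_ext` of the geometric interface of
route B.
-/

open Finset Filter Topology MeasureTheory
open scoped Pointwise

namespace Vale.Agent.P188.H615

open Vale.Agent.P188.H796 Vale.Agent.P188.H131 Vale.Agent.P188.Z1 Vale.Agent.P188.H8
open Vale.P188.H532 (exto)
open Vale.P188.H532 renaming sh → shH

section num

/-- powers against exponentials -/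
theorem pow_exp_bdd (N : ℕ) {ε : ℝ} (hε : 0 < ε) : ∃ C : ℝ, 0 ≤ C ∧ ∀ x : ℝ, 0 ≤ x →
    (1 + x) ^ N * Real.exp (-(ε * x)) ≤ C := by
  refine ⟨(N.factorial : ℝ) * Real.exp ε / ε ^ N, by positivity, fun x hx => ?_⟩
  have h1 := Real.pow_div_factorial_le_exp (x := ε * (1 + x)) (by positivity) N
  rw [div_le_iff₀ (by positivity)] at h1
  rw [le_div_iff₀ (by positivity)]
  have h2 : (1 + x) ^ N * Real.exp (-(ε * x)) * ε ^ N =
      (ε * (1 + x)) ^ N * Real.exp (-(ε * x)) := by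
    rw [mul_pow]; ring
  rw [h2]
  calc (ε * (1 + x)) ^ N * Real.exp (-(ε * x))
      ≤ Real.exp (ε * (1 + x)) * N.factorial * Real.exp (-(ε * x)) :=
        mul_le_mul_of_nonneg_right h1 (Real.exp_pos _).le
    _ = (N.factorial : ℝ) * (Real.exp (ε * (1 + x)) * Real.exp (-(ε * x))) := by ring
    _ = (N.factorial : ℝ) * Real.exp ε := by
        rw [← Real.exp_add]; congr 2; ring

/-- the total coefficient is bounded -/
theorem ext_num (m dg : ℕ) {K K2 Cs ε0 t0 T0 c C1 β A : ℝ} (hK : 1 ≤ K) (hK2 : 1 ≤ K2)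
    (hCs : 1 ≤ Cs) (hε0 : 0 < ε0) (ht0 : 0 < t0) (hT0 : 0 ≤ T0) (hc : 0 < c) (hA : 1 ≤ A) : ∃ Q : ℝ, 1 ≤ Q ∧ ∀ (δ x r l mm : ℝ), 0 ≤ x → 0 ≤ mm →
      1 + mm ≤ A * (1 + x) → r ≤ δ * x → l ≤ δ * x → δ * (m + m * T0) ≤ t0 * c / 2 →
      2 * (Cs * (K * (1 + mm) ^ dg * Real.exp (r + C1))) ^ m * K2 / ε0 *
        (Real.exp (-(t0 * (c * x))) * Real.exp (T0 * (l + C1 + β)) ^ m) *
        (K * (1 + mm) ^ dg) ^ m ≤ Q := by
  obtain ⟨C, hC, H⟩ := pow_exp_bdd (dg * m + dg * m) (show 0 < t0 * c / 2 by positivity)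
  set F : ℝ := 2 * K2 / ε0 * (Cs ^ m * K ^ m * Real.exp (m * C1) * Real.exp (m * (T0 * (C1 + β))) *
    K ^ m * A ^ (dg * m + dg * m)) with hF
  have hF0 : 0 ≤ F := by positivity
  refine ⟨1 + F * C, by linarith [mul_nonneg hF0 hC], fun δ x r l mm hx hmm hA1 hr hl hδ => ?_⟩
  have h1 : (1 + mm) ^ (dg * m + dg * m) ≤ (A * (1 + x)) ^ (dg * m + dg * m) :=
    pow_le_pow_left₀ (by linarith) hA1 _
  have h2 : Real.exp (m * r) * (Real.exp (-(t0 * (c * x))) * Real.exp (m * (T0 * l))) ≤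
      Real.exp (-(t0 * c / 2 * x)) := by
    rw [← Real.exp_add, ← Real.exp_add, Real.exp_le_exp]
    have e1 : (m : ℝ) * r ≤ m * (δ * x) := mul_le_mul_of_nonneg_left hr (Nat.cast_nonneg _)
    have e2 : (m : ℝ) * (T0 * l) ≤ m * (T0 * (δ * x)) :=
      mul_le_mul_of_nonneg_left (mul_le_mul_of_nonneg_left hl hT0) (Nat.cast_nonneg _)
    have e3 := mul_le_mul_of_nonneg_right hδ hx
    have e4 : δ * (m + m * T0) * x = m * (δ * x) + m * (T0 * (δ * x)) := by ring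
    linarith
  have h3 : 2 * (Cs * (K * (1 + mm) ^ dg * Real.exp (r + C1))) ^ m * K2 / ε0 *
        (Real.exp (-(t0 * (c * x))) * Real.exp (T0 * (l + C1 + β)) ^ m) *
        (K * (1 + mm) ^ dg) ^ m =
      2 * K2 / ε0 * (Cs ^ m * K ^ m * Real.exp (m * C1) * Real.exp (m * (T0 * (C1 + β))) *
        K ^ m) * (1 + mm) ^ (dg * m + dg * m) *
      (Real.exp (m * r) * (Real.exp (-(t0 * (c * x))) * Real.exp (m * (T0 * l)))) := by
    have e1 : Real.exp (T0 * (l + C1 + β)) ^ m =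
        Real.exp (m * (T0 * (C1 + β))) * Real.exp (m * (T0 * l)) := by
      rw [← Real.exp_nat_mul, ← Real.exp_add]; congr 1; ring
    have e2 : Real.exp (r + C1) ^ m = Real.exp (m * C1) * Real.exp (m * r) := by
      rw [← Real.exp_nat_mul, ← Real.exp_add]; congr 1; ring
    rw [e1, mul_pow, mul_pow, mul_pow, e2, ← pow_mul, pow_add]
    ring
  rw [h3]
  calc _ ≤ 2 * K2 / ε0 * (Cs ^ m * K ^ m * Real.exp (m * C1) * Real.exp (m * (T0 * (C1 + β))) *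
        K ^ m) * (A * (1 + x)) ^ (dg * m + dg * m) * Real.exp (-(t0 * c / 2 * x)) := by
        refine mul_le_mul (mul_le_mul_of_nonneg_left h1 (by positivity)) h2 (by positivity)
          (by positivity)
    _ = F * ((1 + x) ^ (dg * m + dg * m) * Real.exp (-(t0 * c / 2 * x))) := by
        rw [hF, mul_pow]; ring
    _ ≤ F * C := mul_le_mul_of_nonneg_left (H x hx) hF0
    _ ≤ _ := by linarith

end num

section hext

variable {Γ : Type} [Group Γ] {k : ℕ} {η : Γ →* Multiplicative (Fin k → ℤ)} {d n : ℕ}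
  {D : MB η.ker d n} {M : RModel D.S Γ D.R.V k} {J : Type} [DecidableEq J] (Rd : RayD M J)

/-- products in pure boxes -/
theorem US_div : ∃ Cs : ℝ, 1 ≤ Cs ∧ ∀ (p : M.ι → Prop) (σ : M.ι → ℝ), ∀ x ∈ H8.US M p σ,
    ∀ y ∈ H8.US M p σ, x * y⁻¹ ∈ H8.US M p (fun a => Cs * σ a) := by
  obtain ⟨C, hC, H⟩ := mulC (D := D) M.X
  refine ⟨C, hC, fun p σ x hx y hy => ?_⟩
  have hi := inv_mem_US hy
  obtain ⟨v, hv, hvx⟩ := hx
  obtain ⟨w, hw, hwx⟩ := hi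
  obtain ⟨u, hu, hue⟩ := H C le_rfl (on p σ) (D.ex v) ⟨v, by rw [Gb_eq_LB]; exact hv, rfl⟩
    (D.ex w) ⟨w, by rw [Gb_eq_LB]; exact hw, rfl⟩
  refine ⟨u, ?_, ?_⟩
  · rw [Gb_eq_LB] at hu
    rwa [on_mul] at hu
  · rw [hue, hvx, hwx]
    rfl

/-- mixed elements of a different box -/
theorem mix_bound (h : NatHyp M) {K t0 T0 ε0 Nn : ℝ} (hK : 1 ≤ K) (ht0 : 0 ≤ t0)
    (hτ : ∀ a, t0 ≤ Rd.τ a ∧ Rd.τ a ≤ T0) (hε0 : 0 < ε0) (hN : 0 < Nn)
    {m : ℕ} {c : D.S} (hc : c ∈ M.CB m)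
    (HK : ∀ m, ∀ c ∈ M.CB m, ∀ r : M.ι → ℝ, (∀ i, 0 ≤ r i) →
      (∀ i j, M.wt j = M.wt i → r i ≤ r j) → ∀ v ∈ LB M.X r,
        D.AdE c v ∈ LB M.X (fun i => K * (1 + m) ^ M.deg * Real.exp (M.wt i (M.θ c)) * r i))
    {i : J} (hb : ∀ w ∈ MI M (po Rd (some i)), D.nm w ≤ ε0 → w ∈ Mx1 M (po Rd (some i)))
    {ρ : Option J → ℝ} {y z : ℝ} (hy : 0 ≤ y) (hz : 0 ≤ z) (h0 : 0 ≤ ρ none)
    (h1 : -y ≤ ρ (some i) + Rd.b i (M.θ c))
    (h2 : ∀ j, j ≠ i → z ≤ ρ (some j) + Rd.b j (M.θ c)) {w : D.R.V}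
    (hw : w ∈ MI M (po Rd (some i))) (hwn : D.nm (D.AdE c w) ≤ Nn) :
    w ∈ (Nn / ε0 * (Real.exp (-(t0 * z)) * Real.exp (T0 * y) ^ D.R.m) *
      (K * (1 + (m : ℝ)) ^ M.deg) ^ D.R.m) • nb (LB M.X (Rd.sz ρ)) := by
  have e1 := AdE_MI hK (HK m c hc) (po_wt Rd (some i)) hw
  have e2 : (ε0 / Nn) • D.AdE c w ∈ Mx1 M (po Rd (some i)) := by
    refine hb _ ((MI M _).smul_mem _ e1) ?_
    rw [map_smul_eq_mul, Real.norm_eq_abs, abs_of_pos (by positivity)]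
    calc ε0 / Nn * D.nm (D.AdE c w) ≤ ε0 / Nn * Nn :=
          mul_le_mul_of_nonneg_left hwn (by positivity)
      _ = ε0 := div_mul_cancel₀ _ hN.ne'
  obtain ⟨u, hu, hu2⟩ := Mx1_sub Rd hτ ht0 hy hz h0 h1 h2 e2
  simp only at hu2
  have e3 := back_nb Rd hK (HK m c⁻¹ (M.CB_inv hc)) hu
  obtain ⟨q, hq, hq2⟩ := e3
  simp only at hq2
  have e4 : D.AdE c⁻¹ (D.AdE c w) = w := by
    rw [← h.hAd, ← h.hAd, ← Module.End.mul_apply, ← map_mul, inv_mul_cancel, map_one]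
    rfl
  have e5 : D.AdE c w = (Nn / ε0) • ((Real.exp (-(t0 * z)) * Real.exp (T0 * y) ^ D.R.m) • u) := by
    rw [hu2, smul_smul, div_mul_div_cancel₀ hε0.ne', div_self hN.ne', one_smul]
  refine ⟨q, hq, ?_⟩
  simp only
  rw [← e4, e5, map_smul, map_smul, ← hq2, smul_smul, smul_smul]

omit [DecidableEq J] in
/-- sums in boxes -/
theorem add_nb {t0 : ℝ} (ht0 : 0 < t0) (hτ : ∀ a, t0 ≤ Rd.τ a) {Q C1 : ℝ} (hQ : 1 ≤ Q)
    (hC1 : 0 ≤ C1) {ρ : Option J → ℝ} {p w : D.R.V} (hp : p ∈ nb (LB M.X (Rd.sz (shH ρ C1))))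
    (hw : w ∈ Q • nb (LB M.X (Rd.sz ρ))) :
    p + w ∈ nb (LB M.X (Rd.sz (shH ρ (C1 + Real.log (1 + Q) / t0)))) := by
  have hcs := csy_nb (csy_LB M.X (Rd.sz (shH ρ C1)))
  have hl : 0 ≤ Real.log (1 + Q) := Real.log_nonneg (by linarith)
  have h1 : w ∈ Q • nb (LB M.X (Rd.sz (shH ρ C1))) := by
    refine Set.smul_set_mono (nb_mono (LB_mono _ (fun a => (Rd.sz_pos ρ a).le) fun a => ?_)) hw
    exact Rd.sz_mono (fun j => by change ρ j ≤ ρ j + C1; linarith) a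
  have h2 : p ∈ (1 : ℝ) • nb (LB M.X (Rd.sz (shH ρ C1))) := by rw [one_smul]; exact hp
  have h3 := smul_nb_sub (csy_LB _ _) (by linarith) (hcs.mem_add zero_le_one (by linarith) h2 h1)
  refine nb_mono ?_ h3
  rw [smul_LB]
  refine LB_mono _ (fun a => mul_nonneg (by linarith) (Rd.sz_pos _ a).le) fun a => ?_
  have h4 := Rd.mul_sz_le ht0 hτ (K := 1 + Q) (κ := Real.log (1 + Q))
    (by rw [Real.exp_log (by linarith)]) le_rfl (by positivity) (shH ρ C1) a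
  refine h4.trans (le_of_eq ?_)
  congr 1
  funext j
  simp only [shH]
  ring

/-- splitting of an element of a box -/
theorem ext_split {i : J} {ρ ρ' : Option J → ℝ} {C1 : ℝ} (h0 : ρ' none = ρ none)
    (hi : ρ' (some i) = ρ (some i)) {v : D.R.V} (hv : v ∈ nb (LB M.X (Rd.sz (shH ρ' C1)))) :
    ∃ p ∈ nb (LB M.X (on (po Rd (some i))
      fun a => 1 * so Rd (some i) (ρ (some i) + C1) (ρ none + C1) a)),
      p ∈ nb (LB M.X (Rd.sz (shH ρ C1))) ∧ ∃ w ∈ MI M (po Rd (some i)), v = p + w := by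
  have hσ : ∀ a, 0 ≤ Rd.sz (shH ρ' C1) a := fun a => (Rd.sz_pos _ a).le
  obtain ⟨p, hp, w, hw, hvw⟩ := nb_sub_add (csy_LB M.X (Rd.sz (shH ρ' C1)))
    (csy_LB M.X (off (po Rd (some i)) (Rd.sz (shH ρ' C1))))
    (LB_mono M.X (on_nonneg hσ) (on_le hσ)) (LB_split M.X (po Rd (some i)) _) hv
  have e1 : ∀ a, po Rd (some i) a → Rd.sz (shH ρ' C1) a =
      1 * so Rd (some i) (ρ (some i) + C1) (ρ none + C1) a := by
    intro a ha
    rw [one_mul]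
    unfold so RayD.sz
    rcases ha with ha | ha <;> rw [ha] <;> simp [exto, shH, h0, hi]
  have e2 : ∀ a, po Rd (some i) a → Rd.sz (shH ρ' C1) a = Rd.sz (shH ρ C1) a := by
    intro a ha
    unfold RayD.sz
    rcases ha with ha | ha <;> rw [ha] <;> simp [shH, h0, hi]
  refine ⟨p, ?_, ?_, w, ?_, hvw⟩
  · rwa [← on_congr e1]
  · rw [on_congr e2] at hp
    exact nb_mono (LB_mono _ (on_nonneg fun a => (Rd.sz_pos _ a).le)
      (on_le fun a => (Rd.sz_pos _ a).le)) hp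
  · obtain ⟨u, hu, rfl⟩ := hw
    exact (MI M _).smul_mem _ (mnb_MI hσ hu)

/-- the norm of the conjugate of the mixed part -/
theorem ext_nm {K K2 Cs : ℝ} (hK : 1 ≤ K) (hCs : 1 ≤ Cs) (hK2 : 0 ≤ K2)
    (H2 : ∀ v ∈ nb (LB M.X fun _ => (1 : ℝ)), D.nm v ≤ K2)
    {m : ℕ} {c : D.S}
    (HK : ∀ r : M.ι → ℝ, (∀ i, 0 ≤ r i) → (∀ i j, M.wt j = M.wt i → r i ≤ r j) →
      ∀ v ∈ LB M.X r,
        D.AdE c v ∈ LB M.X (fun i => K * (1 + m) ^ M.deg * Real.exp (M.wt i (M.θ c)) * r i))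
    {i : J} {μ μ' r C1 : ℝ} (hr : 0 ≤ r) (hC1 : 0 ≤ C1) (hμ : μ + Rd.b i (M.θ c) ≤ 0)
    (hμ' : μ' + Rd.b i (M.θ c) ≤ 0) {v p w : D.R.V} (hvw : v = p + w)
    (hv : v ∈ nb (LB M.X (on (po Rd (some i)) fun a => Cs * so Rd (some i) μ r a)))
    (hp : p ∈ nb (LB M.X (on (po Rd (some i)) fun a => 1 * so Rd (some i) μ' (r + C1) a))) :
    D.nm (D.AdE c w) ≤ 2 * (Cs * (K * (1 + (m : ℝ)) ^ M.deg * Real.exp (r + C1))) ^ D.R.m * K2 := by
  have h1 := pure_nm Rd hK H2 HK hr hCs hμ hv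
  have h2 := pure_nm Rd hK H2 HK (by linarith : 0 ≤ r + C1) le_rfl hμ' hp
  have hm1 : (0 : ℝ) ≤ m := Nat.cast_nonneg m
  have h3 : D.AdE c w = D.AdE c v - D.AdE c p := by
    rw [hvw, map_add, add_sub_cancel_left]
  rw [h3]
  have h4 : D.nm (D.AdE c v - D.AdE c p) ≤ D.nm (D.AdE c v) + D.nm (D.AdE c p) :=
    map_sub_le_add _ _ _
  have h5 : Real.exp r ≤ Real.exp (r + C1) := Real.exp_le_exp.2 (by linarith)
  have h6 : (Cs * (K * (1 + (m : ℝ)) ^ M.deg * Real.exp r)) ^ D.R.m ≤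
      (Cs * (K * (1 + (m : ℝ)) ^ M.deg * Real.exp (r + C1))) ^ D.R.m :=
    pow_le_pow_left₀ (by positivity) (mul_le_mul_of_nonneg_left
      (mul_le_mul_of_nonneg_left h5 (by positivity)) (by linarith)) _
  have h7 : (1 * (K * (1 + (m : ℝ)) ^ M.deg * Real.exp (r + C1))) ^ D.R.m ≤
      (Cs * (K * (1 + (m : ℝ)) ^ M.deg * Real.exp (r + C1))) ^ D.R.m :=
    pow_le_pow_left₀ (by positivity) (mul_le_mul_of_nonneg_right hCs (by positivity)) _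
  have h8 := mul_le_mul_of_nonneg_right h6 hK2
  have h9 := mul_le_mul_of_nonneg_right h7 hK2
  linarith

end hext

end Vale.Agent.P188.H615
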