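import Vale.Agent.P188.H8.GeoQ
import Vale.Agent.P188.H615.GeoU
import Vale.Agent.P188.H131.GeoDir

/-!
Pure elements lying in a different natural box: preparations for the field `H_ext` of the geometric
interface of route B.
-/

open Finset Filter Topology MeasureTheory
open scoped Pointwise

namespace Vale.Agent.P188.H615

open Vale.Agent.P188.H796 Vale.Agent.P188.H131 Vale.Agent.P188.Z1 Vale.Agent.P188.H8
open Vale.P188.H532 (exto sh)

section ball

variable {N : Type} [Group N] {d n : ℕ} {D : MB N d n} {A : Type} [NormedRing A]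
  [NormedAlgebra ℝ A] [FiniteDimensional ℝ A] {R : RD D A}

/-- a convex symmetric set contains a ball of its span -/
theorem csy_span_ball {S : Set R.V} (hS : CSy S) : ∃ ε : ℝ, 0 < ε ∧
    ∀ w ∈ Submodule.span ℝ S, ‖(w : A)‖ ≤ ε → w ∈ S := by
  classical
  obtain ⟨b, hbS, hspan, hli⟩ := exists_linearIndependent ℝ S
  have : Fintype b := hli.setFinite.fintype
  obtain ⟨C, hC, H⟩ := span_coord (fun i : b => (i : R.V)) (fun _ => True)
    (Submodule.span ℝ S) (by
      rw [← hspan]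
      refine Submodule.span_mono ?_
      intro x hx
      exact ⟨⟨x, hx⟩, trivial, rfl⟩)
  refine ⟨(C * Fintype.card b + 1)⁻¹, by positivity, fun w hw hwn => ?_⟩
  obtain ⟨a, ha1, -, ha3⟩ := H w hw
  have h1 := hS.mem_sum univ (fun i => |a i|) (fun i => a i • (i : R.V))
    (fun _ _ => abs_nonneg _) (fun i _ => by
      rcases le_total 0 (a i) with h | h
      · exact ⟨i, hbS i.2, by rw [abs_of_nonneg h]⟩
      · refine ⟨-(i : R.V), hS.neg _ (hbS i.2), ?_⟩
        simp only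
        rw [abs_of_nonpos h, neg_smul_neg])
  rw [← ha1] at h1
  have h2 : ∑ i, |a i| ≤ 1 := by
    calc ∑ i, |a i| ≤ ∑ _i : b, C * (C * Fintype.card b + 1)⁻¹ :=
          sum_le_sum fun i _ => (ha3 i).trans (mul_le_mul_of_nonneg_left hwn hC)
      _ = (C * Fintype.card b) / (C * Fintype.card b + 1) := by
          rw [sum_const, nsmul_eq_mul, card_univ]; ring
      _ ≤ 1 := by
          rw [div_le_one (by positivity)]; linarith
  have h3 := hS.mem_mono (sum_nonneg fun i _ => abs_nonneg _) h2 h1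
  rwa [one_smul] at h3

theorem mnb_smul_sub1 {G Go : Set R.V} (h : CSy G) (ho : CSy Go) {c : ℝ} (hc : 1 ≤ c) :
    mnb (c • G) (c • Go) ⊆ (c ^ R.m) • mnb G Go := by
  rintro _ ⟨x, hx, rfl⟩
  have h1 : ∀ i : Fin R.m, x i ∈ (c ^ R.m) • mx G Go i := fun i =>
    (csy_mx h ho i).mem_mono (by positivity) (pow_le_pow_right₀ hc i.2)
      (mx_smul_sub h ho c i (hx i))
  choose y hy hxy using h1
  refine ⟨∑ i, y i, ⟨y, hy, rfl⟩, ?_⟩
  simp only
  rw [smul_sum]
  exact sum_congr rfl fun i _ => hxy i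

end ball

section hext

variable {Γ : Type} [Group Γ] {k : ℕ} {η : Γ →* Multiplicative (Fin k → ℤ)} {d n : ℕ}
  {D : MB η.ker d n} (M : RModel D.S Γ D.R.V k)

/-- unit mixed brackets: at least one letter not in `p` -/
def Mx1 (p : M.ι → Prop) : Set D.R.V :=
  mnb (LB M.X fun _ => (1 : ℝ)) (LB M.X (off p fun _ => (1 : ℝ)))

/-- the span of the mixed brackets -/
noncomputable def MI (p : M.ι → Prop) : Submodule ℝ D.R.V := Submodule.span ℝ (Mx1 M p)

variable {M}

theorem csy_Mx1 (p : M.ι → Prop) : CSy (Mx1 M p) := csy_mnb (csy_LB _ _) (csy_LB _ _)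

/-- boxes of bounded sizes -/
theorem mnb_MI {p : M.ι → Prop} {σ : M.ι → ℝ} (hσ : ∀ a, 0 ≤ σ a) :
    mnb (LB M.X σ) (LB M.X (off p σ)) ⊆ MI M p := by
  set t : ℝ := 1 + ∑ a, σ a with ht
  have ht1 : 1 ≤ t := by
    have : 0 ≤ ∑ a, σ a := sum_nonneg fun a _ => hσ a
    linarith
  have hle : ∀ a, σ a ≤ t := fun a => by
    have := single_le_sum (f := σ) (fun a _ => hσ a) (mem_univ a)
    linarith
  have h1 : LB M.X σ ⊆ t • LB M.X (fun _ => (1 : ℝ)) := by
    rw [smul_LB]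
    exact LB_mono _ hσ fun a => by rw [mul_one]; exact hle a
  have h2 : LB M.X (off p σ) ⊆ t • LB M.X (off p fun _ => (1 : ℝ)) := by
    rw [smul_LB]
    refine LB_mono _ (off_nonneg hσ) fun a => ?_
    unfold off
    split_ifs
    · rw [mul_zero]
    · rw [mul_one]; exact hle a
  intro w hw
  obtain ⟨u, hu, rfl⟩ := mnb_smul_sub1 (csy_LB _ _) (csy_LB _ _) ht1 (mnb_mono h1 h2 hw)
  exact (MI M p).smul_mem _ (Submodule.subset_span hu)

/-- Cartan words preserve the span of the mixed brackets -/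
theorem AdE_MI {K : ℝ} (hK : 1 ≤ K) {m : ℕ} {c : D.S}
    (HK : ∀ r : M.ι → ℝ, (∀ i, 0 ≤ r i) → (∀ i j, M.wt j = M.wt i → r i ≤ r j) →
      ∀ v ∈ LB M.X r,
        D.AdE c v ∈ LB M.X (fun i => K * (1 + m) ^ M.deg * Real.exp (M.wt i (M.θ c)) * r i))
    {p : M.ι → Prop} (hp : ∀ i j, M.wt j = M.wt i → p j → p i) {w : D.R.V} (hw : w ∈ MI M p) :
    D.AdE c w ∈ MI M p := by
  have hm1 : (0 : ℝ) ≤ m := Nat.cast_nonneg m
  have h1 : Mx1 M p ⊆ (MI M p).comap (D.AdE c) := by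
    intro w hw
    have h2 := mnb_map (D.AdE c) (D.Ad_lie c) (HK (fun _ => (1 : ℝ)) (fun _ => zero_le_one)
      (fun _ _ _ => le_rfl)) (HK (off p fun _ => (1 : ℝ)) (off_nonneg fun _ => zero_le_one)
      (fun i j hij => by
        unfold off
        by_cases hi : p i
        · rw [if_pos hi]
          split_ifs
          · exact le_rfl
          · exact zero_le_one
        · rw [if_neg hi, if_neg fun hj => hi (hp i j hij hj)])) w hw
    have h3 := mnb_MI (M := M) (p := p)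
      (σ := fun i => K * (1 + m) ^ M.deg * Real.exp (M.wt i (M.θ c))) (fun i => by positivity)
    refine h3 (mnb_mono ?_ ?_ h2)
    · refine LB_mono _ (fun i => by positivity) fun i => ?_
      rw [mul_one]
    · refine LB_mono _ (fun i => ?_) fun i => ?_
      · have := off_nonneg (p := p) (fun _ : M.ι => (zero_le_one : (0 : ℝ) ≤ 1)) i
        positivity
      · unfold off
        split_ifs
        · rw [mul_zero]
        · rw [mul_one]
  exact (Submodule.span_le.2 h1) hw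

variable {J : Type} [DecidableEq J] (Rd : RayD M J)

omit [DecidableEq J] in
theorem po_wt (o : Option J) (i j : M.ι) (hij : M.wt j = M.wt i) (h : po Rd o j) : po Rd o i := by
  unfold po at h ⊢
  rwa [(Rd.eq_of_wt hij).1] at h

/-- norm of conjugates of pure elements -/
theorem pure_nm {K K2 : ℝ} (hK : 1 ≤ K) (H2 : ∀ v ∈ nb (LB M.X fun _ => (1 : ℝ)), D.nm v ≤ K2)
    {m : ℕ} {c : D.S}
    (HK : ∀ r : M.ι → ℝ, (∀ i, 0 ≤ r i) → (∀ i j, M.wt j = M.wt i → r i ≤ r j) →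
      ∀ v ∈ LB M.X r,
        D.AdE c v ∈ LB M.X (fun i => K * (1 + m) ^ M.deg * Real.exp (M.wt i (M.θ c)) * r i))
    {i : J} {μ r Cs : ℝ} (hr : 0 ≤ r) (hCs : 1 ≤ Cs) (hμ : μ + Rd.b i (M.θ c) ≤ 0) {v : D.R.V}
    (hv : v ∈ nb (LB M.X (on (po Rd (some i)) fun a => Cs * so Rd (some i) μ r a))) :
    D.nm (D.AdE c v) ≤ (Cs * (K * (1 + m) ^ M.deg * Real.exp r)) ^ D.R.m * K2 := by
  have hm1 : (0 : ℝ) ≤ m := Nat.cast_nonneg m
  have hP1 : 1 ≤ K * (1 + (m : ℝ)) ^ M.deg :=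
    one_le_mul_of_one_le_of_one_le hK (one_le_pow₀ (by linarith))
  have hL : 1 ≤ Cs * (K * (1 + (m : ℝ)) ^ M.deg * Real.exp r) :=
    one_le_mul_of_one_le_of_one_le hCs
      (one_le_mul_of_one_le_of_one_le hP1 (Real.one_le_exp hr))
  have h1 : ∀ v ∈ LB M.X (on (po Rd (some i)) fun a => Cs * so Rd (some i) μ r a),
      D.AdE c v ∈ (Cs * (K * (1 + (m : ℝ)) ^ M.deg * Real.exp r)) •
        LB M.X (fun _ => (1 : ℝ)) := by
    intro v hv
    rw [← on_mul, ← smul_LB] at hv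
    obtain ⟨u, hu, rfl⟩ := hv
    simp only
    rw [map_smul, mul_smul]
    exact Set.smul_mem_smul_set (mrg_all Rd hK HK hr hμ u hu)
  obtain ⟨u, hu, hu2⟩ := nb_smul_sub (csy_LB _ _) hL (nb_map (D.AdE c) (D.Ad_lie c) h1 hv)
  simp only at hu2
  rw [← hu2, map_smul_eq_mul, Real.norm_eq_abs, abs_of_nonneg (by positivity)]
  exact mul_le_mul_of_nonneg_left (H2 u hu) (by positivity)

/-- unit mixed brackets in the conjugated box -/
theorem Mx1_sub {t0 T0 : ℝ} (hτ : ∀ a, t0 ≤ Rd.τ a ∧ Rd.τ a ≤ T0) (ht0 : 0 ≤ t0) {c : D.S}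
    {i : J} {ρ : Option J → ℝ} {y z : ℝ} (hy : 0 ≤ y) (hz : 0 ≤ z) (h0 : 0 ≤ ρ none)
    (h1 : -y ≤ ρ (some i) + Rd.b i (M.θ c))
    (h2 : ∀ j, j ≠ i → z ≤ ρ (some j) + Rd.b j (M.θ c)) :
    Mx1 M (po Rd (some i)) ⊆ (Real.exp (-(t0 * z)) * Real.exp (T0 * y) ^ D.R.m) •
      nb (LB M.X fun a => Real.exp (M.wt a (M.θ c)) * Rd.sz ρ a) := by
  have hT0 : ∀ a : M.ι, 0 ≤ T0 := fun a => (Rd.τ_pos a).le.trans (hτ a).2
  have key : ∀ a, ∀ j, Rd.ray a = some j → j ≠ i →
      t0 * z ≤ M.wt a (M.θ c) + Rd.τ a * ρ (Rd.ray a) := by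
    intro a j ha hji
    rw [Rd.wt_some a j ha, ha]
    simp only [_root_.smul_apply, smul_eq_mul]
    rw [← mul_add, add_comm]
    calc t0 * z ≤ Rd.τ a * z := mul_le_mul_of_nonneg_right (hτ a).1 hz
      _ ≤ _ := mul_le_mul_of_nonneg_left (h2 j hji) (Rd.τ_pos a).le
  rcases isEmpty_or_nonempty M.ι with hE | ⟨⟨a0⟩⟩
  · have hsub : ∀ G Go : Set D.R.V, G ⊆ {0} → Go ⊆ {0} → mnb G Go ⊆ {0} := by
      intro G Go hG hGo x hx
      have := mnb_le_ideal (⊥ : Submodule ℝ D.R.V) (by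
        intro x y hy
        rw [Submodule.mem_bot] at hy ⊢
        rw [hy, lie_zero]) (fun x hx => (Submodule.mem_bot ℝ).2 (hGo hx)) x hx
      exact (Submodule.mem_bot ℝ).1 this
    have hz0 : ∀ σ : M.ι → ℝ, LB M.X σ ⊆ {0} := by
      rintro σ _ ⟨y, _, rfl⟩
      simp
    intro x hx
    have := hsub _ _ (hz0 _) (hz0 _) hx
    rw [Set.mem_singleton_iff] at this
    rw [this]
    exact ⟨0, (csy_nb (csy_LB _ _)).zero, smul_zero _⟩
  refine mnb_sub_smul (csy_LB _ _) (Real.one_le_exp (mul_nonneg (hT0 a0) hy))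
    (Real.exp_pos _).le ?_ ?_
  · rw [smul_LB]
    refine LB_mono _ (fun _ => zero_le_one) fun a => ?_
    unfold RayD.sz
    rw [← Real.exp_add, ← Real.exp_add]
    refine Real.one_le_exp ?_
    rcases hr : Rd.ray a with _ | j
    · rw [Rd.wt_none a hr, Rd.τ_none a hr]
      simp only [_root_.zero_apply]
      have := mul_nonneg (hT0 a) hy
      linarith
    · by_cases hji : j = i
      · subst hji
        rw [Rd.wt_some a j hr]
        simp only [_root_.smul_apply, smul_eq_mul]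
        have e1 : Rd.τ a * (-y) ≤ Rd.τ a * (ρ (some j) + Rd.b j (M.θ c)) :=
          mul_le_mul_of_nonneg_left h1 (Rd.τ_pos a).le
        have e2 : Rd.τ a * y ≤ T0 * y := mul_le_mul_of_nonneg_right (hτ a).2 hy
        linarith
      · have e1 := key a j hr hji
        rw [hr] at e1
        have e2 := mul_nonneg (hT0 a) hy
        have e3 := mul_nonneg ht0 hz
        linarith
  · rw [smul_LB]
    refine LB_mono _ (off_nonneg fun _ => zero_le_one) fun a => ?_
    unfold off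
    split_ifs with ha
    · unfold RayD.sz
      positivity
    · unfold RayD.sz
      rw [← Real.exp_add, ← Real.exp_add]
      refine Real.one_le_exp ?_
      rcases hr : Rd.ray a with _ | j
      · exact absurd (Or.inr hr) ha
      · have hji : j ≠ i := by
          rintro rfl
          exact ha (Or.inl hr)
        have e1 := key a j hr hji
        rw [hr] at e1
        linarith

omit [DecidableEq J] in
/-- conjugation back -/
theorem back_nb {K : ℝ} (hK : 1 ≤ K) {m : ℕ} {c : D.S}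
    (HK : ∀ r : M.ι → ℝ, (∀ i, 0 ≤ r i) → (∀ i j, M.wt j = M.wt i → r i ≤ r j) →
      ∀ v ∈ LB M.X r,
        D.AdE c⁻¹ v ∈ LB M.X (fun i => K * (1 + m) ^ M.deg * Real.exp (M.wt i (M.θ c⁻¹)) * r i))
    {ρ : Option J → ℝ} {w : D.R.V}
    (hw : w ∈ nb (LB M.X fun a => Real.exp (M.wt a (M.θ c)) * Rd.sz ρ a)) :
    D.AdE c⁻¹ w ∈ ((K * (1 + (m : ℝ)) ^ M.deg) ^ D.R.m) • nb (LB M.X (Rd.sz ρ)) := by
  have hm1 : (0 : ℝ) ≤ m := Nat.cast_nonneg m
  have hP1 : 1 ≤ K * (1 + (m : ℝ)) ^ M.deg :=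
    one_le_mul_of_one_le_of_one_le hK (one_le_pow₀ (by linarith))
  have hθ : M.θ c⁻¹ = -M.θ c := by
    have h2 : M.θ (c⁻¹ * c) = 0 := by rw [inv_mul_cancel, M.θ_one]
    rw [M.θ_mul] at h2
    exact eq_neg_of_add_eq_zero_left h2
  refine nb_smul_sub (csy_LB _ _) hP1 (nb_map (D.AdE c⁻¹) (D.Ad_lie c⁻¹) ?_ hw)
  intro v hv
  have h1 := HK _ (fun a => by have := (Rd.sz_pos ρ a).le; positivity) (fun i j hij => by
    rw [hij, Rd.sz_eq_of_wt ρ hij]) v hv
  rw [smul_LB]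
  refine LB_mono _ (fun a => by have := (Rd.sz_pos ρ a).le; positivity) (fun a => ?_) h1
  refine le_of_eq ?_
  rw [hθ, map_neg, mul_assoc (K * _), ← mul_assoc (Real.exp _) (Real.exp _), ← Real.exp_add,
    neg_add_cancel, Real.exp_zero, one_mul]

end hext

end Vale.Agent.P188.H615
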