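import Vale.Agent.P188.H615.Box

/-!
Homogeneous boxes of a Lie subalgebra `e`.
-/

open Finset Filter Topology Pointwise

universe u v

namespace Vale.Agent.P188.H615

open Vale.Agent.P188.H796

section hb

variable {N : Type u} [Group N] {d n : ℕ} {D : MB N d n} {A : Type v} [NormedRing A]
  [NormedAlgebra ℝ A] [FiniteDimensional ℝ A] {R : RD D A} {e : Submodule ℝ R.V}

/-- `[gam i, gam j] ⊆ gam (i + j + 1)` -/
theorem lie_gam_gam (i : ℕ) : ∀ (j : ℕ) {x y : R.V}, x ∈ gam R e i → y ∈ gam R e j →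
    ⁅x, y⁆ ∈ gam R e (i + j + 1) := by
  induction i with
  | zero =>
    intro j x y hx hy
    rw [zero_add]
    exact lie_mem_gam hx hy
  | succ i ih =>
    intro j x y hx hy
    rw [gam] at hx
    induction hx using Submodule.span_induction with
    | mem x hx =>
      obtain ⟨a, ha, b, hb, rfl⟩ := hx
      rw [lie_lie]
      have e1 : i + 1 + j + 1 = (i + j + 1) + 1 := by omega
      have e2 : i + 1 + j + 1 = i + (j + 1) + 1 := by omega
      refine Submodule.sub_mem _ ?_ ?_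
      · rw [e1]; exact lie_mem_gam ha (ih j hb hy)
      · rw [e2]; exact ih (j + 1) hb (lie_mem_gam ha hy)
    | zero => rw [zero_lie]; exact Submodule.zero_mem _
    | add a b _ _ ha hb => rw [add_lie]; exact Submodule.add_mem _ ha hb
    | smul t a _ ha => rw [smul_lie]; exact Submodule.smul_mem _ t ha

theorem norm_lie_le (x y : R.V) : ‖((⁅x, y⁆ : R.V) : A)‖ ≤ 2 * (‖(x : A)‖ * ‖(y : A)‖) := by
  rw [R.coe_bracket]
  have h1 := norm_sub_le ((x : A) * y) ((y : A) * x)
  have h2 := norm_mul_le (x : A) (y : A)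
  have h3 := norm_mul_le (y : A) (x : A)
  nlinarith

variable (R e) in
/-- the homogeneous box of size `ρ` -/
noncomputable def hb (ρ : ℝ) : Set R.V :=
  {X | ∃ x : Fin R.m → R.V, (∀ i : Fin R.m, x i ∈ gam R e i ∧ ‖(x i : A)‖ ≤ 1) ∧
    X = ∑ i : Fin R.m, ρ ^ ((i : ℕ) + 1) • x i}

theorem hb_le {ρ : ℝ} (he : ∀ x ∈ e, ∀ y ∈ e, ⁅x, y⁆ ∈ e) {X : R.V} (h : X ∈ hb R e ρ) :
    X ∈ e := by
  obtain ⟨x, hx, rfl⟩ := h
  exact e.sum_mem fun i _ => e.smul_mem _ (gam_le he i (hx i).1)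

theorem norm_hb_le {ρ : ℝ} (hρ : 1 ≤ ρ) {X : R.V} (h : X ∈ hb R e ρ) :
    ‖(X : A)‖ ≤ R.m * ρ ^ R.m := by
  obtain ⟨x, hx, rfl⟩ := h
  rw [Submodule.coe_sum]
  refine (norm_sum_le _ _).trans ?_
  have h1 : ∀ i ∈ (univ : Finset (Fin R.m)), ‖((ρ ^ ((i : ℕ) + 1) • x i : R.V) : A)‖ ≤ ρ ^ R.m := by
    intro i _
    rw [Submodule.coe_smul, norm_smul, norm_pow, Real.norm_of_nonneg (by linarith)]
    calc ρ ^ ((i : ℕ) + 1) * ‖(x i : A)‖ ≤ ρ ^ ((i : ℕ) + 1) * 1 :=
          mul_le_mul_of_nonneg_left (hx i).2 (by positivity)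
      _ = ρ ^ ((i : ℕ) + 1) := mul_one _
      _ ≤ ρ ^ R.m := pow_le_pow_right₀ hρ i.2
  refine (sum_le_sum h1).trans ?_
  rw [sum_const, nsmul_eq_mul, card_univ, Fintype.card_fin]

theorem ball_le_hb {ρ : ℝ} (hρ : 0 < ρ) {X : R.V} (hX : X ∈ e) (h : ‖(X : A)‖ ≤ ρ) :
    X ∈ hb R e ρ := by
  have hm := R.hm0
  refine ⟨fun i => if (i : ℕ) = 0 then ρ⁻¹ • X else 0, fun i => ?_, ?_⟩
  · by_cases hi : (i : ℕ) = 0
    · simp only [if_pos hi]
      rw [hi]
      refine ⟨Submodule.smul_mem _ _ hX, ?_⟩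
      rw [Submodule.coe_smul, norm_smul, Real.norm_of_nonneg (by positivity), inv_mul_le_iff₀ hρ,
        mul_one]
      exact h
    · simp only [if_neg hi]
      exact ⟨Submodule.zero_mem _, by simp⟩
  · rw [Finset.sum_eq_single (⟨0, hm⟩ : Fin R.m)]
    · simp only [zero_add, pow_one, if_true, smul_smul]
      rw [mul_inv_cancel₀ hρ.ne', one_smul]
    · intro i _ hi
      have : (i : ℕ) ≠ 0 := fun h => hi (Fin.ext h)
      simp only [if_neg this, smul_zero]
    · intro h; exact absurd (mem_univ _) h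

/-- homogeneous boxes are closed under brackets, uniformly -/
theorem csv_hb (ρ : ℝ) : CSV R (hb R e ρ) (2 * R.m ^ 2) where
  conv := by
    rintro _ ⟨x, hx, rfl⟩ _ ⟨y, hy, rfl⟩ a b ha hb hab
    refine ⟨fun i => a • x i + b • y i, fun i => ⟨Submodule.add_mem _
      (Submodule.smul_mem _ _ (hx i).1) (Submodule.smul_mem _ _ (hy i).1), ?_⟩, ?_⟩
    · rw [Submodule.coe_add, Submodule.coe_smul, Submodule.coe_smul]
      refine (norm_add_le _ _).trans ?_
      rw [norm_smul, norm_smul, Real.norm_of_nonneg ha, Real.norm_of_nonneg hb]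
      have h1 := (hx i).2
      have h2 := (hy i).2
      nlinarith
    · rw [smul_sum, smul_sum, ← sum_add_distrib]
      refine sum_congr rfl fun i _ => ?_
      rw [smul_add, smul_comm a, smul_comm b]
  zero := ⟨fun _ => 0, fun i => ⟨Submodule.zero_mem _, by simp⟩, by simp⟩
  neg := by
    rintro _ ⟨x, hx, rfl⟩
    refine ⟨fun i => - x i, fun i => ⟨Submodule.neg_mem _ (hx i).1, ?_⟩, ?_⟩
    · rw [Submodule.coe_neg, norm_neg]; exact (hx i).2
    · rw [← sum_neg_distrib]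
      exact sum_congr rfl fun i _ => by rw [smul_neg]
  nonneg := by positivity
  br := by
    rintro _ ⟨x, hx, rfl⟩ _ ⟨y, hy, rfl⟩
    have hm : (0 : ℝ) < 2 * (R.m : ℝ) ^ 2 := by
      have : (0 : ℝ) < R.m := by exact_mod_cast R.hm0
      positivity
    have h1 : ⁅∑ i : Fin R.m, ρ ^ ((i : ℕ) + 1) • x i, ∑ i : Fin R.m, ρ ^ ((i : ℕ) + 1) • y i⁆ =
        ∑ i : Fin R.m, ∑ j : Fin R.m, ρ ^ ((i : ℕ) + j + 1 + 1) • ⁅x i, y j⁆ := by
      rw [sum_lie_sum]
      refine sum_congr rfl fun i _ => sum_congr rfl fun j _ => ?_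
      rw [smul_lie, lie_smul, smul_smul]
      congr 1; ring
    have h2 : ∀ i j : Fin R.m, ρ ^ ((i : ℕ) + j + 1 + 1) • ⁅x i, y j⁆ =
        ∑ k : Fin R.m, ρ ^ ((k : ℕ) + 1) • (if (i : ℕ) + j + 1 = k then ⁅x i, y j⁆ else 0) := by
      intro i j
      by_cases hij : (i : ℕ) + j + 1 < R.m
      · rw [Finset.sum_eq_single (⟨(i : ℕ) + j + 1, hij⟩ : Fin R.m)]
        · simp
        · intro k _ hk
          rw [if_neg (fun h => hk (Fin.ext h.symm)), smul_zero]
        · intro h; exact absurd (mem_univ _) h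
      · have h3 : ⁅x i, y j⁆ = 0 := by
          have h4 := lie_gam_gam i j (hx i).1 (hy j).1
          rw [gam_eq_bot (by omega)] at h4
          exact (Submodule.mem_bot ℝ).1 h4
        rw [h3, smul_zero]
        symm
        refine sum_eq_zero fun k _ => ?_
        split_ifs <;> rw [smul_zero]
    rw [h1]
    simp only [h2]
    have h5 : ∑ i : Fin R.m, ∑ j : Fin R.m, ∑ k : Fin R.m,
        ρ ^ ((k : ℕ) + 1) • (if (i : ℕ) + j + 1 = k then ⁅x i, y j⁆ else 0) =
        ∑ k : Fin R.m, ρ ^ ((k : ℕ) + 1) • ∑ i : Fin R.m, ∑ j : Fin R.m,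
          (if (i : ℕ) + j + 1 = k then ⁅x i, y j⁆ else 0) := by
      simp only [smul_sum]
      rw [sum_comm' (t' := univ) (s' := fun _ => univ) (by simp)]
      rw [sum_congr rfl fun j _ => sum_comm]
      rw [sum_comm]
      refine sum_congr rfl fun k _ => ?_
      rw [sum_comm]
    rw [h5]
    refine ⟨∑ k : Fin R.m, ρ ^ ((k : ℕ) + 1) • ((2 * (R.m : ℝ) ^ 2)⁻¹ • ∑ i : Fin R.m,
      ∑ j : Fin R.m, (if (i : ℕ) + j + 1 = k then ⁅x i, y j⁆ else 0)), ⟨_, fun k => ⟨?_, ?_⟩, rfl⟩,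
      ?_⟩
    · refine Submodule.smul_mem _ _ (Submodule.sum_mem _ fun i _ => Submodule.sum_mem _ fun j _ => ?_)
      split_ifs with h
      · rw [← h]; exact lie_gam_gam i j (hx i).1 (hy j).1
      · exact Submodule.zero_mem _
    · rw [Submodule.coe_smul, norm_smul, Real.norm_of_nonneg (by positivity), inv_mul_le_iff₀ hm,
        mul_one, Submodule.coe_sum]
      refine (norm_sum_le _ _).trans ?_
      have h6 : ∀ i : Fin R.m, ‖((∑ j : Fin R.m, (if (i : ℕ) + j + 1 = k then ⁅x i, y j⁆ else 0) :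
          R.V) : A)‖ ≤ R.m * 2 := by
        intro i
        rw [Submodule.coe_sum]
        refine (norm_sum_le _ _).trans ?_
        have h7 : ∀ j ∈ (univ : Finset (Fin R.m)),
            ‖(((if (i : ℕ) + j + 1 = k then ⁅x i, y j⁆ else 0) : R.V) : A)‖ ≤ 2 := by
          intro j _
          split_ifs
          · refine (norm_lie_le _ _).trans ?_
            have h8 := (hx i).2
            have h9 := (hy j).2
            have h10 := norm_nonneg (x i : A)
            have h11 := norm_nonneg (y j : A)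
            nlinarith
          · simp
        refine (sum_le_sum h7).trans ?_
        rw [sum_const, nsmul_eq_mul, card_univ, Fintype.card_fin]
      refine (sum_le_sum fun i _ => h6 i).trans ?_
      rw [sum_const, nsmul_eq_mul, card_univ, Fintype.card_fin]
      nlinarith
    · simp only
      rw [smul_sum]
      refine sum_congr rfl fun k _ => ?_
      rw [smul_comm, smul_inv_smul₀ hm.ne']

end hb

end Vale.Agent.P188.H615
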