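import Vale.Agent.P188.H789.OutB
import Vale.Agent.P188.H615.HExtB

/-!
The field `H_ext` for all real models; route B from FLATG alone.
-/

namespace Vale.Agent.P188.H615

open Vale.Agent.P188 Agent.P188.H428 Vale.Agent.P188.H382
open Vale.Agent.P188.H789

universe u v

/-- `H_ext` for all real models -/
theorem hextAll : HextAll := by
  intro Γ _ k η d n D hη F t M B hD J _ _ Rd
  obtain ⟨δ1, h1, C0, h2, H⟩ := Hp_ext (Rd := Rd) hD.nat hD.bx
  exact ⟨δ1, h1, fun δ a b => ⟨C0, h2, fun C hC => H δ a b C hC⟩⟩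

/-- The rigidity theorem, route B, from FLATG. -/
theorem rigidity_B' (hfl : FlatgAll) {H : Type u} {G : Type v} [Group H] [Group G]
    (hG : IsVirtuallyPolycyclic G) (hQ : QuasiIsometric H G) : IsVirtuallyPolycyclic H :=
  rigidity_B hfl hextAll hG hQ

end Vale.Agent.P188.H615
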