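import Vale.Agent.P188.H615.MetU2
import Vale.Agent.P188.H269.Semi
import Vale.Agent.P188.H796.Ll
import Vale.Agent.P188.H428.Conc

/-!
Logarithmic length bound for the group `S` of a Malcev basis.
-/

open Finset Filter Topology Pointwise

universe u v

namespace Vale.Agent.P188.H615

open Vale.Agent.P188.H796

/-- symmetric subadditive `ℕ`-valued functions -/
structure SubN {S : Type*} [Group S] (l : S → ℕ) : Prop where
  mul : ∀ x y, l (x * y) ≤ l x + l y
  inv : ∀ x, l x⁻¹ = l x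

theorem SubN.pow {S : Type*} [Group S] {l : S → ℕ} (h : SubN l) (x : S) (n : ℕ) :
    l (x ^ n) ≤ l 1 + n * l x := by
  induction n with
  | zero => simp
  | succ n ih =>
    rw [pow_succ]
    have := h.mul (x ^ n) x
    nlinarith

section general

variable {N : Type u} [Group N] {d n : ℕ} {D : MB N d n} {A : Type v} [NormedRing A]
  [NormedAlgebra ℝ A] [FiniteDimensional ℝ A] (R : RD D A)

/-- the norm as a seminorm on `V` -/
noncomputable def sn : Seminorm ℝ R.V := (normSeminorm ℝ A).comp R.V.subtype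

theorem sn_apply (v : R.V) : sn R v = ‖(v : A)‖ := rfl

/-- letters contracted by some group element are short -/
theorem letter_OL {S : Type*} [Group S] {l : S → ℕ} (hl : SubN l) (j : R.NR →* S)
    (T : Module.End ℝ R.V) (g : S) (hT : ∀ v, j (R.Ex (T v)) = g⁻¹ * j (R.Ex v) * g)
    (C1 : ℕ) (hC1 : ∀ v : R.V, ‖(v : A)‖ ≤ 1 → l (j (R.Ex v)) ≤ C1)
    {u : R.V} {C lam : ℝ} (hlam : 0 < lam) (hC : 0 ≤ C)
    (hu : ∀ n : ℕ, ‖(((T ^ n) u : R.V) : A)‖ ≤ C * Real.exp (-(lam * n))) :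
    OL lr fun x : ℝ => ((l (j (R.Ex (x • u))) : ℕ) : ℝ) := by
  have hpow : ∀ (n : ℕ) (v : R.V), j (R.Ex ((T ^ n) v)) = (g⁻¹) ^ n * j (R.Ex v) * g ^ n := by
    intro n
    induction n with
    | zero => intro v; simp
    | succ n ih =>
      intro v
      rw [pow_succ', Module.End.mul_apply, hT, ih, pow_succ', pow_succ]
      simp only [mul_assoc]
  set F : ℝ → ℕ := fun x => ⌈(lr x + Real.log (1 + C)) / lam⌉₊ with hF
  have key : ∀ x : ℝ, l (j (R.Ex (x • u))) ≤ C1 + 2 * (l 1 + F x * l g) := by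
    intro x
    have h1 := hpow (F x) (x • u)
    have h2 : ‖(((T ^ (F x)) (x • u) : R.V) : A)‖ ≤ 1 := by
      rw [map_smul, Submodule.coe_smul, norm_smul, Real.norm_eq_abs]
      have h3 : |x| * (C * Real.exp (-(lam * (F x : ℕ)))) ≤ 1 := by
        have h4 : (lr x + Real.log (1 + C)) / lam ≤ (F x : ℝ) := Nat.le_ceil _
        rw [div_le_iff₀ hlam] at h4
        have h5 : (1 + |x|) * (1 + C) ≤ Real.exp (lam * F x) := by
          rw [← Real.exp_log (show 0 < (1 + |x|) * (1 + C) by positivity)]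
          refine Real.exp_le_exp.2 ?_
          rw [Real.log_mul (by positivity) (by positivity)]
          have : lr x = Real.log (1 + |x|) := rfl
          linarith
        rw [Real.exp_neg, ← mul_assoc, ← div_eq_mul_inv, div_le_one (Real.exp_pos _)]
        refine le_trans ?_ h5
        nlinarith [abs_nonneg x]
      exact (mul_le_mul_of_nonneg_left (hu (F x)) (abs_nonneg x)).trans h3
    have h3 : j (R.Ex (x • u)) = g ^ (F x) * j (R.Ex ((T ^ (F x)) (x • u))) * (g ^ (F x))⁻¹ := by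
      rw [h1, inv_pow]; group
    rw [h3]
    have e1 := hl.mul (g ^ (F x) * j (R.Ex ((T ^ (F x)) (x • u)))) (g ^ (F x))⁻¹
    have e2 := hl.mul (g ^ (F x)) (j (R.Ex ((T ^ (F x)) (x • u))))
    have e3 := hl.pow g (F x)
    have e4 := hC1 _ h2
    rw [hl.inv] at e1
    omega
  have hFO : OL lr fun x => (F x : ℝ) := by
    have h1 : OL lr fun x => (1 / lam) * (lr x + Real.log (1 + C)) + 1 :=
      ((OL.self.add (OL.const lr_nonneg _)).mul_const (by positivity)).add (OL.const lr_nonneg 1)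
    refine h1.mono fun x => ?_
    have h2 : (F x : ℝ) ≤ (lr x + Real.log (1 + C)) / lam + 1 := by
      refine (Nat.ceil_lt_add_one ?_).le
      have := lr_nonneg x
      have := log_one_add_nonneg hC
      positivity
    calc (F x : ℝ) ≤ _ := h2
      _ = _ := by ring
  have h2 : OL lr fun x => ((C1 : ℝ) + 2 * l 1) + (2 * l g) * (F x : ℝ) :=
    (OL.const lr_nonneg _).add (hFO.mul_const (by positivity))
  refine h2.mono fun x => ?_
  have h3 : ((l (j (R.Ex (x • u))) : ℕ) : ℝ) ≤ ((C1 + 2 * (l 1 + F x * l g) : ℕ) : ℝ) := by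
    exact_mod_cast key x
  refine h3.trans (le_of_eq ?_)
  push_cast; ring

end general

section concrete

variable {Γ : Type u} [Group Γ] {N : Subgroup Γ} [hN : N.Normal] {d n : ℕ} (D : MB N d n)

/-- **(M1)** logarithmic length bound on `exp e` -/
theorem M1 {l : D.S → ℕ} (hl : SubN l) (C1 : ℕ)
    (hC1 : ∀ v : D.R.V, ‖(v : D.Alg)‖ ≤ 1 → l (D.ex v) ≤ C1)
    (e : LieIdeal ℝ D.R.V) (F : Set D.S) (hPF : ∀ x, x ∈ H269.PF D.AdE F ↔ x ∈ e) :
    ∃ C : ℝ, 0 ≤ C ∧ ∀ X ∈ e, (l (D.ex X) : ℝ) ≤ C * (1 + Real.log (1 + ‖(X : D.Alg)‖)) := by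
  have hsub : Sub D.R (fun x => ((l (D.inN x) : ℕ) : ℝ)) :=
    { nonneg := fun x => Nat.cast_nonneg _
      mul := fun x y => by rw [map_mul]; exact_mod_cast hl.mul _ _
      inv := fun x => by rw [map_inv, hl.inv] }
  refine metU hsub (e := e.toSubmodule) (fun x _ y hy => e.lie_mem hy) hPF ?_
  intro u hu
  simp only [Set.mem_iUnion] at hu
  obtain ⟨g, _, hg⟩ := hu
  obtain ⟨C, lam, hlam, hC, h⟩ := H269.Cn.seminorm hg (sn D.R)
  refine letter_OL D.R hl D.inN (D.AdE g⁻¹) g ?_ C1 hC1 hlam hC h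
  intro v
  have := D.ex_Ad g⁻¹ v
  rw [inv_inv] at this
  exact this

end concrete

end Vale.Agent.P188.H615
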