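import Vale.Agent.P188.H615.NetE
import Vale.Agent.P188.H615.MetS

/-!
Matching boxes in the group `S`: hypothesis of `H382.good_close`.
-/

open Finset Filter Topology Pointwise

universe u v

namespace Vale.Agent.P188.H615

open Vale.Agent.P188.H796

section hypbox

variable {Γ : Type u} [Group Γ] {N : Subgroup Γ} [hN : N.Normal] {d n : ℕ} (D : MB N d n)

/-- the ball of `S` of radius `R` is covered by `e^{εR}` pieces `p * exp e * (bounded)`, with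
lengths controlled independently of `ε` -/
def Pieces (l : D.S → ℕ) (e : LieIdeal ℝ D.R.V) : Prop :=
  ∃ C : ℕ, ∀ ε : ℝ, 0 < ε → ∃ Cε : ℝ, ∀ R : ℕ, ∃ P : Finset D.S,
    (P.card : ℝ) ≤ Cε * Real.exp (ε * R) ∧ (∀ p ∈ P, l p ≤ C * (R + 1)) ∧
    ∀ s : D.S, l s ≤ R → ∃ p ∈ P, ∃ X ∈ e, ∃ b : D.S, s = p * D.ex X * b ∧ l b ≤ C

/-- the metric facts about `S` -/
structure Met (l : D.S → ℕ) (e : LieIdeal ℝ D.R.V) : Prop where
  sub : SubN l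
  inv : ∀ s : D.S, ∀ X ∈ e, D.Ad s X ∈ e
  up : ∃ C : ℝ, 0 ≤ C ∧ ∀ X ∈ e, (l (D.ex X) : ℝ) ≤ C * (1 + Real.log (1 + ‖(X : D.Alg)‖))
  low : ∃ C : ℝ, 0 ≤ C ∧ ∀ X ∈ e, Real.log (1 + ‖(X : D.Alg)‖) ≤ C * (1 + l (D.ex X))
  ad : ∀ k : ℕ, ∃ r : ℝ, 1 ≤ r ∧ ∀ s : D.S, l s ≤ k → ∀ v : D.R.V,
    ‖((D.Ad s v : D.R.V) : D.Alg)‖ ≤ r * ‖(v : D.Alg)‖

variable {D}

theorem gam_inv {e : LieIdeal ℝ D.R.V} (s : D.S) (hs : ∀ X ∈ e, D.Ad s X ∈ e) (i : ℕ) :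
    ∀ X ∈ gam D.R e.toSubmodule i, D.Ad s X ∈ gam D.R e.toSubmodule i := by
  induction i with
  | zero => exact hs
  | succ i ih =>
    intro X hX
    rw [gam] at hX
    induction hX using Submodule.span_induction with
    | mem x hx =>
      obtain ⟨a, ha, b, hb, rfl⟩ := hx
      rw [D.Ad_lie]
      exact lie_mem_gam (hs a ha) (ih b hb)
    | zero => rw [map_zero]; exact Submodule.zero_mem _
    | add a b _ _ ha hb => rw [map_add]; exact Submodule.add_mem _ ha hb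
    | smul t a _ ha => rw [map_smul]; exact Submodule.smul_mem _ t ha

theorem Ad_hb {e : LieIdeal ℝ D.R.V} (s : D.S) (hs : ∀ X ∈ e, D.Ad s X ∈ e) {r ρ : ℝ} (hr : 0 < r)
    (hn : ∀ v : D.R.V, ‖((D.Ad s v : D.R.V) : D.Alg)‖ ≤ r * ‖(v : D.Alg)‖) {X : D.R.V}
    (hX : X ∈ hb D.R e.toSubmodule ρ) : D.Ad s X ∈ r • hb D.R e.toSubmodule ρ := by
  obtain ⟨x, hx, rfl⟩ := hX
  refine ⟨∑ i : Fin D.R.m, ρ ^ ((i : ℕ) + 1) • (r⁻¹ • D.Ad s (x i)), ⟨_, fun i => ⟨?_, ?_⟩, rfl⟩, ?_⟩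
  · exact Submodule.smul_mem _ _ (gam_inv s hs i _ (hx i).1)
  · rw [Submodule.coe_smul, norm_smul, Real.norm_of_nonneg (by positivity), inv_mul_le_iff₀ hr]
    exact (hn _).trans (mul_le_mul_of_nonneg_left (hx i).2 hr.le)
  · simp only
    rw [smul_sum, map_sum]
    refine sum_congr rfl fun i _ => ?_
    rw [smul_comm r, smul_inv_smul₀ hr.ne', map_smul]

/-- conjugation by an element of `S` on the real group -/
noncomputable def cj (s : D.S) (k : D.R.NR) : D.R.NR := D.R.Ex (D.Ad s (D.R.Lo k))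

theorem inN_cj (s : D.S) (k : D.R.NR) : D.inN (cj s k) = s * D.inN k * s⁻¹ := by
  have h := D.ex_Ad s (D.R.Lo k)
  rw [MB.ex, MB.ex, D.R.Ex_Lo] at h
  exact h

theorem cj_mul (s : D.S) (k k' : D.R.NR) : cj s (k * k') = cj s k * cj s k' := by
  apply D.P.inK_injective
  rw [map_mul]
  change D.inN (cj s (k * k')) = D.inN (cj s k) * D.inN (cj s k')
  rw [inN_cj, inN_cj, inN_cj, map_mul]
  group

theorem cj_cj (s t : D.S) (k : D.R.NR) : cj s (cj t k) = cj (s * t) k := by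
  rw [cj, cj, cj, D.R.Lo_Ex, map_mul]; rfl

theorem cj_one (k : D.R.NR) : cj (1 : D.S) k = k := by
  rw [cj, map_one]; exact D.R.Ex_Lo k

theorem cj_inv (s : D.S) (k : D.R.NR) : cj s k⁻¹ = (cj s k)⁻¹ := by
  rw [eq_inv_iff_mul_eq_one, ← cj_mul, inv_mul_cancel, cj, Lo_one, map_zero, D.R.Ex_zero]

theorem Lo_cj (s : D.S) (k : D.R.NR) : D.R.Lo (cj s k) = D.Ad s (D.R.Lo k) := D.R.Lo_Ex _

/-- elements of exponentially large homogeneous boxes have linear length -/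
theorem len_hb {l : D.S → ℕ} {e : LieIdeal ℝ D.R.V} {Cu : ℝ} (hCu : 0 ≤ Cu)
    (hup : ∀ X ∈ e, (l (D.ex X) : ℝ) ≤ Cu * (1 + Real.log (1 + ‖(X : D.Alg)‖)))
    {D' K0 : ℝ} (hD : 1 ≤ D') (hK0 : 0 ≤ K0) : ∃ C3 : ℕ, ∀ R : ℕ, ∀ x : D.R.NR,
      x ∈ EK D.R (D' • hb D.R e.toSubmodule (Real.exp (K0 * (R + 1)))) →
      l (D.inN x) ≤ C3 * (R + 1) := by
  have he : ∀ x ∈ e.toSubmodule, ∀ y ∈ e.toSubmodule, ⁅x, y⁆ ∈ e.toSubmodule :=
    fun x _ y hy => e.lie_mem hy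
  have hD0 : 0 ≤ D' := by linarith
  have hm0 : (0 : ℝ) < D.R.m := by exact_mod_cast D.R.hm0
  set c : ℝ := Real.log (1 + D' * D.R.m) with hc
  have hlogn : 0 ≤ c := log_one_add_nonneg (by positivity)
  refine ⟨⌈Cu * (1 + (c + D.R.m * K0))⌉₊, fun R x hx => ?_⟩
  set ρ := Real.exp (K0 * (R + 1)) with hρ
  have hρ1 : 1 ≤ ρ := Real.one_le_exp (by positivity)
  obtain ⟨w, hw, hw2⟩ := hx
  simp only at hw2
  have h1 : D.R.Lo x ∈ e := by rw [← hw2]; exact e.smul_mem _ (hb_le he hw)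
  have h2 := hup _ h1
  rw [MB.ex, D.R.Ex_Lo] at h2
  have h3 : ‖((D.R.Lo x : D.R.V) : D.Alg)‖ ≤ D' * (D.R.m * ρ ^ D.R.m) := by
    rw [← hw2, Submodule.coe_smul, norm_smul, Real.norm_of_nonneg hD0]
    exact mul_le_mul_of_nonneg_left (norm_hb_le hρ1 hw) hD0
  have h5 : 1 + ‖((D.R.Lo x : D.R.V) : D.Alg)‖ ≤ (1 + D' * D.R.m) * ρ ^ D.R.m := by
    have : 1 ≤ ρ ^ D.R.m := one_le_pow₀ hρ1
    linarith
  have h4 : Real.log (1 + ‖((D.R.Lo x : D.R.V) : D.Alg)‖) ≤ c + D.R.m * (K0 * (R + 1)) := by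
    refine (Real.log_le_log (by positivity) h5).trans ?_
    rw [Real.log_mul (by positivity) (by positivity), Real.log_pow, hρ, Real.log_exp]
  have h6 : (l (D.inN x) : ℝ) ≤ Cu * (1 + (c + D.R.m * K0)) * (R + 1) := by
    refine h2.trans ?_
    rw [mul_assoc]
    refine mul_le_mul_of_nonneg_left ?_ hCu
    have : (0 : ℝ) ≤ R := Nat.cast_nonneg R
    nlinarith
  have h7 : Cu * (1 + (c + D.R.m * K0)) * (R + 1) ≤
      ((⌈Cu * (1 + (c + D.R.m * K0))⌉₊ * (R + 1) : ℕ) : ℝ) := by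
    push_cast
    exact mul_le_mul_of_nonneg_right (Nat.le_ceil _) (by positivity)
  exact_mod_cast h6.trans h7

/-- the pure part of an element of a ball is in an exponentially large box -/
theorem mem_hb_of_len {l : D.S → ℕ} {e : LieIdeal ℝ D.R.V} (hsub : SubN l) {Cl : ℝ} (hCl : 0 ≤ Cl)
    (hlow : ∀ X ∈ e, Real.log (1 + ‖(X : D.Alg)‖) ≤ Cl * (1 + l (D.ex X))) (CP : ℕ) :
    ∀ (R : ℕ) (s p b : D.S) (X : D.R.V), X ∈ e → l s ≤ R → l p ≤ CP * (R + 1) → l b ≤ CP →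
      s = p * D.ex X * b →
      X ∈ hb D.R e.toSubmodule (Real.exp (Cl * (1 + (2 * CP + 1)) * (R + 1))) := by
  intro R s p b X hX hs hp hb' hsb
  have h1 : D.ex X = p⁻¹ * s * b⁻¹ := by rw [hsb]; group
  have h2 : l (D.ex X) ≤ CP * (R + 1) + R + CP := by
    rw [h1]
    refine (hsub.mul _ _).trans ?_
    rw [hsub.inv]
    refine add_le_add ((hsub.mul _ _).trans ?_) hb'
    rw [hsub.inv]
    exact add_le_add hp hs
  have h3 := hlow X hX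
  have h4 : (l (D.ex X) : ℝ) ≤ CP * (R + 1) + R + CP := by exact_mod_cast h2
  have hR : (0 : ℝ) ≤ R := Nat.cast_nonneg R
  have hCPn : (0 : ℝ) ≤ CP := Nat.cast_nonneg CP
  have h5 : Real.log (1 + ‖(X : D.Alg)‖) ≤ Cl * (1 + (2 * CP + 1)) * (R + 1) := by
    refine h3.trans ?_
    rw [mul_assoc]
    refine mul_le_mul_of_nonneg_left ?_ hCl
    nlinarith
  refine ball_le_hb (Real.exp_pos _) hX ?_
  have h6 : 1 + ‖(X : D.Alg)‖ ≤ Real.exp (Cl * (1 + (2 * CP + 1)) * (R + 1)) := by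
    rw [← Real.exp_log (show 0 < 1 + ‖(X : D.Alg)‖ by positivity)]
    exact Real.exp_le_exp.2 h5
  linarith

open Classical in
/-- the matching map -/
theorem match_aux {l : D.S → ℕ} {e : LieIdeal ℝ D.R.V} (hM : Met D l e) {Cu : ℝ} (hCu : 0 ≤ Cu)
    (hup : ∀ X ∈ e, (l (D.ex X) : ℝ) ≤ Cu * (1 + Real.log (1 + ‖(X : D.Alg)‖)))
    {r ρ D' : ℝ} (hr1 : 1 ≤ r) {M CP : ℕ}
    (hD' : ∀ x ∈ EK D.R (r • hb D.R e.toSubmodule ρ), ∀ y ∈ EK D.R (r • hb D.R e.toSubmodule ρ),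
      x * y ∈ EK D.R (D' • hb D.R e.toSubmodule ρ))
    {X1 X2 : Finset D.R.NR} (hX1 : ∀ x ∈ X1, x ∈ EK D.R (hb D.R e.toSubmodule ρ))
    (hX2c : ∀ t ∈ EK D.R (D' • hb D.R e.toSubmodule ρ), ∃ x ∈ X2,
      x⁻¹ * t ∈ EK D.R (bl D.R e.toSubmodule))
    (hX1f : ∀ y : D.R.NR, (X1.filter fun x => y⁻¹ * x ∈ EK D.R (r • bl D.R e.toSubmodule)).card ≤ M)
    (s p b : D.S) (X : D.R.V) (hX : X ∈ hb D.R e.toSubmodule ρ) (hb' : l b ≤ CP)
    (hsb : s = p * D.ex X * b)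
    (hr : ∀ s : D.S, l s ≤ CP → ∀ v : D.R.V, ‖((D.Ad s v : D.R.V) : D.Alg)‖ ≤ r * ‖(v : D.Alg)‖) :
    ∃ Φ : D.R.NR → D.R.NR, (∀ x ∈ X1, Φ x ∈ X2) ∧
        (∀ y ∈ X2, (X1.filter fun x => Φ x = y).card ≤ M) ∧
        ∀ x ∈ X1, l ((s * D.inN x)⁻¹ * (p * D.inN (Φ x))) ≤
          CP + ⌈Cu * (1 + Real.log (1 + 1))⌉₊ := by
  have hr0 : 0 < r := by linarith
  have hsub := hM.sub
  have hbr := hr b hb'
  -- the matching elements
  set w : D.R.NR → D.R.NR := fun x => D.R.Ex X * cj b x with hw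
  have hwm : ∀ x ∈ X1, w x ∈ EK D.R (D' • hb D.R e.toSubmodule ρ) := by
    intro x hx
    refine hD' _ ?_ _ ?_
    · rw [mem_EK, D.R.Lo_Ex]
      have h1 : X ∈ (1 : ℝ) • hb D.R e.toSubmodule ρ := by rw [one_smul]; exact hX
      exact (csv_hb ρ).mem_mono zero_le_one hr1 h1
    · rw [mem_EK, Lo_cj]
      exact Ad_hb b (hM.inv b) hr0 hbr (hX1 x hx)
  have hΦ : ∀ x, ∃ y, x ∈ X1 → y ∈ X2 ∧ y⁻¹ * w x ∈ EK D.R (bl D.R e.toSubmodule) := by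
    intro x
    by_cases hx : x ∈ X1
    · obtain ⟨y, hy, h⟩ := hX2c _ (hwm x hx)
      exact ⟨y, fun _ => ⟨hy, h⟩⟩
    · exact ⟨1, fun h => absurd h hx⟩
  choose Φ hΦ using hΦ
  refine ⟨Φ, fun x hx => (hΦ x hx).1, ?_, ?_⟩
  · intro y _
    refine le_trans (Finset.card_le_card ?_) (hX1f (cj b⁻¹ ((D.R.Ex X)⁻¹ * y)))
    intro x hx
    rw [Finset.mem_filter] at hx ⊢
    refine ⟨hx.1, ?_⟩
    have h1 := (hΦ x hx.1).2
    rw [hx.2] at h1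
    have h2 : (cj b⁻¹ ((D.R.Ex X)⁻¹ * y))⁻¹ * x = cj b⁻¹ (y⁻¹ * w x) := by
      rw [hw]
      simp only
      rw [← cj_inv, ← mul_assoc, cj_mul b⁻¹ (y⁻¹ * D.R.Ex X), cj_cj, inv_mul_cancel, cj_one,
        mul_inv_rev, inv_inv]
    rw [h2, mem_EK, Lo_cj, mem_smul_bl hr0.le]
    refine ⟨hM.inv _ _ h1.1, ?_⟩
    have h3 := hr b⁻¹ (by rw [hsub.inv]; exact hb') (D.R.Lo (y⁻¹ * w x))
    refine h3.trans ?_
    calc r * _ ≤ r * 1 := mul_le_mul_of_nonneg_left h1.2 hr0.le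
      _ = r := mul_one r
  · intro x hx
    have h1 := (hΦ x hx).2
    have h2 : (s * D.inN x)⁻¹ * (p * D.inN (Φ x)) = b⁻¹ * (D.inN ((Φ x)⁻¹ * w x))⁻¹ := by
      rw [hw]
      simp only
      rw [map_mul, map_mul, inN_cj, map_inv, hsb, MB.ex]
      group
    rw [h2]
    have h3 : l (D.inN ((Φ x)⁻¹ * w x)) ≤ ⌈Cu * (1 + Real.log (1 + 1))⌉₊ := by
      have h4 := hup _ h1.1
      rw [MB.ex, D.R.Ex_Lo] at h4
      have h5 : Real.log (1 + ‖((D.R.Lo ((Φ x)⁻¹ * w x) : D.R.V) : D.Alg)‖) ≤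
          Real.log (1 + 1) := Real.log_le_log (by positivity) (by linarith [h1.2])
      have h6 : (l (D.inN ((Φ x)⁻¹ * w x)) : ℝ) ≤ Cu * (1 + Real.log (1 + 1)) :=
        h4.trans (mul_le_mul_of_nonneg_left (by linarith) hCu)
      exact_mod_cast h6.trans (Nat.le_ceil _)
    refine (hsub.mul _ _).trans ?_
    rw [hsub.inv, hsub.inv]
    exact add_le_add hb' h3

open Classical in
/-- **matching boxes** -/
theorem hypBox {l : D.S → ℕ} {e : LieIdeal ℝ D.R.V} (hM : Met D l e) (hP : Pieces D l e) :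
    ∃ M C : ℕ, ∀ ε : ℝ, 0 < ε → ∃ Cε : ℝ, ∀ R : ℕ, ∃ (P : Finset D.S) (X1 X2 : Finset D.R.NR),
      (P.card : ℝ) ≤ Cε * Real.exp (ε * R) ∧ X1.Nonempty ∧ X2.card ≤ M * X1.card ∧
      (∀ x ∈ X1, l (D.inN x) ≤ C * (R + 1)) ∧
      (∀ p ∈ P, ∀ x ∈ X2, l (p * D.inN x) ≤ C * (R + 1)) ∧
      ∀ s : D.S, l s ≤ R → ∃ p ∈ P, ∃ Φ : D.R.NR → D.R.NR, (∀ x ∈ X1, Φ x ∈ X2) ∧
        (∀ y ∈ X2, (X1.filter fun x => Φ x = y).card ≤ M) ∧
        ∀ x ∈ X1, l ((s * D.inN x)⁻¹ * (p * D.inN (Φ x))) ≤ C := by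
  obtain ⟨CP, hCP⟩ := hP
  obtain ⟨Cu, hCu, hup⟩ := hM.up
  obtain ⟨Cl, hCl, hlow⟩ := hM.low
  obtain ⟨r, hr1, hr⟩ := hM.ad CP
  have hr0 : 0 < r := by linarith
  have hsub := hM.sub
  have he : ∀ x ∈ e.toSubmodule, ∀ y ∈ e.toSubmodule, ⁅x, y⁆ ∈ e.toSubmodule :=
    fun x _ y hy => e.lie_mem hy
  obtain ⟨C2, hC2, H2⟩ := qbchE D.R (C0 := r * (2 * (D.R.m : ℝ) ^ 2)) (by positivity)
  set D' : ℝ := (C2 + 1) * r with hD'
  have hD'1 : 1 ≤ D' := by rw [hD']; nlinarith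
  have hmul : ∀ ρ : ℝ, ∀ x ∈ EK D.R (r • hb D.R e.toSubmodule ρ),
      ∀ y ∈ EK D.R (r • hb D.R e.toSubmodule ρ),
      x * y ∈ EK D.R (D' • hb D.R e.toSubmodule ρ) := by
    intro ρ x hx y hy
    have hK := (csv_hb (R := D.R) (e := e.toSubmodule) ρ).smul hr0.le
    have h3 := (H2 _ hK 1 zero_le_one le_rfl).1 x hx y (by rw [one_smul]; exact hy)
    rw [mul_one] at h3
    have h4 : D.R.Lo x ∈ (1 : ℝ) • r • hb D.R e.toSubmodule ρ := by rw [one_smul]; exact hx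
    have h5 := hK.mem_add hC2 zero_le_one h3 h4
    rw [sub_add_cancel, smul_smul] at h5
    exact h5
  obtain ⟨M, hMn⟩ := netE (R := D.R) (e := e.toSubmodule) he hD'1 hr0
  have hK0 : 0 ≤ Cl * (1 + (2 * (CP : ℝ) + 1)) := by positivity
  obtain ⟨C3, hC3⟩ := len_hb (D := D) (e := e) hCu hup hD'1 hK0
  refine ⟨M, CP + C3 + ⌈Cu * (1 + Real.log (1 + 1))⌉₊, fun ε hε => ?_⟩
  obtain ⟨Cε, hCε⟩ := hCP ε hε
  refine ⟨Cε, fun R => ?_⟩
  obtain ⟨P, hP1, hP2, hP3⟩ := hCε R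
  have hρ1 : 1 ≤ Real.exp (Cl * (1 + (2 * (CP : ℝ) + 1)) * (R + 1)) :=
    Real.one_le_exp (by positivity)
  obtain ⟨X1, X2, hX1n, hX1, hX2, hX12, hX2c, hX1f⟩ := hMn _ hρ1
  refine ⟨P, X1, X2, hP1, hX1n, hX12, ?_, ?_, ?_⟩
  · intro x hx
    have h1 : D.R.Lo x ∈ (1 : ℝ) • hb D.R e.toSubmodule
        (Real.exp (Cl * (1 + (2 * (CP : ℝ) + 1)) * (R + 1))) := by
      rw [one_smul]; exact hX1 x hx
    refine (hC3 R x ((csv_hb _).mem_mono zero_le_one hD'1 h1)).trans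
      (Nat.mul_le_mul_right _ (by omega))
  · intro p hp x hx
    refine (hsub.mul _ _).trans ?_
    calc l p + l (D.inN x) ≤ CP * (R + 1) + C3 * (R + 1) :=
          add_le_add (hP2 p hp) (hC3 R x (hX2 x hx))
      _ = (CP + C3) * (R + 1) := by ring
      _ ≤ _ := Nat.mul_le_mul_right _ (by omega)
  · intro s hs
    obtain ⟨p, hp, X, hX, b, hsb, hb'⟩ := hP3 s hs
    have hXρ := mem_hb_of_len (D := D) (e := e) hsub hCl hlow CP R s p b X hX hs (hP2 p hp) hb' hsb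
    obtain ⟨Φ, h1, h2, h3⟩ := match_aux hM hCu hup hr1 (hmul _) hX1 hX2c hX1f s p b X hXρ hb' hsb hr
    exact ⟨p, hp, Φ, h1, h2, fun x hx => (h3 x hx).trans (by omega)⟩

end hypbox

end Vale.Agent.P188.H615
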