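import Vale.Agent.P188.H615.GenL
import Vale.Agent.P188.H615.MetI
import Vale.Agent.P188.H615.GenE
import Vale.Agent.P188.H796.InstA

/-!
Block RM-d of the real model: exponential radical, logarithmic lengths, bounded generation,
universal relations, generating set of the lattice.
-/

open Finset Filter Topology Pointwise
open scoped commutatorElement

namespace Vale.Agent.P188.H615

open Vale.Agent.P188.H796 Vale.Agent.P188.H329 H131
open Vale.Agent.P188.H530 (hgt Mod exists_mod)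
open Vale.Agent.P188.H789 (Bl)

theorem rpow_mono_bound {C C' x : ℝ} (hC : 0 ≤ C) (hCC : C ≤ C') (hx : 1 ≤ x) :
    C * x ^ C ≤ C' * x ^ C' := by
  have h1 : x ^ C ≤ x ^ C' := Real.rpow_le_rpow_of_exponent_le hx hCC
  exact mul_le_mul hCC h1 (Real.rpow_nonneg (by linarith) _) (hC.trans hCC)

theorem pow_bound_rpow {K : ℕ} {C x : ℝ} (hK : (K : ℝ) ≤ C) (hx : 1 ≤ x) :
    (K : ℝ) * x ^ K ≤ C * x ^ C := by
  rw [← Real.rpow_natCast x K]
  exact rpow_mono_bound (Nat.cast_nonneg K) hK hx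

section prod

variable {N : Type} [Group N] {d n : ℕ} {D : MB N d n} {A : Type} [NormedRing A]
  [NormedAlgebra ℝ A] [FiniteDimensional ℝ A] (R : RD D A)

/-- size of a product of many exponentials -/
theorem Lo_prod_bound : ∃ K : ℕ, ∀ (L : List R.V) (a : ℝ), 0 ≤ a → (∀ v ∈ L, ‖(v : A)‖ ≤ a) →
    ‖((R.Lo (L.map R.Ex).prod : R.V) : A)‖ ≤ K * (1 + a + L.length) ^ K := by
  obtain ⟨C1, hC1, h1⟩ := R.exists_Lo_bound
  obtain ⟨C2, hC2, h2⟩ := RD.exists_ex_bound (A := A) R.m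
  set c : ℝ := ‖(1 : A)‖ with hc
  have hc0 : 0 ≤ c := norm_nonneg _
  have hm0 : (0 : ℝ) ≤ R.m := Nat.cast_nonneg _
  -- constants
  set B : ℝ := C1 * (1 + c + c * R.m * (1 + C2 + c) ^ R.m) ^ R.m with hB
  have hB0 : 0 ≤ B := by positivity
  refine ⟨⌈B⌉₊ + (R.m + 1) * R.m * R.m, fun L a ha hL => ?_⟩
  set x : ℝ := 1 + a + L.length with hx
  have hl0 : (0 : ℝ) ≤ L.length := Nat.cast_nonneg _
  have hx1 : 1 ≤ x := by linarith
  have hJ : ∀ u ∈ (L.map R.Ex).map R.toA, u - 1 ∈ R.J := by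
    intro u hu
    rw [List.mem_map] at hu
    obtain ⟨s, _, rfl⟩ := hu
    exact R.E_sub_one_mem s
  set K : ℝ := (C2 + c) * x ^ R.m with hK
  have hK0 : 0 ≤ K := by positivity
  have hn : ∀ u ∈ (L.map R.Ex).map R.toA, ‖u - 1‖ ≤ K := by
    intro u hu
    rw [List.mem_map] at hu
    obtain ⟨s, hs, rfl⟩ := hu
    rw [List.mem_map] at hs
    obtain ⟨v, hv, rfl⟩ := hs
    rw [R.toA_Ex]
    have h3 : (1 + ‖(v : A)‖) ^ R.m ≤ x ^ R.m := by
      refine pow_le_pow_left₀ (by positivity) ?_ _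
      have := hL v hv
      linarith
    have h4 : 1 ≤ x ^ R.m := one_le_pow₀ hx1
    calc ‖ex R.m (v : A) - 1‖ ≤ ‖ex R.m (v : A)‖ + ‖(1 : A)‖ := norm_sub_le _ _
      _ ≤ C2 * (1 + ‖(v : A)‖) ^ R.m + c := add_le_add (h2 _) le_rfl
      _ ≤ C2 * x ^ R.m + c * x ^ R.m :=
          add_le_add (mul_le_mul_of_nonneg_left h3 hC2.le) (le_mul_of_one_le_right hc0 h4)
      _ = K := by rw [hK]; ring
  have h5 := R.norm_prod_le _ hK0 hJ hn
  rw [← map_list_prod, List.length_map, List.length_map] at h5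
  have h6 : (1 + (L.length : ℝ) * K) ≤ (1 + C2 + c) * x ^ (R.m + 1) := by
    have e1 : (L.length : ℝ) * K ≤ (C2 + c) * x ^ (R.m + 1) := by
      rw [hK, pow_succ]
      calc (L.length : ℝ) * ((C2 + c) * x ^ R.m) ≤ x * ((C2 + c) * x ^ R.m) :=
            mul_le_mul_of_nonneg_right (by linarith) (by positivity)
        _ = _ := by ring
    have e2 : 1 ≤ x ^ (R.m + 1) := one_le_pow₀ hx1
    linarith
  have h7 : ‖R.toA (L.map R.Ex).prod‖ ≤
      c * R.m * (1 + C2 + c) ^ R.m * x ^ ((R.m + 1) * R.m) := by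
    refine h5.trans ?_
    rw [mul_assoc (c * R.m)]
    refine mul_le_mul_of_nonneg_left ?_ (by positivity)
    refine (pow_le_pow_left₀ (by positivity) h6 _).trans (le_of_eq ?_)
    rw [mul_pow, ← pow_mul]
  have hp : 1 ≤ x ^ ((R.m + 1) * R.m) := one_le_pow₀ hx1
  have h8 : 1 + ‖R.toA (L.map R.Ex).prod - 1‖ ≤
      (1 + c + c * R.m * (1 + C2 + c) ^ R.m) * x ^ ((R.m + 1) * R.m) := by
    have e1 := norm_sub_le (R.toA (L.map R.Ex).prod) 1
    have e2 : (1 + c) ≤ (1 + c) * x ^ ((R.m + 1) * R.m) := le_mul_of_one_le_right (by positivity) hp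
    rw [add_mul]
    linarith
  have h9 : ‖((R.Lo (L.map R.Ex).prod : R.V) : A)‖ ≤ B * x ^ ((R.m + 1) * R.m * R.m) := by
    refine (h1 _).trans ?_
    refine (mul_le_mul_of_nonneg_left (pow_le_pow_left₀ (by positivity) h8 _) hC1.le).trans
      (le_of_eq ?_)
    rw [mul_pow, ← pow_mul, hB]; ring
  refine h9.trans ?_
  refine mul_le_mul ?_ (pow_le_pow_right₀ hx1 (by omega)) (by positivity) (Nat.cast_nonneg _)
  push_cast
  have := Nat.le_ceil B
  have h0 : (0 : ℝ) ≤ (R.m + 1) * R.m * R.m := by positivity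
  linarith

/-- polynomial growth of `N` -/
theorem coord_bound : ∃ C : ℕ, ∀ L : List N,
    (∀ x ∈ L, x ∈ Set.range D.b ∨ x⁻¹ ∈ Set.range D.b) → ∀ i,
      (D.c i L.prod).natAbs ≤ C * (L.length + 1) ^ R.m := by
  obtain ⟨C1, hC1, h1⟩ := R.exists_ι_bound (Set.range D.b) (Set.finite_range _)
  obtain ⟨C2, hC2, h2⟩ := R.exists_coord_bound
  refine ⟨⌈C2 * C1⌉₊, fun L hL i => ?_⟩
  have h3 := h2 (fun i => (D.c i L.prod : ℝ)) i
  have h4 : R.toA (fun i => (D.c i L.prod : ℝ)) = R.ρ L.prod := R.E_coord L.prod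
  rw [h4] at h3
  have h5 := h1 L hL
  have h6 : |((D.c i L.prod : ℤ) : ℝ)| ≤ ((⌈C2 * C1⌉₊ * (L.length + 1) ^ R.m : ℕ) : ℝ) := by
    refine h3.trans ((mul_le_mul_of_nonneg_left h5 hC2.le).trans ?_)
    push_cast
    rw [← mul_assoc, add_comm (1 : ℝ)]
    exact mul_le_mul_of_nonneg_right (Nat.le_ceil _) (by positivity)
  rw [← Int.cast_abs, Int.abs_eq_natAbs] at h6
  exact_mod_cast h6

include R in
theorem growth_N : ∃ C D' : ℕ, ∀ n, (Bl (Set.range D.b) n).Finite ∧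
    (Bl (Set.range D.b) n).ncard ≤ C * (n + 1) ^ D' := by
  obtain ⟨C, hC⟩ := coord_bound R
  refine ⟨(2 * C + 1) ^ d, R.m * d, fun n => ?_⟩
  set B : ℕ := C * (n + 1) ^ R.m with hB
  let bx : Finset (Fin d → ℤ) := Fintype.piFinset fun _ => Finset.Icc (-(B : ℤ)) B
  have hinj : Function.Injective fun (y : N) (i : Fin d) => D.c i y := by
    intro y y' h
    rw [← D.prod_c y, ← D.prod_c y']
    congr 2
    funext i
    have h1 : D.c i y = D.c i y' := congrFun h i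
    rw [h1]
  have hsub : (fun (y : N) (i : Fin d) => D.c i y) '' Bl (Set.range D.b) n ⊆ (bx : Set _) := by
    rintro _ ⟨y, ⟨L, h1, h2, rfl⟩, rfl⟩
    rw [Finset.mem_coe, Fintype.mem_piFinset]
    intro i
    have h3 := hC L h2 i
    have h4 : (D.c i L.prod).natAbs ≤ B := h3.trans
      (Nat.mul_le_mul_left _ (Nat.pow_le_pow_left (by omega) _))
    change D.c i L.prod ∈ Finset.Icc (-(B : ℤ)) B
    rw [Finset.mem_Icc]
    constructor <;> omega
  have hfin : (Bl (Set.range D.b) n).Finite :=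
    Set.Finite.of_finite_image ((Finset.finite_toSet bx).subset hsub) hinj.injOn
  refine ⟨hfin, ?_⟩
  rw [← Set.ncard_image_of_injective _ hinj]
  refine (Set.ncard_le_ncard hsub (Finset.finite_toSet _)).trans ?_
  rw [Set.ncard_coe_finset, Fintype.card_piFinset_const, Int.card_Icc]
  have h5 : ((B : ℤ) + 1 - -(B : ℤ)).toNat = 2 * B + 1 := by omega
  rw [h5]
  calc (2 * B + 1) ^ d ≤ ((2 * C + 1) * (n + 1) ^ R.m) ^ d := by
        refine Nat.pow_le_pow_left ?_ _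
        have : 1 ≤ (n + 1) ^ R.m := Nat.one_le_pow _ _ (Nat.succ_pos _)
        rw [hB]; nlinarith
    _ = _ := by rw [mul_pow, ← pow_mul]

end prod

section inst

variable {Γ : Type} [Group Γ] {k : ℕ} {η : Γ →* Multiplicative (Fin k → ℤ)} {d n : ℕ}
  {D : MB η.ker d n}

/-- **the exponential radical** and its metric properties -/
theorem exists_radical' (hη : Function.Surjective η) {F : Set Γ} (hF : F.Finite)
    (hgen : Subgroup.closure F = ⊤) :
    ∃ e : LieIdeal ℝ D.R.V, Met D (wl (D.U F)) e ∧ Pieces D (wl (D.U F)) e ∧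
      (∀ g, ∀ x ∈ H269.Cn (D.AdE g), x ∈ e) ∧
      (∃ t : D.S, H269.Covers D.AdE ({t, t⁻¹} : Set D.S)) ∧
      ∀ F' : Set D.S, H269.Covers D.AdE F' → ∀ x, x ∈ H269.PF D.AdE F' ↔ x ∈ e := by
  obtain ⟨C, hC, H⟩ := D.Ad_bound hF hgen
  refine exists_radical hη hF hgen ⟨C, hC.le, fun s v => (H s v).trans ?_⟩
  refine mul_le_mul_of_nonneg_right (Real.exp_le_exp.2 ?_) (norm_nonneg _)
  nlinarith

/-- the metric facts for any ideal with the properties of `LRep.main` -/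
theorem met_of (hη : Function.Surjective η) {F : Set Γ} (hF : F.Finite)
    (hgen : Subgroup.closure F = ⊤) {e : LieIdeal ℝ D.R.V} (hinv : ∀ g, ∀ x ∈ e, D.AdE g x ∈ e)
    {F' : Set D.S} (hPF : ∀ x, x ∈ H269.PF D.AdE F' ↔ x ∈ e) : Met D (wl (D.U F)) e := by
  obtain ⟨C, hC, H⟩ := D.Ad_bound hF hgen
  refine exists_met hη hF hgen ⟨C, hC.le, fun s v => (H s v).trans ?_⟩ hinv hPF
  refine mul_le_mul_of_nonneg_right (Real.exp_le_exp.2 ?_) (norm_nonneg _)
  nlinarith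

/-- field `met_e` -/
theorem Met.met_e {l : D.S → ℕ} {e : LieIdeal ℝ D.R.V} (h : Met D l e) : ∃ C : ℝ, 0 ≤ C ∧
    ∀ C' : ℝ, C ≤ C' → ∀ v ∈ e, (l (D.ex v) : ℝ) ≤ C' * (1 + Real.log (1 + D.nm v)) := by
  obtain ⟨C, hC, H⟩ := h.up
  refine ⟨C, hC, fun C' hC' v hv => (H v hv).trans ?_⟩
  rw [D.nm_eq]
  refine mul_le_mul_of_nonneg_right hC' ?_
  have := Real.log_nonneg (show 1 ≤ 1 + ‖(v : D.Alg)‖ by
    linarith [norm_nonneg (v : D.Alg)])
  linarith

/-- the exponential radical as a subgroup: fields `E`, `mem_E`, `E_normal` -/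
theorem mem_ER_ex {e : LieIdeal ℝ D.R.V} (s : D.S) : s ∈ ER e ↔ ∃ v ∈ e, D.ex v = s := by
  rw [mem_ER]

/-- size of a product of many exponentials -/
theorem nm_prod_le : ∃ C : ℝ, 1 ≤ C ∧ ∀ C' : ℝ, C ≤ C' → ∀ (L : List D.R.V) (a : ℝ), 0 ≤ a →
    (∀ v ∈ L, D.nm v ≤ a) → ∀ u, (L.map D.ex).prod = D.ex u →
      D.nm u ≤ C' * (1 + a + L.length) ^ C' := by
  obtain ⟨K, hK⟩ := Lo_prod_bound D.R
  refine ⟨K + 1, by linarith [(Nat.cast_nonneg K : (0 : ℝ) ≤ K)], fun C' hC' L a ha hL u hu => ?_⟩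
  have h1 : (L.map D.ex).prod = D.inN (L.map D.R.Ex).prod := by
    rw [map_list_prod, List.map_map]; rfl
  have h2 : D.R.Lo (L.map D.R.Ex).prod = u := by
    rw [h1, MB.ex] at hu
    have h3 : (L.map D.R.Ex).prod = D.R.Ex u := D.P.inK_injective hu
    rw [h3, D.R.Lo_Ex]
  have h3 := hK L a ha hL
  rw [h2] at h3
  refine h3.trans (pow_bound_rpow (by linarith) ?_)
  have : (0 : ℝ) ≤ L.length := Nat.cast_nonneg _
  linarith

/-- field `rel` -/
theorem relS {ι : Type} [Finite ι] (X : ι → D.R.V) (r : ι → ℝ) :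
    Rel ι D.R.m fun i x => D.ex ((r i * x) • X i) :=
  ((relV (R := D.R) X).map D.inN).scale id r

/-- fields `gen_e`, `gen_N`: bounded generation by the letters with a given property -/
theorem gen_field {ι : Type} [Finite ι] (X : ι → D.R.V) (p : ι → Prop) (W : Submodule ℝ D.R.V)
    (hW : ∀ v ∈ W, v ∈ LieSubalgebra.lieSpan ℝ D.R.V (X '' {i | p i})) :
    ∃ (m : ℕ) (J : Fin m → ι) (C : ℝ), (∀ t, p (J t)) ∧ 1 ≤ C ∧ ∀ C' : ℝ, C ≤ C' → ∀ v ∈ W,
      ∃ x : Fin m → ℝ, (∀ t, |x t| ≤ C' * (1 + D.nm v) ^ C') ∧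
        D.ex v = (List.ofFn fun t => D.ex (x t • X (J t))).prod := by
  obtain ⟨m, J, K, H⟩ := genV (R := D.R) (fun i : {i // p i} => X i) W (by
    intro v hv
    have h1 : Set.range (fun i : {i // p i} => X i) = X '' {i | p i} := by
      ext x
      constructor
      · rintro ⟨i, rfl⟩
        exact ⟨i, i.2, rfl⟩
      · rintro ⟨i, hi, rfl⟩
        exact ⟨⟨i, hi⟩, rfl⟩
    rw [h1]
    exact hW v hv)
  refine ⟨m, fun t => (J t : ι), K + 1, fun t => (J t).2,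
    by linarith [(Nat.cast_nonneg K : (0 : ℝ) ≤ K)], fun C' hC' v hv => ?_⟩
  obtain ⟨x, hx1, hx2⟩ := H v hv
  refine ⟨x, fun t => (hx1 t).trans (pow_bound_rpow (by linarith) ?_), ?_⟩
  · have : 0 ≤ ‖(v : D.Alg)‖ := norm_nonneg _
    linarith
  · rw [MB.ex, hx2, map_list_prod, List.map_ofFn]
    rfl

/-- fields `A`, `md`, `A_len`, `wordG` -/
theorem exists_A (hη : Function.Surjective η) {F : Set Γ} (hF : F.Finite)
    (hgen : Subgroup.closure F = ⊤) (F1 : Finset Γ) {F0 : Set D.R.NR}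
    (h0 : FundK D.P F0) {C : Set D.R.NR} (hC : IsCompact C) (hFC : F0 ⊆ C) :
    ∃ A : Set Γ, (F1 : Set Γ) ⊆ A ∧ Nonempty (Mod (hgt ((D.θ η).comp D.inΓ)) A) ∧
      ∃ M : ℝ, 1 ≤ M ∧ ∀ M' : ℝ, M ≤ M' →
        (∀ a ∈ A, (wl (D.U F) (D.inΓ a) : ℝ) ≤ M') ∧
        ∀ g : Γ, g ∈ Bl A ⌈M' * (wl (D.U F) (D.inΓ g) + 1)⌉₊ := by
  classical
  obtain ⟨C', D', hgr⟩ := growth_N (D := D) D.R
  set A0 : Set Γ := η.ker.subtype '' Set.range D.b with hA0
  have hA0f : A0.Finite := (Set.finite_range _).image _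
  have hcl : Subgroup.closure A0 = η.ker := by
    rw [hA0, ← MonoidHom.map_closure, D.closure_b, ← MonoidHom.range_eq_map,
      Subgroup.range_subtype]
  have hgr' : ∀ m, (Bl A0 m).ncard ≤ C' * (m + 1) ^ D' := by
    intro m
    have h1 : Bl A0 m ⊆ η.ker.subtype '' Bl (Set.range D.b) m := by
      rintro _ ⟨L, hL1, hL2, rfl⟩
      have h2 : ∃ L' : List η.ker, L'.length = L.length ∧
          (∀ a ∈ L', a ∈ Set.range D.b ∨ a⁻¹ ∈ Set.range D.b) ∧
          η.ker.subtype L'.prod = L.prod := by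
        clear hL1
        induction L with
        | nil => exact ⟨[], rfl, by simp, by simp⟩
        | cons a L ih =>
          obtain ⟨L', h3, h4, h5⟩ := ih fun b hb => hL2 b (List.mem_cons_of_mem _ hb)
          rcases hL2 a List.mem_cons_self with ⟨y, hy, rfl⟩ | ⟨y, hy, hya⟩
          · refine ⟨y :: L', by simp [h3], ?_, by rw [List.prod_cons, map_mul, h5, List.prod_cons]⟩
            intro b hb
            rcases List.mem_cons.1 hb with rfl | hb
            · exact Or.inl hy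
            · exact h4 b hb
          · refine ⟨y⁻¹ :: L', by simp [h3], ?_, ?_⟩
            · intro b hb
              rcases List.mem_cons.1 hb with rfl | hb
              · right; rwa [inv_inv]
              · exact h4 b hb
            · rw [List.prod_cons, map_mul, h5, List.prod_cons, map_inv, hya, inv_inv]
      obtain ⟨L', h3, h4, h5⟩ := h2
      exact ⟨L'.prod, ⟨L', h3.le.trans hL1, h4, rfl⟩, h5⟩
    refine (Set.ncard_le_ncard h1 ((hgr m).1.image _)).trans ?_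
    exact (Set.ncard_image_le (hgr m).1).trans (hgr m).2
  obtain ⟨A, hA, ⟨Md⟩⟩ := exists_mod η hη hA0f hcl hgr' (F1 ∪ hF.toFinset)
  rw [Finset.coe_union, Set.Finite.coe_toFinset] at hA
  have hFA : F ⊆ A := fun x hx => hA (Or.inr hx)
  refine ⟨A, fun x hx => hA (Or.inl hx), ⟨by rw [D.hgt_comp]; exact Md⟩, ?_⟩
  obtain ⟨M1, q1, q2, q3, q4⟩ := D.qi hF hgen h0 hC hFC
  obtain ⟨M2, hM2⟩ := (Md.fin.image fun a => wl (D.U F) (D.inΓ a)).bddAbove
  refine ⟨M1 + M2 + 1, ?_, fun M' hM' => ⟨fun a ha => ?_, fun g => ?_⟩⟩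
  · have h1 : (0 : ℝ) ≤ M1 := Nat.cast_nonneg _
    have h2 : (0 : ℝ) ≤ M2 := Nat.cast_nonneg _
    linarith
  · have h1 : wl (D.U F) (D.inΓ a) ≤ M2 := hM2 ⟨a, ha, rfl⟩
    have h2 : (wl (D.U F) (D.inΓ a) : ℝ) ≤ M2 := by exact_mod_cast h1
    have h3 : (0 : ℝ) ≤ M1 := Nat.cast_nonneg _
    linarith
  · obtain ⟨L, e1, e2, e3⟩ := wl_list hgen g
    refine ⟨L, ?_, fun a ha => ?_, e3⟩
    · rw [e1]
      refine (q1 g).trans ?_
      have h1 : ((M1 * (wl (D.U F) (D.inΓ g) + 1) : ℕ) : ℝ) ≤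
          ⌈M' * (wl (D.U F) (D.inΓ g) + 1)⌉₊ := by
        refine le_trans ?_ (Nat.le_ceil _)
        push_cast
        have h2 : (0 : ℝ) ≤ M2 := Nat.cast_nonneg _
        refine mul_le_mul_of_nonneg_right (by linarith) (by positivity)
      exact_mod_cast h1
    · rcases e2 a ha with h | h
      · exact Or.inl (hFA h)
      · exact Or.inr (hFA h)

end inst

end Vale.Agent.P188.H615
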