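import Vale.Agent.P188.H615.NBP

/-!
Natural boxes of letters: bracket coordinates, weighted bounded generation, absorption.
-/

open Finset Filter Topology Pointwise

namespace Vale.Agent.P188.H615

open Vale.Agent.P188.H796 Vale.Agent.P188.H329

section words

variable {ι : Type} [Fintype ι] [DecidableEq ι]

/-- words of length `k` -/
def wds (ι : Type) [Fintype ι] [DecidableEq ι] : ℕ → Finset (List ι)
  | 0 => {[]}
  | k + 1 => (univ ×ˢ wds ι k).image fun p : ι × List ι => p.1 :: p.2

theorem mem_wds {k : ℕ} {w : List ι} : w ∈ wds ι k ↔ w.length = k := by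
  induction k generalizing w with
  | zero => simp [wds]
  | succ k ih =>
    rw [wds, Finset.mem_image]
    constructor
    · rintro ⟨⟨i, w'⟩, h, rfl⟩
      rw [Finset.mem_product] at h
      rw [List.length_cons, ih.1 h.2]
    · intro h
      cases w with
      | nil => simp at h
      | cons i w' =>
        refine ⟨(i, w'), ?_, rfl⟩
        rw [Finset.mem_product]
        exact ⟨mem_univ _, ih.2 (by simpa using h)⟩

theorem sum_wds_succ {M : Type*} [AddCommMonoid M] (k : ℕ) (f : List ι → M) :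
    ∑ w ∈ wds ι (k + 1), f w = ∑ i, ∑ w ∈ wds ι k, f (i :: w) := by
  rw [wds, Finset.sum_image, Finset.sum_product]
  rintro ⟨i, w⟩ _ ⟨i', w'⟩ _ h
  simp only [List.cons.injEq] at h
  rw [h.1, h.2]

theorem sum_UW {M : Type*} [AddCommMonoid M] (m : ℕ) (f : List ι → M) :
    ∑ u : UW ι m, f u.val = ∑ k ∈ range (m + 1), ∑ w ∈ wds ι k, f w := by
  have hdis : Set.PairwiseDisjoint (↑(range (m + 1))) (wds ι) := by
    intro i _ j _ hij
    rw [Function.onFun, Finset.disjoint_left]
    intro w hw hw'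
    exact hij ((mem_wds.1 hw).symm.trans (mem_wds.1 hw'))
  rw [← Finset.sum_biUnion hdis]
  refine Finset.sum_bij (fun u _ => u.val) ?_ ?_ ?_ ?_
  · intro u _
    rw [Finset.mem_biUnion]
    exact ⟨u.val.length, mem_range.2 (Nat.lt_succ_of_le u.prop), mem_wds.2 rfl⟩
  · intro u _ u' _ h
    exact UW.ext h
  · intro w hw
    rw [Finset.mem_biUnion] at hw
    obtain ⟨k, hk, hw⟩ := hw
    refine ⟨⟨w, ?_⟩, mem_univ _, rfl⟩
    rw [mem_wds.1 hw]
    exact Nat.le_of_lt_succ (mem_range.1 hk)
  · intro u _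
    rfl

end words

section coord

variable {N : Type} [Group N] {d n : ℕ} {D : MB N d n} {A : Type} [NormedRing A]
  [NormedAlgebra ℝ A] [FiniteDimensional ℝ A] {R : RD D A} {ι : Type} [Fintype ι] [DecidableEq ι]

/-- bracket coordinates of the layers -/
theorem nbk_coord (X : ι → R.V) (r : ι → ℝ) (j : ℕ) : ∀ v ∈ nbk (LB X r) j,
    ∃ y : List ι → ℝ, (∀ w, |y w| ≤ 1) ∧
      (v : A) = ∑ w ∈ wds ι (j + 1), y w • br (fun i => ((r i • X i : R.V) : A)) w := by
  set e : ι → A := fun i => ((r i • X i : R.V) : A) with he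
  induction j with
  | zero =>
    rintro _ ⟨y, hy, rfl⟩
    refine ⟨fun w => match w with | [i] => y i | _ => 0, ?_, ?_⟩
    · intro w
      cases w with
      | nil => simp
      | cons i w =>
        cases w with
        | nil => exact hy i
        | cons j w => simp
    · rw [zero_add, sum_wds_succ, Submodule.coe_sum]
      refine sum_congr rfl fun i _ => ?_
      simp only [wds, sum_singleton, br]
      rfl
  | succ j ih =>
    intro v hv
    have hconv : Convex ℝ {v : R.V | ∃ y : List ι → ℝ, (∀ w, |y w| ≤ 1) ∧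
        (v : A) = ∑ w ∈ wds ι (j + 1 + 1), y w • br e w} := by
      rintro v ⟨y, hy, hv⟩ v' ⟨y', hy', hv'⟩ a b ha hb hab
      refine ⟨fun w => a * y w + b * y' w, fun w => ?_, ?_⟩
      · refine (abs_add_le _ _).trans ?_
        rw [abs_mul, abs_mul, abs_of_nonneg ha, abs_of_nonneg hb]
        have := hy w
        have := hy' w
        nlinarith
      · rw [Submodule.coe_add, Submodule.coe_smul, Submodule.coe_smul, hv, hv', smul_sum,
          smul_sum, ← sum_add_distrib]
        exact sum_congr rfl fun w _ => by rw [add_smul, mul_smul, mul_smul]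
    refine convexHull_min ?_ hconv hv
    rintro _ ⟨a, ⟨x, hx, rfl⟩, b, hb, rfl⟩
    obtain ⟨y, hy, hb⟩ := ih b hb
    refine ⟨fun w => match w with | i :: w => x i * y w | [] => 0, ?_, ?_⟩
    · intro w
      cases w with
      | nil => simp
      | cons i w =>
        change |x i * y w| ≤ 1
        rw [abs_mul]
        exact mul_le_one₀ (hx i) (abs_nonneg _) (hy w)
    · rw [sum_wds_succ, R.coe_bracket, hb, Submodule.coe_sum, Finset.sum_mul, Finset.mul_sum]
      have e1 : ∀ i ∈ (univ : Finset ι), ((x i • r i • X i : R.V) : A) *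
          ∑ w ∈ wds ι (j + 1), y w • br e w = ∑ w ∈ wds ι (j + 1), (x i * y w) • (e i * br e w) := by
        intro i _
        rw [Finset.mul_sum]
        refine sum_congr rfl fun w _ => ?_
        rw [Submodule.coe_smul, smul_mul_smul_comm]
      have e2 : (∑ w ∈ wds ι (j + 1), y w • br e w) * ∑ i, ((x i • r i • X i : R.V) : A) =
          ∑ i, ∑ w ∈ wds ι (j + 1), (x i * y w) • (br e w * e i) := by
        rw [Finset.mul_sum]
        refine sum_congr rfl fun i _ => ?_
        rw [Finset.sum_mul]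
        refine sum_congr rfl fun w _ => ?_
        rw [Submodule.coe_smul, smul_mul_smul_comm, mul_comm (y w)]
      have e3 : (∑ i, ((x i • r i • X i : R.V) : A) * ∑ w ∈ wds ι (j + 1), y w • br e w) -
          (∑ w ∈ wds ι (j + 1), y w • br e w) * ∑ i, ((x i • r i • X i : R.V) : A) =
          ∑ i, ∑ w ∈ wds ι (j + 1), (x i * y w) • br e (i :: w) := by
        rw [e2, sum_congr rfl e1, ← sum_sub_distrib]
        refine sum_congr rfl fun i _ => ?_
        rw [← sum_sub_distrib]
        refine sum_congr rfl fun w hw => ?_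
        rw [← smul_sub]
        congr 1
        cases w with
        | nil => simp [mem_wds] at hw
        | cons k w => rfl
      rw [Finset.mul_sum] at e3
      exact e3

/-- bracket coordinates of the box -/
theorem nb_coord (X : ι → R.V) (r : ι → ℝ) {v : R.V} (hv : v ∈ nb (LB X r)) :
    ∃ y : UW ι R.m → ℝ, (∀ u, |y u| ≤ 1) ∧
      ∑ u : UW ι R.m, y u • br (fun i => ((r i • X i : R.V) : A)) u.val = (v : A) := by
  set e : ι → A := fun i => ((r i • X i : R.V) : A) with he
  obtain ⟨x, hx, rfl⟩ := hv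
  choose y hy hxy using fun i : Fin R.m => nbk_coord X r i (x i) (hx i)
  let Y : List ι → ℝ := fun w => if h : w.length - 1 < R.m then y ⟨w.length - 1, h⟩ w else 0
  have hY : ∀ w, |Y w| ≤ 1 := by
    intro w
    simp only [Y]
    split_ifs with h
    · exact hy _ w
    · simp
  refine ⟨fun u => Y u.val, fun u => hY u.val, ?_⟩
  rw [sum_UW R.m (fun w => Y w • br e w), sum_range_succ']
  have h0 : ∑ w ∈ wds ι 0, Y w • br e w = 0 := by
    simp [wds, br]
  rw [h0, add_zero, Submodule.coe_sum, Finset.sum_range]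
  refine sum_congr rfl fun i _ => ?_
  rw [hxy i]
  refine sum_congr rfl fun w hw => ?_
  have h1 : w.length = (i : ℕ) + 1 := mem_wds.1 hw
  congr 1
  have h2 : w.length - 1 < R.m := by rw [h1]; simp
  simp only [Y, dif_pos h2]
  congr 1
  have h3 : (⟨w.length - 1, h2⟩ : Fin R.m) = i := Fin.ext (by simp [h1])
  rw [h3]

/-- **weighted bounded generation** -/
theorem genW (ι : Type) [Fintype ι] (m : ℕ) : ∃ (p : ℕ) (J : Fin p → ι) (C : ℝ), 1 ≤ C ∧
    ∀ {N : Type} [Group N] {d n : ℕ} {D : MB N d n} {A : Type} [NormedRing A] [NormedAlgebra ℝ A]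
      [FiniteDimensional ℝ A] {R : RD D A} (_ : R.m = m) (X : ι → R.V) (r : ι → ℝ),
      (∀ i, 0 ≤ r i) → ∀ u : R.NR, R.Lo u ∈ nb (LB X r) → ∃ x : Fin p → ℝ,
        (∀ t, |x t| ≤ C * r (J t)) ∧ u = (List.ofFn fun t => R.Ex (x t • X (J t))).prod := by
  classical
  obtain ⟨p, J, K, x, _, hx, hgen⟩ := gen ι m
  refine ⟨p, J, K * (1 + 1) ^ K + 1, by
    have : (0 : ℝ) ≤ K * (1 + 1) ^ K := by positivity
    linarith, ?_⟩
  intro N _ d n D A _ _ _ R hm X r hr u hu
  subst hm
  obtain ⟨y, hy, hyu⟩ := nb_coord X r hu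
  have hyn : ‖y‖ ≤ 1 := by
    rw [pi_norm_le_iff_of_nonneg zero_le_one]
    exact fun u => hy u
  have h1 := hgen A (fun i => ((r i • X i : R.V) : A)) (nil_V fun i => r i • X i) y
  rw [hyu, rexp_V, R.Ex_Lo] at h1
  refine ⟨fun t => x y t * r (J t), fun t => ?_, ?_⟩
  · rw [abs_mul, abs_of_nonneg (hr _)]
    refine mul_le_mul_of_nonneg_right ?_ (hr _)
    refine (hx y t).trans ?_
    have h2 : (1 + ‖y‖) ^ K ≤ (1 + 1) ^ K := pow_le_pow_left₀ (by positivity) (by linarith) K
    have h3 : (K : ℝ) * (1 + ‖y‖) ^ K ≤ K * (1 + 1) ^ K :=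
      mul_le_mul_of_nonneg_left h2 (Nat.cast_nonneg K)
    linarith
  · apply R.toA_inj
    rw [h1, prS, map_list_prod]
    have h2 := map_list_prod (Units.coeHom A)
      (List.ofFn fun t => xu (nil_V fun i => r i • X i) (J t) (x y t))
    rw [Units.coeHom_apply] at h2
    rw [h2, List.map_ofFn, List.map_ofFn]
    congr 2
    funext t
    have h3 := xu_V (fun i => r i • X i) (J t) (x y t)
    simp only [Function.comp_apply]
    rw [Units.coeHom_apply, h3, smul_smul]

/-! ### brackets of letters inside boxes -/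

/-- iterated bracket in `V` -/
noncomputable def brV (X : ι → R.V) : List ι → R.V
  | [] => 0
  | [i] => X i
  | i :: j :: w => ⁅X i, brV X (j :: w)⁆

omit [Fintype ι] [DecidableEq ι] in
theorem coe_brV (X : ι → R.V) (w : List ι) : ((brV X w : R.V) : A) = br (fun i => (X i : A)) w := by
  induction w with
  | nil => rfl
  | cons i w ih =>
    cases w with
    | nil => rfl
    | cons j w =>
      rw [brV, R.coe_bracket, ih]
      rfl

theorem brV_mem (X : ι → R.V) {r : ι → ℝ} (hr : ∀ i, 0 ≤ r i) : ∀ (w : List ι) (_ : w ≠ []),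
    (w.map r).prod • brV X w ∈ nbk (LB X r) (w.length - 1) := by
  intro w
  induction w with
  | nil => intro h; exact absurd rfl h
  | cons i w ih =>
    intro _
    have hi : r i • X i ∈ LB X r :=
      letter_LB X hr (by rw [abs_of_nonneg (hr i)])
    cases w with
    | nil =>
      have h1 : brV X [i] = X i := rfl
      rw [h1, List.map_cons, List.map_nil, List.prod_cons, List.prod_nil, mul_one]
      exact hi
    | cons j w =>
      have h1 := ih (by simp)
      have h2 := lie_mem_nbk hi h1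
      have h3 : ((i :: j :: w).map r).prod • brV X (i :: j :: w) =
          ⁅r i • X i, ((j :: w).map r).prod • brV X (j :: w)⁆ := by
        rw [brV, smul_lie, lie_smul, smul_smul, List.map_cons, List.prod_cons]
      rw [h3]
      exact h2

theorem brV_mem_nb (X : ι → R.V) {r : ι → ℝ} (hr : ∀ i, 0 ≤ r i) (w : List ι) :
    (w.map r).prod • brV X w ∈ nb (LB X r) := by
  rcases eq_or_ne w [] with rfl | hw
  · have : brV X ([] : List ι) = 0 := rfl
    rw [this, smul_zero]
    exact (csy_nb (csy_LB X r)).zero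
  · have h1 := brV_mem X hr w hw
    by_cases hlen : w.length - 1 < R.m
    · exact nbk_sub_nb (csy_LB X r) ⟨w.length - 1, hlen⟩ h1
    · rw [nbk_eq_zero (by omega) h1]
      exact (csy_nb (csy_LB X r)).zero

/-- absorption: the boxes of a generating set of letters contain large balls -/
theorem absorb (X : ι → R.V) (W : Submodule ℝ R.V)
    (hW : ∀ v ∈ W, v ∈ LieSubalgebra.lieSpan ℝ R.V (Set.range X)) :
    ∃ C : ℝ, 1 ≤ C ∧ ∀ C' : ℝ, C ≤ C' → ∀ v ∈ W,
      v ∈ nb (LB X fun _ => C' * (1 + ‖(v : A)‖)) := by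
  set e : ι → A := fun i => (X i : A) with he
  let T : (UW ι R.m → ℝ) →ₗ[ℝ] A :=
    ∑ w : UW ι R.m, (LinearMap.proj w : (UW ι R.m → ℝ) →ₗ[ℝ] ℝ).smulRight (br e w.val)
  have hT : ∀ y, T y = ∑ w : UW ι R.m, y w • br e w.val := by
    intro y
    simp only [T, LinearMap.sum_apply, LinearMap.smulRight_apply, LinearMap.proj_apply]
  obtain ⟨g, hg⟩ := LinearMap.exists_rightInverse_of_surjective T.rangeRestrict
    (LinearMap.range_eq_top.2 T.surjective_rangeRestrict)
  obtain ⟨G, hG⟩ := LinearMap.exists_extend g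
  set c : ℝ := ‖LinearMap.toContinuousLinearMap G‖ with hc
  have hc0 : 0 ≤ c := norm_nonneg _
  set n0 : ℝ := ((Fintype.card (UW ι R.m) : ℕ) : ℝ) with hn0
  have hn00 : 0 ≤ n0 := Nat.cast_nonneg _
  refine ⟨1 + n0 * c, by nlinarith, fun C' hC' v hv => ?_⟩
  obtain ⟨y0, hy0⟩ := lieSpan_le_br X (hW v hv)
  have hvr : (v : A) ∈ LinearMap.range T := ⟨y0, by rw [hT, hy0]⟩
  have hTG : T (G (v : A)) = (v : A) := by
    have h1 : G (v : A) = g ⟨(v : A), hvr⟩ := by rw [← hG]; rfl
    have h2 := LinearMap.congr_fun hg ⟨(v : A), hvr⟩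
    have h3 : T (g ⟨(v : A), hvr⟩) = (v : A) := congrArg Subtype.val h2
    rw [h1, h3]
  set y := G (v : A) with hy
  have hyn : ∀ u, |y u| ≤ c * ‖(v : A)‖ := by
    intro u
    have h1 := (LinearMap.toContinuousLinearMap G).le_opNorm (v : A)
    have h2 : (LinearMap.toContinuousLinearMap G) (v : A) = y := rfl
    rw [h2] at h1
    exact (norm_le_pi_norm y u).trans h1
  set ρ : ℝ := C' * (1 + ‖(v : A)‖) with hρ
  have hv0 : 0 ≤ ‖(v : A)‖ := norm_nonneg _
  have hC'1 : 1 ≤ C' := by nlinarith
  have hρ1 : 1 ≤ ρ := by nlinarith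
  have hρ0 : 0 < ρ := by linarith
  have hsum : v = ∑ u : UW ι R.m, y u • brV X u.val := by
    apply Subtype.ext
    rw [Submodule.coe_sum, ← hTG, hT]
    exact sum_congr rfl fun u _ => by rw [Submodule.coe_smul, coe_brV]
  have hcs := csy_nb (csy_LB X fun _ => ρ)
  have hterm : ∀ u ∈ (univ : Finset (UW ι R.m)),
      y u • brV X u.val ∈ ((c * ‖(v : A)‖) / ρ) • nb (LB X fun _ => ρ) := by
    intro u _
    have h1 := brV_mem_nb X (r := fun _ => ρ) (fun _ => hρ0.le) u.val
    rw [List.map_const', List.prod_replicate] at h1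
    rcases eq_or_ne u.val [] with hu | hu
    · have : brV X u.val = 0 := by rw [hu]; rfl
      rw [this, smul_zero]
      exact ⟨0, hcs.zero, by simp⟩
    · have hlen : 1 ≤ u.val.length := List.length_pos_iff.2 hu
      have hp : 0 < ρ ^ u.val.length := by positivity
      set t : ℝ := y u / ρ ^ u.val.length with ht
      have h2 : y u • brV X u.val = t • (ρ ^ u.val.length • brV X u.val) := by
        rw [smul_smul, ht, div_mul_cancel₀ _ hp.ne']
      have h3 : |t| ≤ (c * ‖(v : A)‖) / ρ := by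
        rw [ht, abs_div, abs_of_pos hp]
        refine div_le_div₀ (by positivity) (hyn u) hρ0 ?_
        calc ρ = ρ ^ 1 := (pow_one ρ).symm
          _ ≤ ρ ^ u.val.length := pow_le_pow_right₀ hρ1 hlen
      rw [h2]
      rcases le_total 0 t with h0 | h0
      · rw [abs_of_nonneg h0] at h3
        exact hcs.mem_mono h0 h3 ⟨_, h1, rfl⟩
      · rw [abs_of_nonpos h0] at h3
        refine hcs.mem_mono (a := -t) (by linarith) h3 ⟨-(ρ ^ u.val.length • brV X u.val),
          hcs.neg _ h1, ?_⟩
        simp only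
        rw [neg_smul, smul_neg, neg_neg]
  have h1 := hcs.mem_sum (univ : Finset (UW ι R.m)) (fun _ => (c * ‖(v : A)‖) / ρ) _
    (fun _ _ => by positivity) hterm
  rw [← hsum, sum_const, nsmul_eq_mul, card_univ] at h1
  have h2 : (Fintype.card (UW ι R.m) : ℝ) * ((c * ‖(v : A)‖) / ρ) ≤ 1 := by
    rw [← hn0, ← mul_div_assoc, div_le_one hρ0, hρ]
    nlinarith [mul_nonneg hn00 hc0]
  have h3 := hcs.mem_mono (by positivity) h2 h1
  rwa [one_smul] at h3

end coord

end Vale.Agent.P188.H615
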