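import Vale.Agent.P188.H615.InstD
import Vale.Agent.P188.H615.NBW

/-!
Letters: bases of the weight spaces, scaled to norm at most one.
-/

open Finset Filter Topology Pointwise

namespace Vale.Agent.P188.H615

open Vale.Agent.P188.H796

section letters

variable {V : Type} [AddCommGroup V] [Module ℝ V] [FiniteDimensional ℝ V]

/-- **letters for a finite family of subspaces**: each subspace is spanned by its letters -/
theorem exists_letters {W : Type} (nm : Seminorm ℝ V) (Φ : Finset W) (Vw : W → Submodule ℝ V) :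
    ∃ (ι : Type) (_ : Fintype ι) (X : ι → V) (wt : ι → W),
      (∀ i, wt i ∈ Φ) ∧ (∀ i, X i ∈ Vw (wt i)) ∧ (∀ i, nm (X i) ≤ 1) ∧
      (∀ b ∈ Φ, ∃ i, wt i = b) ∧
      ∀ b ∈ Φ, Vw b ≤ Submodule.span ℝ (X '' {i | wt i = b}) := by
  classical
  let ι : Type := Σ b : {b // b ∈ Φ}, Option (Fin (Module.finrank ℝ (Vw (b : W))))
  let bs : ∀ b : W, Module.Basis (Fin (Module.finrank ℝ (Vw b))) ℝ (Vw b) :=
    fun b => Module.finBasis ℝ (Vw b)
  let X : ι → V := fun i => match i with
    | ⟨b, some j⟩ => (1 + nm (bs b j : V))⁻¹ • (bs b j : V)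
    | ⟨_, none⟩ => 0
  refine ⟨ι, inferInstance, X, fun i => (i.1 : W), fun i => i.1.2, ?_, ?_, ?_, ?_⟩
  · rintro ⟨b, _ | j⟩
    · exact Submodule.zero_mem _
    · exact Submodule.smul_mem _ _ (bs b j).2
  · rintro ⟨b, _ | j⟩
    · change nm 0 ≤ 1
      rw [map_zero]; exact zero_le_one
    · change nm ((1 + nm (bs b j : V))⁻¹ • (bs b j : V)) ≤ 1
      have h0 : 0 ≤ nm (bs b j : V) := apply_nonneg _ _
      rw [map_smul_eq_mul, norm_inv, Real.norm_of_nonneg (by linarith), inv_mul_le_iff₀ (by linarith)]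
      linarith
  · intro b hb
    exact ⟨⟨⟨b, hb⟩, none⟩, rfl⟩
  · intro b hb v hv
    have h1 : v = ∑ j, ((bs b).repr ⟨v, hv⟩ j) • (bs b j : V) := by
      have := congrArg Subtype.val ((bs b).sum_repr ⟨v, hv⟩)
      rw [Submodule.coe_sum] at this
      exact this.symm
    rw [h1]
    refine Submodule.sum_mem _ fun j _ => Submodule.smul_mem _ _ ?_
    have h0 : 0 ≤ nm (bs b j : V) := apply_nonneg _ _
    have h2 : (bs b j : V) = (1 + nm (bs b j : V)) • X ⟨⟨b, hb⟩, some j⟩ := by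
      change (bs b j : V) = (1 + nm (bs b j : V)) • ((1 + nm (bs b j : V))⁻¹ • (bs b j : V))
      rw [smul_inv_smul₀ (by linarith)]
    rw [h2]
    exact Submodule.smul_mem _ _ (Submodule.subset_span ⟨⟨⟨b, hb⟩, some j⟩, rfl, rfl⟩)

end letters

section lie

variable {V : Type} [LieRing V] [LieAlgebra ℝ V] {ι : Type} {W : Type} {X : ι → V} {wt : ι → W}
  {Vw : W → Submodule ℝ V}

/-- the letters of a set of weights generate the Lie algebra generated by the weight spaces -/
theorem mem_lieSpan_letters (p : W → Prop)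
    (hsp : ∀ b, p b → Vw b ≤ Submodule.span ℝ (X '' {i | wt i = b})) {v : V}
    (hv : v ∈ LieSubalgebra.lieSpan ℝ V {x | ∃ b, p b ∧ x ∈ Vw b}) :
    v ∈ LieSubalgebra.lieSpan ℝ V (X '' {i | p (wt i)}) := by
  refine (LieSubalgebra.lieSpan_le.2 ?_) hv
  rintro x ⟨b, hb, hx⟩
  have h1 := hsp b hb hx
  have h2 : X '' {i | wt i = b} ⊆
      ((LieSubalgebra.lieSpan ℝ V (X '' {i | p (wt i)})).toSubmodule : Set V) := by
    rintro _ ⟨i, hi, rfl⟩
    have hi' : wt i = b := hi
    exact LieSubalgebra.subset_lieSpan ⟨i, by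
      change p (wt i)
      rw [hi']; exact hb, rfl⟩
  exact Submodule.span_le.2 h2 h1

end lie

end Vale.Agent.P188.H615
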