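import Vale.Agent.P188.H615.BchV

/-!
Logarithmic length bound on the exponential of a Lie subalgebra generated by short letters.
-/

open Finset Filter Topology Pointwise

universe u v

namespace Vale.Agent.P188.H615

open Vale.Agent.P188.H796

/-- `f = O(1 + L)` -/
def OL {T : Type*} (L f : T → ℝ) : Prop := ∃ C : ℝ, 0 ≤ C ∧ ∀ t, f t ≤ C * (1 + L t)

namespace OL

variable {T : Type*} {L f g : T → ℝ}

theorem const (hL : ∀ t, 0 ≤ L t) (c : ℝ) : OL L (fun _ => c) :=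
  ⟨|c|, abs_nonneg _, fun t => by
    have h1 := le_abs_self c
    have h2 := abs_nonneg c
    nlinarith [hL t]⟩

theorem self : OL L L := ⟨1, zero_le_one, fun t => by linarith⟩

theorem add (hf : OL L f) (hg : OL L g) : OL L (fun t => f t + g t) := by
  obtain ⟨C, hC, h⟩ := hf
  obtain ⟨C', hC', h'⟩ := hg
  exact ⟨C + C', by positivity, fun t => by have := h t; have := h' t; linarith⟩

theorem mul_const (hf : OL L f) {c : ℝ} (hc : 0 ≤ c) : OL L (fun t => c * f t) := by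
  obtain ⟨C, hC, h⟩ := hf
  exact ⟨c * C, by positivity, fun t => by
    have := mul_le_mul_of_nonneg_left (h t) hc
    linarith⟩

theorem mono (hf : OL L f) (h : ∀ t, g t ≤ f t) : OL L g := by
  obtain ⟨C, hC, h'⟩ := hf
  exact ⟨C, hC, fun t => (h t).trans (h' t)⟩

theorem comp {T' : Type*} (hf : OL L f) (φ : T' → T) : OL (fun t => L (φ t)) (fun t => f (φ t)) := by
  obtain ⟨C, hC, h⟩ := hf
  exact ⟨C, hC, fun t => h _⟩

theorem trans {L' : T → ℝ} (hL' : ∀ t, 0 ≤ L' t) (hf : OL L f) (hL : OL L' L) : OL L' f := by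
  obtain ⟨C, hC, h⟩ := hf
  obtain ⟨C', hC', h'⟩ := hL
  refine ⟨C * (1 + C'), by positivity, fun t => (h t).trans ?_⟩
  rw [mul_assoc]
  refine mul_le_mul_of_nonneg_left ?_ hC
  have := h' t
  have := hL' t
  nlinarith

theorem sum (hL : ∀ t, 0 ≤ L t) {ι : Type*} (s : Finset ι) {F : ι → T → ℝ}
    (h : ∀ i ∈ s, OL L (F i)) :
    OL L (fun t => ∑ i ∈ s, F i t) := by
  classical
  induction s using Finset.induction_on with
  | empty => simpa using const hL 0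
  | insert i s hi ih =>
    have := (h i (mem_insert_self i s)).add (ih fun j hj => h j (mem_insert_of_mem hj))
    refine this.mono fun t => ?_
    rw [sum_insert hi]

end OL

theorem log_one_add_nonneg {a : ℝ} (ha : 0 ≤ a) : 0 ≤ Real.log (1 + a) :=
  Real.log_nonneg (by linarith)

theorem log_mul_le {a C : ℝ} (ha : 0 ≤ a) (hC : 0 ≤ C) :
    Real.log (1 + C * a) ≤ Real.log (1 + C) + Real.log (1 + a) := by
  rw [← Real.log_mul (by positivity) (by positivity)]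
  refine Real.log_le_log (by positivity) ?_
  nlinarith

section norms

variable {A : Type v} [NormedRing A] [NormedAlgebra ℝ A]

theorem norm_pow_le_aux (v : A) {k m : ℕ} (hk : k ≤ m) {b : ℝ} (hb : ‖v‖ ≤ b) :
    ‖v ^ k‖ ≤ (1 + ‖(1 : A)‖) * (1 + b) ^ m := by
  have hb0 : 0 ≤ b := (norm_nonneg v).trans hb
  have h1 : (1 : ℝ) ≤ (1 + b) := by linarith
  have h2 : ‖v ^ k‖ ≤ (1 + ‖(1 : A)‖) * (1 + b) ^ k := by
    rcases Nat.eq_zero_or_pos k with rfl | hk
    · rw [pow_zero, pow_zero, mul_one]; linarith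
    · have h3 := norm_pow_le' v hk
      have h4 : ‖v‖ ^ k ≤ (1 + b) ^ k := by gcongr; linarith
      have h5 : 0 ≤ (1 + b) ^ k := by positivity
      nlinarith [norm_nonneg (1 : A)]
  refine h2.trans ?_
  gcongr

theorem norm_ex_le (m : ℕ) : ∃ C : ℝ, 1 ≤ C ∧ ∀ v : A, ‖ex m v‖ ≤ C * (1 + ‖v‖) ^ m := by
  refine ⟨1 + ∑ k ∈ range m, (k.factorial : ℝ)⁻¹ * (1 + ‖(1 : A)‖), ?_, fun v => ?_⟩
  · have : 0 ≤ ∑ k ∈ range m, (k.factorial : ℝ)⁻¹ * (1 + ‖(1 : A)‖) := by positivity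
    linarith
  · have h1 : ‖ex m v‖ ≤ ∑ k ∈ range m, (k.factorial : ℝ)⁻¹ * ((1 + ‖(1 : A)‖) * (1 + ‖v‖) ^ m) := by
      unfold ex
      refine (norm_sum_le _ _).trans (sum_le_sum fun k hk => ?_)
      rw [norm_smul, Real.norm_of_nonneg (by positivity)]
      exact mul_le_mul_of_nonneg_left (norm_pow_le_aux v (mem_range.1 hk).le le_rfl) (by positivity)
    have h2 : 0 ≤ 1 * (1 + ‖v‖) ^ m := by positivity
    have h3 : ∑ k ∈ range m, (k.factorial : ℝ)⁻¹ * ((1 + ‖(1 : A)‖) * (1 + ‖v‖) ^ m) =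
        (∑ k ∈ range m, (k.factorial : ℝ)⁻¹ * (1 + ‖(1 : A)‖)) * (1 + ‖v‖) ^ m := by
      rw [sum_mul]; exact sum_congr rfl fun k _ => by ring
    rw [h3] at h1
    linarith

theorem norm_lg_le (m : ℕ) : ∃ C : ℝ, 1 ≤ C ∧ ∀ v : A, ‖lg m v‖ ≤ C * (1 + ‖v‖) ^ m := by
  refine ⟨1 + (∑ k ∈ range m, |be k| * (1 + ‖(1 : A)‖)) * (1 + ‖(1 : A)‖) ^ m, ?_, fun v => ?_⟩
  · have : 0 ≤ (∑ k ∈ range m, |be k| * (1 + ‖(1 : A)‖)) * (1 + ‖(1 : A)‖) ^ m := by positivity
    linarith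
  · have hn : ‖v - 1‖ ≤ ‖v‖ + ‖(1 : A)‖ := norm_sub_le _ _
    have h1 : ‖lg m v‖ ≤ ∑ k ∈ range m, |be k| * ((1 + ‖(1 : A)‖) *
        (1 + (‖v‖ + ‖(1 : A)‖)) ^ m) := by
      unfold lg
      refine (norm_sum_le _ _).trans (sum_le_sum fun k hk => ?_)
      rw [norm_smul, Real.norm_eq_abs]
      exact mul_le_mul_of_nonneg_left (norm_pow_le_aux _ (mem_range.1 hk).le hn) (by positivity)
    have h4 : (1 + (‖v‖ + ‖(1 : A)‖)) ^ m ≤ (1 + ‖(1 : A)‖) ^ m * (1 + ‖v‖) ^ m := by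
      rw [← mul_pow]
      gcongr
      nlinarith [norm_nonneg v, norm_nonneg (1 : A)]
    have h2 : 0 ≤ 1 * (1 + ‖v‖) ^ m := by positivity
    have h5 : ∑ k ∈ range m, |be k| * ((1 + ‖(1 : A)‖) * (1 + (‖v‖ + ‖(1 : A)‖)) ^ m) =
        (∑ k ∈ range m, |be k| * (1 + ‖(1 : A)‖)) * (1 + (‖v‖ + ‖(1 : A)‖)) ^ m := by
      rw [sum_mul]; exact sum_congr rfl fun k _ => by ring
    have h6 : 0 ≤ ∑ k ∈ range m, |be k| * (1 + ‖(1 : A)‖) := by positivity
    calc ‖lg m v‖ ≤ _ := h1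
      _ = _ := h5
      _ ≤ (∑ k ∈ range m, |be k| * (1 + ‖(1 : A)‖)) * ((1 + ‖(1 : A)‖) ^ m * (1 + ‖v‖) ^ m) :=
          mul_le_mul_of_nonneg_left h4 h6
      _ ≤ _ := by linarith

/-- `log (1 + ‖ex v‖) = O(1 + log (1 + ‖v‖))` -/
theorem log_ex_le (m : ℕ) : ∃ C : ℝ, 0 ≤ C ∧ ∀ v : A,
    Real.log (1 + ‖ex m v‖) ≤ C * (1 + Real.log (1 + ‖v‖)) := by
  obtain ⟨C, hC, h⟩ := norm_ex_le (A := A) m
  refine ⟨Real.log (1 + C) + m, by have := Real.log_nonneg (show 1 ≤ 1 + C by linarith); positivity,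
    fun v => ?_⟩
  have h1 : 1 + ‖ex m v‖ ≤ (1 + C) * (1 + ‖v‖) ^ m := by
    have := one_le_pow₀ (n := m) (show (1 : ℝ) ≤ 1 + ‖v‖ by linarith [norm_nonneg v])
    linarith [h v]
  have h2 := Real.log_le_log (by positivity) h1
  rw [Real.log_mul (by positivity) (by positivity), Real.log_pow] at h2
  have h3 := log_one_add_nonneg (norm_nonneg v)
  have h4 := Real.log_nonneg (show 1 ≤ 1 + C by linarith)
  have h5 : (0 : ℝ) ≤ m := Nat.cast_nonneg m
  nlinarith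

theorem log_lg_le (m : ℕ) : ∃ C : ℝ, 0 ≤ C ∧ ∀ v : A,
    Real.log (1 + ‖lg m v‖) ≤ C * (1 + Real.log (1 + ‖v‖)) := by
  obtain ⟨C, hC, h⟩ := norm_lg_le (A := A) m
  refine ⟨Real.log (1 + C) + m, by have := Real.log_nonneg (show 1 ≤ 1 + C by linarith); positivity,
    fun v => ?_⟩
  have h1 : 1 + ‖lg m v‖ ≤ (1 + C) * (1 + ‖v‖) ^ m := by
    have := one_le_pow₀ (n := m) (show (1 : ℝ) ≤ 1 + ‖v‖ by linarith [norm_nonneg v])
    linarith [h v]
  have h2 := Real.log_le_log (by positivity) h1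
  rw [Real.log_mul (by positivity) (by positivity), Real.log_pow] at h2
  have h3 := log_one_add_nonneg (norm_nonneg v)
  have h4 := Real.log_nonneg (show 1 ≤ 1 + C by linarith)
  have h5 : (0 : ℝ) ≤ m := Nat.cast_nonneg m
  nlinarith

end norms

section lz

variable {N : Type u} [Group N] {d n : ℕ} {D : MB N d n} {A : Type v} [NormedRing A]
  [NormedAlgebra ℝ A] [FiniteDimensional ℝ A] (R : RD D A)

/-- size of a vector -/
noncomputable def lv (v : R.V) : ℝ := Real.log (1 + ‖(v : A)‖)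

/-- size of an element of the real group -/
noncomputable def lz (x : R.NR) : ℝ := lv R (R.Lo x)

theorem lv_nonneg (v : R.V) : 0 ≤ lv R v := log_one_add_nonneg (norm_nonneg _)

theorem lz_nonneg (x : R.NR) : 0 ≤ lz R x := lv_nonneg R _

theorem lz_Ex (v : R.V) : lz R (R.Ex v) = lv R v := by rw [lz, R.Lo_Ex]

theorem lz_inv (x : R.NR) : lz R x⁻¹ = lz R x := by
  rw [lz, Lo_inv, lz, lv, lv, Submodule.coe_neg, norm_neg]

theorem lz_one : lz R 1 = 0 := by
  rw [lz, Lo_one, lv, Submodule.coe_zero, norm_zero, add_zero, Real.log_one]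

theorem lz_mul : ∃ C : ℝ, 0 ≤ C ∧ ∀ x y, lz R (x * y) ≤ C * (1 + (lz R x + lz R y)) := by
  obtain ⟨C1, hC1, h1⟩ := log_ex_le (A := A) R.m
  obtain ⟨C2, hC2, h2⟩ := log_lg_le (A := A) R.m
  refine ⟨C2 * (1 + 2 * C1), by positivity, fun x y => ?_⟩
  have hx : ∀ x, Real.log (1 + ‖R.toA x‖) ≤ C1 * (1 + lz R x) := by
    intro x
    have := h1 (R.Lo x : A)
    rwa [← R.toA_Ex, R.Ex_Lo] at this
  have h3 : Real.log (1 + ‖R.toA (x * y)‖) ≤
      Real.log (1 + ‖R.toA x‖) + Real.log (1 + ‖R.toA y‖) := by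
    rw [← Real.log_mul (by positivity) (by positivity)]
    refine Real.log_le_log (by positivity) ?_
    have := norm_mul_le (R.toA x) (R.toA y)
    rw [map_mul]
    nlinarith [norm_nonneg (R.toA x), norm_nonneg (R.toA y)]
  have h4 := h2 (R.toA (x * y))
  have h5 : lz R (x * y) ≤ C2 * (1 + Real.log (1 + ‖R.toA (x * y)‖)) := h4
  refine h5.trans ?_
  have h6 : 1 + Real.log (1 + ‖R.toA (x * y)‖) ≤ (1 + 2 * C1) * (1 + (lz R x + lz R y)) := by
    have := hx x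
    have := hx y
    have := lz_nonneg R x
    have := lz_nonneg R y
    nlinarith
  calc _ ≤ C2 * ((1 + 2 * C1) * (1 + (lz R x + lz R y))) := mul_le_mul_of_nonneg_left h6 hC2
    _ = _ := by ring

variable {T : Type*} {L : T → ℝ} (hL : ∀ t, 0 ≤ L t)

include hL in
theorem OL.lz_mul {x y : T → R.NR} (hx : OL L fun t => lz R (x t)) (hy : OL L fun t => lz R (y t)) :
    OL L fun t => lz R (x t * y t) := by
  obtain ⟨C, hC, h⟩ := H615.lz_mul R
  exact (((OL.const hL 1).add (hx.add hy)).mul_const hC).mono fun t => h _ _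

theorem OL.lz_inv {x : T → R.NR} (hx : OL L fun t => lz R (x t)) :
    OL L fun t => lz R (x t)⁻¹ := hx.mono fun t => (H615.lz_inv R _).le

include hL in
theorem OL.lz_list {ι : Type*} (l : List ι) {x : ι → T → R.NR}
    (hx : ∀ i ∈ l, OL L fun t => lz R (x i t)) :
    OL L fun t => lz R (l.map fun i => x i t).prod := by
  induction l with
  | nil => simpa [lz_one] using OL.const hL 0
  | cons i l ih =>
    have := OL.lz_mul R hL (hx i (by simp)) (ih fun j hj => hx j (by simp [hj]))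
    simpa using this

theorem phi_bound (φ : R.V →ₗ[ℝ] ℝ) : ∃ C : ℝ, 0 ≤ C ∧ ∀ v, |φ v| ≤ C * ‖(v : A)‖ := by
  obtain ⟨g, hg⟩ := LinearMap.exists_extend φ
  refine ⟨‖LinearMap.toContinuousLinearMap g‖, norm_nonneg _, fun v => ?_⟩
  have h1 := (LinearMap.toContinuousLinearMap g).le_opNorm (v : A)
  have h2 : (LinearMap.toContinuousLinearMap g) (v : A) = φ v := by
    rw [← hg]; rfl
  rwa [h2, Real.norm_eq_abs] at h1

end lz

end Vale.Agent.P188.H615
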