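import Vale.Agent.P188.H615.Gam

/-!
Logarithmic length bound on `exp e`, for a Lie subalgebra `e` generated by short letters.
-/

open Finset Filter Topology Pointwise

universe u v

namespace Vale.Agent.P188.H615

open Vale.Agent.P188.H796

section metU

variable {N : Type u} [Group N] {d n : ℕ} {D : MB N d n} {A : Type v} [NormedRing A]
  [NormedAlgebra ℝ A] [FiniteDimensional ℝ A] (R : RD D A)

/-- subadditive symmetric functions -/
structure Sub (ℓ : R.NR → ℝ) : Prop where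
  nonneg : ∀ x, 0 ≤ ℓ x
  mul : ∀ x y, ℓ (x * y) ≤ ℓ x + ℓ y
  inv : ∀ x, ℓ x⁻¹ = ℓ x

variable {R}

theorem Sub.list {ℓ : R.NR → ℝ} (h : Sub R ℓ) {ι : Type*} (l : List ι) (x : ι → R.NR) :
    ℓ (l.map x).prod ≤ ℓ 1 + (l.map fun i => ℓ (x i)).sum := by
  induction l with
  | nil => simp
  | cons i l ih =>
    simp only [List.map_cons, List.prod_cons, List.sum_cons]
    have := h.mul (x i) (l.map x).prod
    linarith

/-- the size of a real number -/
noncomputable def lr (x : ℝ) : ℝ := Real.log (1 + |x|)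

theorem lr_nonneg (x : ℝ) : 0 ≤ lr x := log_one_add_nonneg (abs_nonneg x)

/-- families of short elements with tangent direction `z` modulo the next layer -/
structure Fam (ℓ : R.NR → ℝ) (e : Submodule ℝ R.V) (i : ℕ) (z : R.V) (f : ℝ → R.NR) : Prop where
  mem : z ∈ gam R e i
  tan : ∀ x, R.Lo (f x) - x • z ∈ gam R e (i + 1)
  len : OL lr fun x => ℓ (f x)
  siz : OL lr fun x => lz R (f x)

theorem OL_lv_smul (u : R.V) : OL lr fun x : ℝ => lv R (x • u) := by
  refine ((OL.const (L := lr) lr_nonneg (Real.log (1 + ‖(u : A)‖))).add OL.self).mono fun x => ?_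
  have h := log_mul_le (abs_nonneg x) (norm_nonneg (u : A))
  have h2 : lv R (x • u) = Real.log (1 + ‖(u : A)‖ * |x|) := by
    rw [lv, Submodule.coe_smul, norm_smul, Real.norm_eq_abs, mul_comm]
  rw [h2]
  exact h

theorem Fam.zero {ℓ : R.NR → ℝ} {e : Submodule ℝ R.V} {u : R.V} (hu : u ∈ e)
    (hl : OL lr fun x => ℓ (R.Ex (x • u))) : Fam ℓ e 0 u (fun x => R.Ex (x • u)) where
  mem := hu
  tan x := by rw [R.Lo_Ex, sub_self]; exact Submodule.zero_mem _
  len := hl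
  siz := (OL_lv_smul u).mono fun x => by rw [lz_Ex]

theorem Fam.Lo_mem {ℓ : R.NR → ℝ} {e : Submodule ℝ R.V} (he : ∀ x ∈ e, ∀ y ∈ e, ⁅x, y⁆ ∈ e)
    {i : ℕ} {z : R.V} {f : ℝ → R.NR} (h : Fam ℓ e i z f) (x : ℝ) : R.Lo (f x) ∈ gam R e i := by
  have h1 := Submodule.add_mem _ (gam_succ_le he i (h.tan x)) (Submodule.smul_mem _ x h.mem)
  rwa [sub_add_cancel] at h1

open scoped commutatorElement in
theorem Fam.succ {ℓ : R.NR → ℝ} (hℓ : Sub R ℓ) {e : Submodule ℝ R.V}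
    (he : ∀ x ∈ e, ∀ y ∈ e, ⁅x, y⁆ ∈ e) {i : ℕ} {z : R.V} {f : ℝ → R.NR} (h : Fam ℓ e i z f)
    {u : R.V} (hu : u ∈ e) : Fam ℓ e (i + 1) ⁅u, z⁆ (fun x => ⁅R.Ex u, f x⁆) where
  mem := lie_mem_gam hu h.mem
  tan x := by
    have h1 := Lo_comm' R (gam_le he i) (gam_succ_le he i) (gam_succ_le he (i + 1))
      (fun x hx y hy => lie_mem_gam hx hy) (fun x hx y hy => lie_mem_gam hx hy) hu
      (h.Lo_mem he x)
    rw [R.Ex_Lo] at h1
    have h2 : ⁅u, R.Lo (f x) - x • z⁆ ∈ gam R e (i + 2) := lie_mem_gam hu (h.tan x)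
    have h3 : R.Lo ⁅R.Ex u, f x⁆ - x • ⁅u, z⁆ = (R.Lo ⁅R.Ex u, f x⁆ - ⁅u, R.Lo (f x)⁆) +
        ⁅u, R.Lo (f x) - x • z⁆ := by
      rw [lie_sub, lie_smul]; abel
    rw [h3]
    exact Submodule.add_mem _ h1 h2
  len := by
    have h1 := ((OL.const (L := lr) lr_nonneg (2 * ℓ (R.Ex u))).add (h.len.mul_const
      (zero_le_two)))
    refine h1.mono fun x => ?_
    rw [commutatorElement_def]
    have e1 := hℓ.mul (R.Ex u * f x * (R.Ex u)⁻¹) (f x)⁻¹
    have e2 := hℓ.mul (R.Ex u * f x) (R.Ex u)⁻¹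
    have e3 := hℓ.mul (R.Ex u) (f x)
    rw [hℓ.inv] at e1 e2
    linarith
  siz := by
    have c : OL lr fun _ : ℝ => lz R (R.Ex u) := OL.const lr_nonneg _
    have h1 := OL.lz_mul R lr_nonneg (OL.lz_mul R lr_nonneg (OL.lz_mul R lr_nonneg c h.siz)
      (OL.lz_inv R c)) (OL.lz_inv R h.siz)
    exact h1

/-- products of elements of a layer -/
theorem Lo_list {e : Submodule ℝ R.V} (he : ∀ x ∈ e, ∀ y ∈ e, ⁅x, y⁆ ∈ e) {i : ℕ} {ι : Type*}
    (l : List ι) (x : ι → R.NR) (hx : ∀ j ∈ l, R.Lo (x j) ∈ gam R e i) :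
    R.Lo (l.map x).prod ∈ gam R e i ∧
      R.Lo (l.map x).prod - (l.map fun j => R.Lo (x j)).sum ∈ gam R e (i + 1) := by
  induction l with
  | nil =>
    simp only [List.map_nil, List.prod_nil, List.sum_nil]
    rw [Lo_one, sub_zero]
    exact ⟨Submodule.zero_mem _, Submodule.zero_mem _⟩
  | cons j l ih =>
    obtain ⟨h1, h2⟩ := ih fun k hk => hx k (List.mem_cons_of_mem _ hk)
    have h3 := hx j List.mem_cons_self
    simp only [List.map_cons, List.prod_cons, List.sum_cons]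
    have h4 := Lo_Ex_mul_Ex' R (gam_le he i) (gam_succ_le he i)
      (fun x hx y hy => lie_mem_gam hx hy) (gam_le he i h3) h1
    rw [R.Ex_Lo, R.Ex_Lo] at h4
    refine ⟨?_, ?_⟩
    · have h5 := Submodule.add_mem _ (gam_succ_le he i h4) (Submodule.add_mem _ h3 h1)
      have h6 : R.Lo (x j * (l.map x).prod) - R.Lo (x j) - R.Lo (l.map x).prod +
        (R.Lo (x j) + R.Lo (l.map x).prod) = R.Lo (x j * (l.map x).prod) := by abel
      rwa [h6] at h5
    · have h6 : R.Lo (x j * (l.map x).prod) - (R.Lo (x j) + (l.map fun j => R.Lo (x j)).sum) =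
        (R.Lo (x j * (l.map x).prod) - R.Lo (x j) - R.Lo (l.map x).prod) +
        (R.Lo (l.map x).prod - (l.map fun j => R.Lo (x j)).sum) := by abel
      rw [h6]
      exact Submodule.add_mem _ h4 h2

/-- descending induction step -/
theorem good_step {ℓ : R.NR → ℝ} (hℓ : Sub R ℓ) {e : Submodule ℝ R.V}
    (he : ∀ x ∈ e, ∀ y ∈ e, ⁅x, y⁆ ∈ e) {i : ℕ} {Z : Set R.V} (hZ : ∀ z ∈ Z, ∃ f, Fam ℓ e i z f)
    (hsp : gam R e i ≤ Submodule.span ℝ Z ⊔ gam R e (i + 1))
    (hg : OL (fun X : gam R e (i + 1) => lv R X) fun X => ℓ (R.Ex X)) :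
    OL (fun X : gam R e i => lv R X) fun X => ℓ (R.Ex X) := by
  classical
  obtain ⟨b, hbZ, hbs, hbi⟩ := exists_linearIndependent ℝ Z
  have hfin : b.Finite := hbi.setFinite
  have : Fintype b := hfin.fintype
  rw [← hbs] at hsp
  choose! f hf using hZ
  let Tc : (b → ℝ) →ₗ[ℝ] R.V := Fintype.linearCombination ℝ (fun k : b => (k : R.V))
  let T : ((b → ℝ) × gam R e (i + 1)) →ₗ[ℝ] R.V :=
    Tc.coprod (gam R e (i + 1)).subtype
  have hT : ∀ c y, T (c, y) = ∑ k : b, c k • (k : R.V) + (y : R.V) := by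
    intro c y
    simp [T, Tc, Fintype.linearCombination_apply]
  have hrange : ∀ X ∈ gam R e i, ∃ p, T p = X := by
    intro X hX
    obtain ⟨a, ha, y, hy, rfl⟩ := Submodule.mem_sup.1 (hsp hX)
    have h1 : a ∈ Submodule.span ℝ (Set.range fun k : b => (k : R.V)) := by
      rwa [Subtype.range_coe]
    rw [Submodule.mem_span_range_iff_exists_fun] at h1
    obtain ⟨c, hc⟩ := h1
    exact ⟨(c, ⟨y, hy⟩), by rw [hT, hc]⟩
  obtain ⟨g, hg2⟩ := LinearMap.exists_rightInverse_of_surjective T.rangeRestrict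
    (LinearMap.range_eq_top.2 T.surjective_rangeRestrict)
  obtain ⟨G, hG⟩ := LinearMap.exists_extend g
  have hTG : ∀ X ∈ gam R e i, T (G X) = X := by
    intro X hX
    obtain ⟨p, hp⟩ := hrange X hX
    have hXr : X ∈ LinearMap.range T := ⟨p, hp⟩
    have h1 : G X = g ⟨X, hXr⟩ := by rw [← hG]; rfl
    have h2 := LinearMap.congr_fun hg2 ⟨X, hXr⟩
    rw [h1]
    exact congrArg Subtype.val h2
  set L : gam R e i → ℝ := fun X => lv R X with hL
  have hL0 : ∀ X, 0 ≤ L X := fun X => lv_nonneg R _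
  -- coefficient functionals
  have hc : ∀ k : b, OL L fun X => lr ((G X).1 k) := by
    intro k
    obtain ⟨C, hC, h⟩ := phi_bound R ((LinearMap.proj k).comp ((LinearMap.fst ℝ _ _).comp G))
    refine ((OL.const hL0 (Real.log (1 + C))).add OL.self).mono fun X => ?_
    have h1 : |(G X).1 k| ≤ C * ‖((X : R.V) : A)‖ := h X
    refine (Real.log_le_log (by positivity) (add_le_add_right h1 1)).trans ?_
    exact log_mul_le (norm_nonneg _) hC
  set F : b → gam R e i → R.NR := fun k X => f k ((G X).1 k) with hF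
  have hFam : ∀ k : b, Fam ℓ e i k (f k) := fun k => hf k (hbZ k.2)
  have hFl : ∀ k : b, OL L fun X => ℓ (F k X) := fun k =>
    OL.trans hL0 ((hFam k).len.comp fun X : gam R e i => (G X).1 k) (hc k)
  have hFs : ∀ k : b, OL L fun X => lz R (F k X) := fun k =>
    OL.trans hL0 ((hFam k).siz.comp fun X : gam R e i => (G X).1 k) (hc k)
  set l : List b := Finset.univ.toList with hl
  set P : gam R e i → R.NR := fun X => (l.map fun k => F k X).prod with hP
  have hPs : OL L fun X => lz R (P X) := OL.lz_list R hL0 l fun k _ => hFs k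
  have hPl : OL L fun X => ℓ (P X) := by
    refine ((OL.const hL0 (ℓ 1)).add (OL.sum hL0 Finset.univ (F := fun k X => ℓ (F k X))
      fun k _ => hFl k)).mono fun X => ?_
    have h1 := hℓ.list l (fun k => F k X)
    have h2 : (l.map fun k => ℓ (F k X)).sum = ∑ k, ℓ (F k X) := by
      rw [hl, Finset.sum_map_toList]
    rw [h2] at h1
    exact h1
  set Q : gam R e i → R.NR := fun X => (P X)⁻¹ * R.Ex X with hQ
  have hXs : OL L fun X => lz R (R.Ex X) := OL.self.mono fun X => by rw [lz_Ex]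
  have hQs : OL L fun X => lz R (Q X) := OL.lz_mul R hL0 (OL.lz_inv R hPs) hXs
  have hQm : ∀ X, R.Lo (Q X) ∈ gam R e (i + 1) := by
    intro X
    obtain ⟨h1, h2⟩ := Lo_list he l (fun k => F k X) fun k _ => (hFam k).Lo_mem he _
    have h3 : (l.map fun k => R.Lo (F k X)).sum = ∑ k, R.Lo (F k X) := by
      rw [hl, Finset.sum_map_toList]
    rw [h3] at h2
    have h4 : ∑ k : b, R.Lo (F k X) - ∑ k : b, (G X).1 k • (k : R.V) ∈ gam R e (i + 1) := by
      rw [← sum_sub_distrib]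
      exact Submodule.sum_mem _ fun k _ => (hFam k).tan _
    have h5 : (X : R.V) = ∑ k : b, (G X).1 k • (k : R.V) + ((G X).2 : R.V) := by
      rw [← hT, Prod.mk.eta, hTG X X.2]
    have h6 := Lo_Ex_mul_Ex' R (gam_le he i) (gam_succ_le he i)
      (fun x hx y hy => lie_mem_gam hx hy) (v := R.Lo (P X)⁻¹) (w := X)
      (by rw [Lo_inv]; exact e.neg_mem (gam_le he i h1)) X.2
    rw [R.Ex_Lo, Lo_inv] at h6
    have h7 : R.Lo (Q X) = (R.Lo (Q X) - -R.Lo (P X) - (X : R.V)) - (R.Lo (P X) -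
      ∑ k : b, R.Lo (F k X)) - (∑ k : b, R.Lo (F k X) - ∑ k : b, (G X).1 k • (k : R.V)) +
      ((G X).2 : R.V) := by
      have h8 : ((G X).2 : R.V) = (X : R.V) - ∑ k : b, (G X).1 k • (k : R.V) := by
        rw [eq_sub_iff_add_eq, add_comm]; exact h5.symm
      rw [h8]
      abel
    rw [h7]
    exact Submodule.add_mem _ (Submodule.sub_mem _ (Submodule.sub_mem _ h6 h2) h4) (G X).2.2
  have hQl : OL L fun X => ℓ (Q X) := by
    have h1 := OL.trans hL0 (hg.comp fun X : gam R e i => ⟨R.Lo (Q X), hQm X⟩) hQs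
    refine h1.mono fun X => ?_
    rw [R.Ex_Lo]
  refine (hPl.add hQl).mono fun X => ?_
  have h1 := hℓ.mul (P X) (Q X)
  have h2 : P X * Q X = R.Ex X := mul_inv_cancel_left _ _
  rwa [h2] at h1

/-- **logarithmic length bound** -/
theorem metU {ℓ : R.NR → ℝ} (hℓ : Sub R ℓ) {e : Submodule ℝ R.V}
    (he : ∀ x ∈ e, ∀ y ∈ e, ⁅x, y⁆ ∈ e) {Cv : Set R.V}
    (hCv : ∀ x, x ∈ LieSubalgebra.lieSpan ℝ R.V Cv ↔ x ∈ e)
    (hl : ∀ u ∈ Cv, OL lr fun x : ℝ => ℓ (R.Ex (x • u))) :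
    ∃ C : ℝ, 0 ≤ C ∧ ∀ X ∈ e, ℓ (R.Ex X) ≤ C * (1 + Real.log (1 + ‖(X : A)‖)) := by
  have hC : Cv ⊆ e := fun x hx => (hCv x).1 (LieSubalgebra.subset_lieSpan hx)
  have h0 := le_span_sup he hCv
  -- families in all layers
  have key : ∀ i, ∃ Z : Set R.V, (∀ z ∈ Z, ∃ f, Fam ℓ e i z f) ∧
      gam R e i ≤ Submodule.span ℝ Z ⊔ gam R e (i + 1) := by
    intro i
    induction i with
    | zero => exact ⟨Cv, fun u hu => ⟨_, Fam.zero (hC hu) (hl u hu)⟩, h0⟩
    | succ i ih =>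
      obtain ⟨Z, hZ, hsp⟩ := ih
      refine ⟨{z | ∃ u ∈ Cv, ∃ y ∈ Z, ⁅u, y⁆ = z}, ?_, gam_step hC h0 hsp⟩
      rintro _ ⟨u, hu, y, hy, rfl⟩
      obtain ⟨f, hf⟩ := hZ y hy
      exact ⟨_, hf.succ hℓ he (hC hu)⟩
  have good : ∀ k i, R.m ≤ i + 1 + k → OL (fun X : gam R e i => lv R X) fun X => ℓ (R.Ex X) := by
    intro k
    induction k with
    | zero =>
      intro i hi
      refine (OL.const (fun X => lv_nonneg R _) (ℓ 1)).mono fun X => ?_
      have h1 : (X : R.V) = 0 :=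
        (Submodule.mem_bot ℝ).1 ((gam_eq_bot (e := e) (i := i) (by omega)).le X.2)
      rw [h1, R.Ex_zero]
    | succ k ih =>
      intro i hi
      obtain ⟨Z, hZ, hsp⟩ := key i
      exact good_step hℓ he hZ hsp (ih (i + 1) (by omega))
  obtain ⟨C, hC0, h⟩ := good R.m 0 (by omega)
  exact ⟨C, hC0, fun X hX => h ⟨X, hX⟩⟩

end metU

end Vale.Agent.P188.H615
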