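import Vale.Agent.P188.H615.NetE

/-!
Natural boxes: the bracket closure of a convex symmetric set of generators.
-/

open Finset Filter Topology Pointwise

universe u v

namespace Vale.Agent.P188.H615

open Vale.Agent.P188.H796

section nb

variable {N : Type u} [Group N] {d n : ℕ} {D : MB N d n} {A : Type v} [NormedRing A]
  [NormedAlgebra ℝ A] [FiniteDimensional ℝ A] {R : RD D A}

/-- convex symmetric sets -/
structure CSy (G : Set R.V) : Prop where
  conv : Convex ℝ G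
  zero : (0 : R.V) ∈ G
  neg : ∀ x ∈ G, -x ∈ G

theorem CSV.toCSy {K : Set R.V} {C0 : ℝ} (h : CSV R K C0) : CSy K := ⟨h.conv, h.zero, h.neg⟩

theorem CSy.mem_add {G : Set R.V} (h : CSy G) {a b : ℝ} (ha : 0 ≤ a) (hb : 0 ≤ b) {x y : R.V}
    (hx : x ∈ a • G) (hy : y ∈ b • G) : x + y ∈ (a + b) • G := by
  rw [h.conv.add_smul ha hb]
  exact Set.add_mem_add hx hy

theorem CSy.mem_neg {G : Set R.V} (h : CSy G) {a : ℝ} {x : R.V} (hx : x ∈ a • G) :
    -x ∈ a • G := by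
  obtain ⟨y, hy, rfl⟩ := hx
  exact ⟨-y, h.neg y hy, by simp⟩

theorem CSy.mem_mono {G : Set R.V} (h : CSy G) {a b : ℝ} (ha : 0 ≤ a) (hab : a ≤ b) {x : R.V}
    (hx : x ∈ a • G) : x ∈ b • G := by
  have := h.mem_add ha (sub_nonneg.2 hab) hx (⟨0, h.zero, by simp⟩ : (0 : R.V) ∈ (b - a) • G)
  rwa [add_zero, add_sub_cancel] at this

theorem CSy.smul {G : Set R.V} (h : CSy G) (c : ℝ) : CSy (c • G) :=
  ⟨h.conv.smul c, ⟨0, h.zero, by simp⟩, fun _ hx => h.mem_neg hx⟩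

/-- iterated brackets of elements of `G` -/
def nbk (G : Set R.V) : ℕ → Set R.V
  | 0 => G
  | j + 1 => convexHull ℝ {z | ∃ x ∈ G, ∃ y ∈ nbk G j, ⁅x, y⁆ = z}

theorem lie_mem_nbk {G : Set R.V} {j : ℕ} {x y : R.V} (hx : x ∈ G) (hy : y ∈ nbk G j) :
    ⁅x, y⁆ ∈ nbk G (j + 1) := subset_convexHull ℝ _ ⟨x, hx, y, hy, rfl⟩

theorem csy_nbk {G : Set R.V} (h : CSy G) (j : ℕ) : CSy (nbk G j) := by
  induction j with
  | zero => exact h
  | succ j ih =>
    refine ⟨convex_convexHull ℝ _, subset_convexHull ℝ _ ⟨0, h.zero, 0, ih.zero, zero_lie 0⟩, ?_⟩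
    intro x hx
    have h1 : Convex ℝ {x : R.V | -x ∈ nbk G (j + 1)} := by
      have := (convex_convexHull ℝ {z | ∃ x ∈ G, ∃ y ∈ nbk G j, ⁅x, y⁆ = z}).neg
      exact this
    have h2 : nbk G (j + 1) ⊆ {x : R.V | -x ∈ nbk G (j + 1)} := by
      refine convexHull_min ?_ h1
      rintro _ ⟨a, ha, b, hb, rfl⟩
      have h3 : -⁅a, b⁆ ∈ nbk G (j + 1) := by
        rw [← neg_lie]
        exact lie_mem_nbk (h.neg a ha) hb
      exact h3
    exact h2 hx

theorem nbk_mono {G G' : Set R.V} (h : G ⊆ G') (j : ℕ) : nbk G j ⊆ nbk G' j := by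
  induction j with
  | zero => exact h
  | succ j ih =>
    refine convexHull_mono ?_
    rintro _ ⟨a, ha, b, hb, rfl⟩
    exact ⟨a, h ha, b, ih hb, rfl⟩

theorem nbk_map {G G' : Set R.V} (φ : R.V →ₗ[ℝ] R.V) (hφ : ∀ x y, φ ⁅x, y⁆ = ⁅φ x, φ y⁆)
    (h : ∀ x ∈ G, φ x ∈ G') (j : ℕ) : ∀ x ∈ nbk G j, φ x ∈ nbk G' j := by
  induction j with
  | zero => exact h
  | succ j ih =>
    intro x hx
    have h1 : Convex ℝ {x : R.V | φ x ∈ nbk G' (j + 1)} :=
      (convex_convexHull ℝ _).linear_preimage φ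
    have h2 : nbk G (j + 1) ⊆ {x : R.V | φ x ∈ nbk G' (j + 1)} := by
      refine convexHull_min ?_ h1
      rintro _ ⟨a, ha, b, hb, rfl⟩
      have h3 : φ ⁅a, b⁆ ∈ nbk G' (j + 1) := by
        rw [hφ]
        exact lie_mem_nbk (h a ha) (ih b hb)
      exact h3
    exact h2 hx

/-- brackets of layers -/
theorem lie_nbk_nbk {G : Set R.V} (h : CSy G) (i : ℕ) : ∀ (j : ℕ) {x y : R.V}, x ∈ nbk G i →
    y ∈ nbk G j → ⁅x, y⁆ ∈ ((2 : ℝ) ^ i) • nbk G (i + j + 1) := by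
  induction i with
  | zero =>
    intro j x y hx hy
    rw [pow_zero, one_smul, zero_add]
    exact lie_mem_nbk hx hy
  | succ i ih =>
    intro j x y hx hy
    have hcs := csy_nbk h (i + 1 + j + 1)
    have h1 : Convex ℝ {x : R.V | ⁅x, y⁆ ∈ ((2 : ℝ) ^ (i + 1)) • nbk G (i + 1 + j + 1)} := by
      let L : R.V →ₗ[ℝ] R.V :=
        { toFun := fun x => ⁅x, y⁆
          map_add' := fun a b => add_lie a b y
          map_smul' := fun c a => smul_lie c a y }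
      exact (hcs.conv.smul _).linear_preimage L
    have h2 : nbk G (i + 1) ⊆
        {x : R.V | ⁅x, y⁆ ∈ ((2 : ℝ) ^ (i + 1)) • nbk G (i + 1 + j + 1)} := by
      refine convexHull_min ?_ h1
      rintro _ ⟨a, ha, b, hb, rfl⟩
      change ⁅⁅a, b⁆, y⁆ ∈ ((2 : ℝ) ^ (i + 1)) • nbk G (i + 1 + j + 1)
      rw [lie_lie, sub_eq_add_neg, pow_succ, mul_two]
      refine hcs.mem_add (by positivity) (by positivity) ?_ (hcs.mem_neg ?_)
      · obtain ⟨z, hz, hz2⟩ := ih j hb hy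
        refine ⟨⁅a, z⁆, ?_, ?_⟩
        · have e1 : i + 1 + j + 1 = (i + j + 1) + 1 := by omega
          rw [e1]
          exact lie_mem_nbk ha hz
        · simp only at hz2 ⊢
          rw [← hz2, lie_smul]
      · have h3 := ih (j + 1) hb (lie_mem_nbk ha hy)
        have e2 : i + (j + 1) + 1 = i + 1 + j + 1 := by omega
        rwa [e2] at h3
    exact h2 hx

theorem nbk_sub_J (G : Set R.V) (j : ℕ) : ∀ x ∈ nbk G j, (x : A) ∈ R.J ^ (j + 1) := by
  induction j with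
  | zero =>
    intro x _
    rw [zero_add, pow_one]
    exact R.V_le_J x.2
  | succ j ih =>
    intro x hx
    have h1 : nbk G (j + 1) ⊆ ((R.J ^ (j + 1 + 1)).comap R.V.subtype : Set R.V) := by
      refine convexHull_min ?_ (Submodule.convex _)
      rintro _ ⟨a, _, b, hb, rfl⟩
      have ha : (a : A) ∈ R.J := R.V_le_J a.2
      have hb := ih b hb
      change (a : A) * (b : A) - (b : A) * (a : A) ∈ R.J ^ (j + 1 + 1)
      refine Submodule.sub_mem _ ?_ ?_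
      · rw [pow_succ']
        exact Submodule.mul_mem_mul ha hb
      · rw [pow_succ]
        exact Submodule.mul_mem_mul hb ha
    exact h1 hx

theorem nbk_eq_zero {G : Set R.V} {j : ℕ} (hj : R.m ≤ j + 1) {x : R.V} (hx : x ∈ nbk G j) :
    x = 0 := by
  have h1 := nbk_sub_J G j x hx
  obtain ⟨k, hk⟩ := Nat.exists_eq_add_of_le hj
  rw [hk, pow_add, R.J_pow, Submodule.bot_mul] at h1
  exact Subtype.ext ((Submodule.mem_bot ℝ).1 h1)

/-- **the natural box** generated by `G` -/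
def nb (G : Set R.V) : Set R.V :=
  {X | ∃ x : Fin R.m → R.V, (∀ i : Fin R.m, x i ∈ nbk G i) ∧ X = ∑ i : Fin R.m, x i}

theorem csy_nb {G : Set R.V} (h : CSy G) : CSy (nb G) where
  conv := by
    rintro _ ⟨x, hx, rfl⟩ _ ⟨y, hy, rfl⟩ a b ha hb hab
    refine ⟨fun i => a • x i + b • y i, fun i => (csy_nbk h i).conv (hx i) (hy i) ha hb hab, ?_⟩
    rw [smul_sum, smul_sum, ← sum_add_distrib]
  zero := ⟨fun _ => 0, fun i => (csy_nbk h i).zero, by simp⟩
  neg := by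
    rintro _ ⟨x, hx, rfl⟩
    exact ⟨fun i => - x i, fun i => (csy_nbk h i).neg _ (hx i), by rw [sum_neg_distrib]⟩

theorem CSy.mem_sum {G : Set R.V} (h : CSy G) {ι : Type*} (s : Finset ι) (a : ι → ℝ) (f : ι → R.V)
    (ha : ∀ i ∈ s, 0 ≤ a i) (hf : ∀ i ∈ s, f i ∈ a i • G) :
    ∑ i ∈ s, f i ∈ (∑ i ∈ s, a i) • G := by
  classical
  induction s using Finset.induction_on with
  | empty => exact ⟨0, h.zero, by simp⟩
  | insert i s hi ih =>
    rw [sum_insert hi, sum_insert hi]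
    exact h.mem_add (ha i (mem_insert_self i s))
      (sum_nonneg fun j hj => ha j (mem_insert_of_mem hj)) (hf i (mem_insert_self i s))
      (ih (fun j hj => ha j (mem_insert_of_mem hj)) fun j hj => hf j (mem_insert_of_mem hj))

/-- a single layer is in the box -/
theorem nbk_sub_nb {G : Set R.V} (h : CSy G) (i : Fin R.m) {x : R.V} (hx : x ∈ nbk G i) :
    x ∈ nb G := by
  classical
  refine ⟨Pi.single i x, fun j => ?_, ?_⟩
  · by_cases hj : j = i
    · subst hj; rw [Pi.single_eq_same]; exact hx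
    · rw [Pi.single_eq_of_ne hj]; exact (csy_nbk h j).zero
  · rw [Finset.sum_eq_single i]
    · rw [Pi.single_eq_same]
    · intro j _ hj; exact Pi.single_eq_of_ne hj _
    · intro h; exact absurd (mem_univ _) h

theorem sub_nb {G : Set R.V} (h : CSy G) : G ⊆ nb G := fun _ hx =>
  nbk_sub_nb h ⟨0, R.hm0⟩ hx

/-- natural boxes are closed under brackets up to a constant -/
theorem csv_nb {G : Set R.V} (h : CSy G) : CSV R (nb G) (R.m ^ 2 * 2 ^ R.m) where
  conv := (csy_nb h).conv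
  zero := (csy_nb h).zero
  neg := (csy_nb h).neg
  nonneg := by positivity
  br := by
    rintro _ ⟨x, hx, rfl⟩ _ ⟨y, hy, rfl⟩
    have hcs := csy_nb h
    rw [sum_lie_sum]
    have key : ∀ i j : Fin R.m, ⁅x i, y j⁆ ∈ ((2 : ℝ) ^ R.m) • nb G := by
      intro i j
      obtain ⟨z, hz, hz2⟩ := lie_nbk_nbk h i j (hx i) (hy j)
      simp only at hz2
      by_cases hij : (i : ℕ) + j + 1 < R.m
      · have h1 : z ∈ nb G := nbk_sub_nb h ⟨(i : ℕ) + j + 1, hij⟩ hz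
        refine hcs.mem_mono (a := (2 : ℝ) ^ (i : ℕ)) (by positivity) ?_ ⟨z, h1, hz2⟩
        exact pow_le_pow_right₀ (by norm_num) i.2.le
      · have h1 : z = 0 := nbk_eq_zero (by omega) hz
        rw [h1, smul_zero] at hz2
        rw [← hz2]
        exact ⟨0, hcs.zero, by simp⟩
    have h1 := hcs.mem_sum (univ : Finset (Fin R.m)) (fun _ => (R.m : ℝ) * 2 ^ R.m)
      (fun i => ∑ j, ⁅x i, y j⁆) (fun _ _ => by positivity) (fun i _ => by
        have h2 := hcs.mem_sum (univ : Finset (Fin R.m)) (fun _ => (2 : ℝ) ^ R.m)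
          (fun j => ⁅x i, y j⁆) (fun _ _ => by positivity) (fun j _ => key i j)
        rwa [sum_const, nsmul_eq_mul, card_univ, Fintype.card_fin] at h2)
    rw [sum_const, nsmul_eq_mul, card_univ, Fintype.card_fin, ← mul_assoc, ← pow_two] at h1
    exact h1

theorem nb_mono {G G' : Set R.V} (h : G ⊆ G') : nb G ⊆ nb G' := by
  rintro _ ⟨x, hx, rfl⟩
  exact ⟨x, fun i => nbk_mono h i (hx i), rfl⟩

theorem nb_map {G G' : Set R.V} (φ : R.V →ₗ[ℝ] R.V) (hφ : ∀ x y, φ ⁅x, y⁆ = ⁅φ x, φ y⁆)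
    (h : ∀ x ∈ G, φ x ∈ G') {X : R.V} (hX : X ∈ nb G) : φ X ∈ nb G' := by
  obtain ⟨x, hx, rfl⟩ := hX
  exact ⟨fun i => φ (x i), fun i => nbk_map φ hφ h i _ (hx i), by rw [map_sum]⟩

/-- dilation of layers -/
theorem nbk_smul {G : Set R.V} (c : ℝ) (j : ℕ) :
    nbk (c • G) j = (c ^ (j + 1)) • nbk G j := by
  induction j with
  | zero => rw [zero_add, pow_one]; rfl
  | succ j ih =>
    have h1 : {z : R.V | ∃ x ∈ c • G, ∃ y ∈ nbk (c • G) j, ⁅x, y⁆ = z} =
        (c ^ (j + 1 + 1)) • {z : R.V | ∃ x ∈ G, ∃ y ∈ nbk G j, ⁅x, y⁆ = z} := by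
      rw [ih]
      ext z
      constructor
      · rintro ⟨_, ⟨x, hx, rfl⟩, _, ⟨y, hy, rfl⟩, rfl⟩
        refine ⟨⁅x, y⁆, ⟨x, hx, y, hy, rfl⟩, ?_⟩
        simp only
        rw [smul_lie, lie_smul, smul_smul]
        congr 1; ring
      · rintro ⟨_, ⟨x, hx, y, hy, rfl⟩, rfl⟩
        refine ⟨c • x, ⟨x, hx, rfl⟩, c ^ (j + 1) • y, ⟨y, hy, rfl⟩, ?_⟩
        simp only
        rw [smul_lie, lie_smul, smul_smul]
        congr 1; ring
    change convexHull ℝ {z : R.V | ∃ x ∈ c • G, ∃ y ∈ nbk (c • G) j, ⁅x, y⁆ = z} = _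
    rw [h1, convexHull_smul]
    rfl

/-- `c • nb G ⊆ nb (c • G)` for `c ≥ 1` -/
theorem smul_nb_sub {G : Set R.V} (h : CSy G) {c : ℝ} (hc : 1 ≤ c) : c • nb G ⊆ nb (c • G) := by
  rintro _ ⟨_, ⟨x, hx, rfl⟩, rfl⟩
  refine ⟨fun i => c • x i, fun i => ?_, ?_⟩
  · rw [nbk_smul c]
    refine (csy_nbk h i).mem_mono (a := c) (by linarith) ?_ ⟨x i, hx i, rfl⟩
    calc c = c ^ 1 := (pow_one c).symm
      _ ≤ c ^ ((i : ℕ) + 1) := pow_le_pow_right₀ hc (by omega)
  · simp only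
    rw [smul_sum]

/-- `nb (c • G) ⊆ c ^ m • nb G` for `c ≥ 1` -/
theorem nb_smul_sub {G : Set R.V} (h : CSy G) {c : ℝ} (hc : 1 ≤ c) :
    nb (c • G) ⊆ (c ^ R.m) • nb G := by
  have hc0 : 0 < c := by linarith
  rintro _ ⟨x, hx, rfl⟩
  refine ⟨∑ i : Fin R.m, (c ^ R.m)⁻¹ • x i, ⟨_, fun i => ?_, rfl⟩, ?_⟩
  · obtain ⟨y, hy, hy2⟩ : x i ∈ (c ^ ((i : ℕ) + 1)) • nbk G i := by
      rw [← nbk_smul c]; exact hx i
    simp only at hy2
    have h1 := (csy_nbk h i).mem_mono (a := c ^ ((i : ℕ) + 1)) (b := c ^ R.m) (by positivity)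
      (pow_le_pow_right₀ hc i.2) ⟨y, hy, hy2⟩
    obtain ⟨z, hz, hz2⟩ := h1
    simp only at hz2
    rw [← hz2, inv_smul_smul₀ (by positivity)]
    exact hz
  · simp only
    rw [← smul_sum, smul_inv_smul₀ (by positivity)]

/-- a natural box is contained in the Lie subalgebra generated -/
theorem nb_le {G : Set R.V} {e : Submodule ℝ R.V} (he : ∀ x ∈ e, ∀ y ∈ e, ⁅x, y⁆ ∈ e)
    (hG : G ⊆ e) : nb G ⊆ e := by
  have h1 : ∀ j, nbk G j ⊆ e := by
    intro j
    induction j with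
    | zero => exact hG
    | succ j ih =>
      refine convexHull_min ?_ e.convex
      rintro _ ⟨a, ha, b, hb, rfl⟩
      exact he a (hG ha) b (ih hb)
  rintro _ ⟨x, hx, rfl⟩
  exact e.sum_mem fun i _ => h1 i (hx i)

end nb

end Vale.Agent.P188.H615
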