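import Vale.Agent.P188.H615.NBW
import Vale.Agent.P188.H131.HaarE
import Vale.Agent.P188.H131.Haar3

/-!
Volumes of natural boxes.
-/

open Finset Filter Topology Pointwise MeasureTheory

namespace Vale.Agent.P188.H615

open Vale.Agent.P188.H796 Vale.Agent.P188.H131

section haar

variable {N : Type} [Group N] {d n : ℕ} {D : MB N d n} {A : Type} [NormedRing A]
  [NormedAlgebra ℝ A] [FiniteDimensional ℝ A] (R : RD D A)

/-- left translation in logarithmic coordinates -/
noncomputable def LTV (x : R.NR) (v : R.V) : R.V := R.Lo (x * R.Ex v)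

theorem Ex_LTV (x : R.NR) (v : R.V) : R.Ex (LTV R x v) = x * R.Ex v := R.Ex_Lo _

theorem LTV_bij (x : R.NR) : Function.Bijective (LTV R x) := by
  have h : ∀ x y v, LTV R x (LTV R y v) = LTV R (x * y) v := by
    intro x y v
    rw [LTV, Ex_LTV, ← mul_assoc]; rfl
  have h1 : ∀ v, LTV R 1 v = v := by
    intro v
    rw [LTV, one_mul, R.Lo_Ex]
  constructor
  · intro v w hvw
    have := congrArg (LTV R x⁻¹) hvw
    rwa [h, h, inv_mul_cancel, h1, h1] at this
  · intro v
    exact ⟨LTV R x⁻¹ v, by rw [h, mul_inv_cancel, h1]⟩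

theorem LTV_diff (x : R.NR) : Differentiable ℝ (LTV R x) := by
  obtain ⟨g, hg⟩ := LinearMap.exists_leftInverse_of_injective R.V.subtype
    (LinearMap.ker_eq_bot.2 Subtype.coe_injective)
  let p : A →L[ℝ] R.V := LinearMap.toContinuousLinearMap g
  have hp : ∀ v : R.V, p (v : A) = v := fun v => LinearMap.congr_fun hg v
  have h : LTV R x = fun v : R.V => p (lg R.m (R.toA x * ex R.m (v : A))) := by
    funext v
    rw [← coe_Lo_mul_Ex R, hp]; rfl
  rw [h]
  have h1 : Differentiable ℝ (fun v : R.V => (v : A)) := R.V.subtypeL.differentiable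
  have h2 : Differentiable ℝ (fun v : R.V => ex R.m (v : A)) :=
    Differentiable.comp (g := fun v : A => ex R.m v) (f := fun v : R.V => (v : A))
      (differentiable_ex R.m) h1
  have h3 : Differentiable ℝ (fun v : R.V => R.toA x * ex R.m (v : A)) :=
    Differentiable.const_mul (𝕜 := ℝ) (E := R.V) h2 (R.toA (x : R.NR))
  have h4 : Differentiable ℝ (fun v : R.V => lg R.m (R.toA x * ex R.m (v : A))) :=
    Differentiable.comp (g := fun v : A => lg R.m v)
      (f := fun v : R.V => R.toA x * ex R.m (v : A)) (differentiable_lg R.m) h3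
  exact Differentiable.comp (g := fun a : A => p a)
      (f := fun v : R.V => lg R.m (R.toA x * ex R.m (v : A))) p.differentiable h4

variable [MeasurableSpace A] [BorelSpace A]

theorem mp_LTV (μ : Measure R.V) [μ.IsAddHaarMeasure] (x : R.NR) :
    MeasurePreserving (LTV R x) μ μ := by
  have htop : ∀ x ∈ (⊤ : Submodule ℝ R.V), ∀ y ∈ (⊤ : Submodule ℝ R.V),
      ⁅x, y⁆ ∈ (⊤ : Submodule ℝ R.V) := fun _ _ _ _ => trivial
  refine tri_mp μ (LTV_diff R x) (LTV_bij R x) (fun i => gam R ⊤ i) rfl (c := R.m)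
    (gam_eq_bot (by omega)) ?_
  intro i v u hu
  exact Lo_mul_Ex_add' R (gam_le htop i) (gam_succ_le htop i)
    (fun x hx y hy => lie_mem_gam hx hy) x (v := v) (w := u) trivial hu trivial

/-- the image of Lebesgue measure under the exponential map -/
noncomputable def mEx (ν : Measure R.V) : Measure R.NR := ν.map R.Ex

theorem measurable_Ex : Measurable R.Ex := R.continuous_Ex.measurable

instance haar_mEx (ν : Measure R.V) [ν.IsAddHaarMeasure] : (mEx R ν).IsHaarMeasure := by
  have hm := measurable_Ex R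
  have hinv : (mEx R ν).IsMulLeftInvariant := by
    refine ⟨fun x => ?_⟩
    rw [mEx, Measure.map_map (measurable_const_mul x) hm]
    have h1 : (fun y => x * y) ∘ R.Ex = R.Ex ∘ LTV R x := by
      funext v
      exact (Ex_LTV R x v).symm
    rw [h1, ← Measure.map_map hm (mp_LTV R ν x).measurable, (mp_LTV R ν x).map_eq]
  have hfin : IsFiniteMeasureOnCompacts (mEx R ν) := by
    refine ⟨fun K hK => ?_⟩
    rw [mEx, Measure.map_apply hm hK.measurableSet]
    have h1 : R.Ex ⁻¹' K = R.Lo '' K := by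
      ext v
      constructor
      · intro hv
        exact ⟨R.Ex v, hv, R.Lo_Ex v⟩
      · rintro ⟨k, hk, rfl⟩
        change R.Ex (R.Lo k) ∈ K
        rwa [R.Ex_Lo]
    rw [h1]
    exact (hK.image R.continuous_Lo).measure_lt_top
  have hpos : (mEx R ν).IsOpenPosMeasure :=
    R.continuous_Ex.isOpenPosMeasure_map fun k => ⟨R.Lo k, R.Ex_Lo k⟩
  exact { toIsFiniteMeasureOnCompacts := hfin, toIsMulLeftInvariant := hinv,
          toIsOpenPosMeasure := hpos }

/-- **Haar measure in logarithmic coordinates** -/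
theorem haar_log (μ0 : Measure R.NR) [μ0.IsHaarMeasure] : ∃ ν : Measure R.V,
    ν.IsAddHaarMeasure ∧ ∀ K : Set R.V, MeasurableSet K → μ0 (R.Ex '' K) = ν K := by
  let ν0 : Measure R.V := Measure.addHaar
  have h := Measure.isMulLeftInvariant_eq_smul μ0 (mEx R ν0)
  set c := Measure.haarScalarFactor μ0 (mEx R ν0) with hc
  have hc0 : 0 < c := Measure.haarScalarFactor_pos_of_isHaarMeasure _ _
  refine ⟨c • ν0, Measure.IsAddHaarMeasure.nnreal_smul ν0 hc0.ne', fun K hK => ?_⟩
  have h1 : R.Ex '' K = R.Lo ⁻¹' K := by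
    ext k
    constructor
    · rintro ⟨v, hv, rfl⟩
      change R.Lo (R.Ex v) ∈ K
      rwa [R.Lo_Ex]
    · intro hk
      exact ⟨R.Lo k, hk, R.Ex_Lo k⟩
  have hmeas : MeasurableSet (R.Ex '' K) := by
    rw [h1]
    exact R.continuous_Lo.measurable hK
  rw [h, Measure.smul_apply, Measure.smul_apply, mEx, Measure.map_apply (measurable_Ex R) hmeas]
  congr 2
  ext v
  constructor
  · rintro ⟨w, hw, hwv⟩
    have := congrArg R.Lo hwv
    rw [R.Lo_Ex, R.Lo_Ex] at this
    rwa [← this]
  · intro hv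
    exact ⟨v, hv, rfl⟩

end haar

section vol

variable {N : Type} [Group N] {d n : ℕ} {D : MB N d n} {A : Type} [NormedRing A]
  [NormedAlgebra ℝ A] [FiniteDimensional ℝ A] {R : RD D A} {ι : Type} [Fintype ι]
  [MeasurableSpace A] [BorelSpace A] (ν : Measure R.V) [ν.IsAddHaarMeasure]

theorem nb_meas (X : ι → R.V) (r : ι → ℝ) : MeasurableSet (nb (LB X r)) :=
  (isCompact_nb X r).measurableSet

theorem nb_fin (X : ι → R.V) (r : ι → ℝ) : ν (nb (LB X r)) < ⊤ :=
  (isCompact_nb X r).measure_lt_top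

/-- scaling of the letters -/
theorem nb_vol (X : ι → R.V) (r : ι → ℝ) {c : ℝ} (hc : 1 ≤ c) :
    ν (nb (LB X fun i => c * r i)) ≤
      ENNReal.ofReal ((c ^ R.m) ^ Module.finrank ℝ R.V) * ν (nb (LB X r)) := by
  rw [← smul_LB]
  refine (measure_mono (nb_smul_sub (csy_LB X r) hc)).trans (le_of_eq ?_)
  rw [Measure.addHaar_smul, abs_of_nonneg (by positivity)]

/-- boxes of a generating set of letters have positive volume -/
theorem nb_pos (X : ι → R.V)
    (hX : ∀ v : R.V, v ∈ LieSubalgebra.lieSpan ℝ R.V (Set.range X)) {r : ι → ℝ}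
    (hr : ∀ i, 0 < r i) : ν (nb (LB X r)) ≠ 0 := by
  classical
  intro h0
  obtain ⟨C, hC1, hC⟩ := absorb X ⊤ fun v _ => hX v
  have hcs := csy_nb (csy_LB X r)
  have hcov : (Set.univ : Set R.V) ⊆ ⋃ k : ℕ, ((k : ℝ) + 1) • nb (LB X r) := by
    intro v _
    have h1 := hC C le_rfl v trivial
    set ρ : ℝ := C * (1 + ‖(v : A)‖) with hρ
    have hρ0 : 0 ≤ ρ := mul_nonneg (by linarith) (by linarith [norm_nonneg (v : A)])
    obtain ⟨c, hc1, hc⟩ : ∃ c : ℝ, 1 ≤ c ∧ ∀ i, ρ ≤ c * r i := by
      refine ⟨1 + ∑ i, ρ / r i, ?_, fun i => ?_⟩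
      · have : 0 ≤ ∑ i, ρ / r i := Finset.sum_nonneg fun i _ => div_nonneg hρ0 (hr i).le
        linarith
      · have h2 : ρ / r i ≤ ∑ i, ρ / r i :=
          Finset.single_le_sum (f := fun i => ρ / r i) (fun i _ => div_nonneg hρ0 (hr i).le)
            (mem_univ i)
        have h3 : ρ = ρ / r i * r i := (div_mul_cancel₀ _ (hr i).ne').symm
        calc ρ = ρ / r i * r i := h3
          _ ≤ (1 + ∑ i, ρ / r i) * r i := mul_le_mul_of_nonneg_right (by linarith) (hr i).le
    have h2 : v ∈ nb (c • LB X r) := by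
      rw [smul_LB]
      exact nb_mono (LB_mono X (fun _ => hρ0) hc) h1
    have h3 := nb_smul_sub (csy_LB X r) hc1 h2
    obtain ⟨k, hk⟩ := exists_nat_ge (c ^ R.m)
    refine Set.mem_iUnion.2 ⟨k, ?_⟩
    exact hcs.mem_mono (by positivity) (by linarith) h3
  have h1 : ν (Set.univ : Set R.V) = 0 := by
    refine measure_mono_null hcov ?_
    rw [measure_iUnion_null_iff]
    intro k
    rw [Measure.addHaar_smul, h0, mul_zero]
  exact (NeZero.ne (ν (Set.univ : Set R.V))) h1

end vol

end Vale.Agent.P188.H615
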