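import Vale.Agent.P188.H615.GenL

/-!
Natural boxes generated by letters.
-/

open Finset Filter Topology Pointwise

namespace Vale.Agent.P188.H615

open Vale.Agent.P188.H796 Vale.Agent.P188.H329

section nbp

variable {N : Type} [Group N] {d n : ℕ} {D : MB N d n} {A : Type} [NormedRing A]
  [NormedAlgebra ℝ A] [FiniteDimensional ℝ A] {R : RD D A} {ι : Type} [Fintype ι]

/-- the cube of letters of sizes `r` -/
def LB (X : ι → R.V) (r : ι → ℝ) : Set R.V :=
  {v | ∃ y : ι → ℝ, (∀ i, |y i| ≤ 1) ∧ v = ∑ i, y i • r i • X i}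

theorem csy_LB (X : ι → R.V) (r : ι → ℝ) : CSy (LB X r) where
  conv := by
    rintro _ ⟨y, hy, rfl⟩ _ ⟨z, hz, rfl⟩ a b ha hb hab
    refine ⟨fun i => a * y i + b * z i, fun i => ?_, ?_⟩
    · refine (abs_add_le _ _).trans ?_
      rw [abs_mul, abs_mul, abs_of_nonneg ha, abs_of_nonneg hb]
      have := hy i
      have := hz i
      nlinarith
    · rw [smul_sum, smul_sum, ← sum_add_distrib]
      refine sum_congr rfl fun i _ => ?_
      rw [add_smul, mul_smul, mul_smul]
  zero := ⟨fun _ => 0, by simp, by simp⟩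
  neg := by
    rintro _ ⟨y, hy, rfl⟩
    refine ⟨fun i => -y i, fun i => by rw [abs_neg]; exact hy i, ?_⟩
    rw [← sum_neg_distrib]
    exact sum_congr rfl fun i _ => by rw [neg_smul]

theorem mem_LB_of_le (X : ι → R.V) {r : ι → ℝ} (a : ι → ℝ)
    (ha : ∀ i, |a i| ≤ r i) : ∑ i, a i • X i ∈ LB X r := by
  refine ⟨fun i => a i / r i, fun i => ?_, ?_⟩
  · have h0 : 0 ≤ r i := (abs_nonneg _).trans (ha i)
    rw [abs_div, abs_of_nonneg h0]
    exact div_le_one_of_le₀ (ha i) h0
  · refine sum_congr rfl fun i _ => ?_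
    have h0 : 0 ≤ r i := (abs_nonneg _).trans (ha i)
    rcases h0.eq_or_lt with h | h
    · have h1 := ha i
      rw [← h] at h1 ⊢
      have h2 : a i = 0 := abs_nonpos_iff.1 h1
      rw [h2]; simp
    · rw [smul_smul, div_mul_cancel₀ _ h.ne']

theorem LB_mono (X : ι → R.V) {r r' : ι → ℝ} (h0 : ∀ i, 0 ≤ r i) (h : ∀ i, r i ≤ r' i) :
    LB X r ⊆ LB X r' := by
  rintro _ ⟨y, hy, rfl⟩
  have h1 : ∀ i, |y i * r i| ≤ r' i := by
    intro i
    rw [abs_mul, abs_of_nonneg (h0 i)]
    have := hy i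
    have := h0 i
    have := h i
    nlinarith [abs_nonneg (y i)]
  have h2 := mem_LB_of_le X (fun i => y i * r i) h1
  have h3 : ∑ i, y i • r i • X i = ∑ i, (y i * r i) • X i :=
    sum_congr rfl fun i _ => by rw [smul_smul]
  rw [h3]; exact h2

theorem letter_LB [DecidableEq ι] (X : ι → R.V) {r : ι → ℝ} (h0 : ∀ i, 0 ≤ r i) {i : ι} {x : ℝ}
    (hx : |x| ≤ r i) : x • X i ∈ LB X r := by
  have h1 := mem_LB_of_le X (r := r) (Pi.single i x) (fun j => by
    by_cases hj : j = i
    · subst hj; rw [Pi.single_eq_same]; exact hx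
    · rw [Pi.single_eq_of_ne hj, abs_zero]; exact h0 j)
  rw [Finset.sum_eq_single i] at h1
  · rwa [Pi.single_eq_same] at h1
  · intro j _ hj; rw [Pi.single_eq_of_ne hj, zero_smul]
  · intro h; exact absurd (mem_univ _) h

theorem smul_LB (X : ι → R.V) (r : ι → ℝ) (c : ℝ) : c • LB X r = LB X (fun i => c * r i) := by
  ext v
  constructor
  · rintro ⟨_, ⟨y, hy, rfl⟩, rfl⟩
    refine ⟨y, hy, ?_⟩
    simp only
    rw [smul_sum]
    exact sum_congr rfl fun i _ => by rw [smul_smul, smul_smul, smul_smul]; congr 1; ring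
  · rintro ⟨y, hy, rfl⟩
    refine ⟨_, ⟨y, hy, rfl⟩, ?_⟩
    simp only
    rw [smul_sum]
    exact sum_congr rfl fun i _ => by rw [smul_smul, smul_smul, smul_smul]; congr 1; ring

theorem map_LB (X : ι → R.V) {r r' : ι → ℝ} (φ : R.V →ₗ[ℝ] R.V)
    (h : ∀ i, ∃ a : ι → ℝ, φ (r i • X i) = ∑ j, a j • X j ∧
      ∀ j, |a j| * Fintype.card ι ≤ r' j) : ∀ v ∈ LB X r, φ v ∈ LB X r' := by
  classical
  rintro _ ⟨y, hy, rfl⟩
  choose a ha hb using h
  have h1 : φ (∑ i, y i • r i • X i) = ∑ j, (∑ i, y i * a i j) • X j := by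
    rw [map_sum]
    have h2 : ∀ i ∈ (univ : Finset ι), φ (y i • r i • X i) = ∑ j, (y i * a i j) • X j := by
      intro i _
      rw [map_smul, ha, smul_sum]
      exact sum_congr rfl fun j _ => by rw [smul_smul]
    rw [sum_congr rfl h2, sum_comm]
    exact sum_congr rfl fun j _ => by rw [sum_smul]
  rw [h1]
  refine mem_LB_of_le X _ fun j => ?_
  rcases isEmpty_or_nonempty ι with hE | hE
  · exact (hE.false j).elim
  · have hN : (0 : ℝ) < Fintype.card ι := by exact_mod_cast Fintype.card_pos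
    refine (abs_sum_le_sum_abs _ _).trans ?_
    have h3 : ∀ i ∈ (univ : Finset ι), |y i * a i j| ≤ r' j / Fintype.card ι := by
      intro i _
      rw [abs_mul, le_div_iff₀ hN]
      have h4 := hb i j
      have h5 := hy i
      have h6 : |y i| * |a i j| ≤ |a i j| := by
        have := abs_nonneg (a i j)
        nlinarith
      nlinarith
    refine (sum_le_sum h3).trans (le_of_eq ?_)
    rw [sum_const, nsmul_eq_mul, card_univ]
    field_simp

/-! ### compactness -/

theorem LB_eq_hull (X : ι → R.V) (r : ι → ℝ) : ∃ F : Set R.V, F.Finite ∧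
    LB X r = convexHull ℝ F := by
  let T : (ι → ℝ) →ₗ[ℝ] R.V := ∑ i, (LinearMap.proj i : (ι → ℝ) →ₗ[ℝ] ℝ).smulRight (r i • X i)
  have hT : ∀ y, T y = ∑ i, y i • r i • X i := by
    intro y
    simp only [T, LinearMap.sum_apply, LinearMap.smulRight_apply, LinearMap.proj_apply]
  let F0 : Set (ι → ℝ) := Set.pi Set.univ fun _ => {-1, 1}
  have hF0 : F0.Finite := Set.Finite.pi fun _ => by simp
  have h1 : convexHull ℝ F0 = Set.pi Set.univ fun _ : ι => Set.Icc (-1 : ℝ) 1 := by
    rw [convexHull_pi]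
    congr 1
    funext _
    rw [convexHull_pair, segment_eq_Icc (by norm_num)]
  refine ⟨T '' F0, hF0.image _, ?_⟩
  rw [← LinearMap.image_convexHull, h1]
  ext v
  constructor
  · rintro ⟨y, hy, rfl⟩
    exact ⟨y, fun i _ => abs_le.1 (hy i), hT y⟩
  · rintro ⟨y, hy, rfl⟩
    exact ⟨y, fun i => abs_le.2 (hy i (Set.mem_univ i)), hT y⟩

theorem nbk_eq_hull {F : Set R.V} (hF : F.Finite) (j : ℕ) : ∃ F' : Set R.V, F'.Finite ∧
    nbk (convexHull ℝ F) j = convexHull ℝ F' := by
  induction j with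
  | zero => exact ⟨F, hF, rfl⟩
  | succ j ih =>
    obtain ⟨F', hF', h⟩ := ih
    refine ⟨(fun p : R.V × R.V => ⁅p.1, p.2⁆) '' (F ×ˢ F'), (hF.prod hF').image _, ?_⟩
    rw [nbk, h]
    refine Set.Subset.antisymm (convexHull_min ?_ (convex_convexHull ℝ _)) (convexHull_mono ?_)
    · rintro _ ⟨x, hx, y, hy, rfl⟩
      set W := convexHull ℝ ((fun p : R.V × R.V => ⁅p.1, p.2⁆) '' (F ×ˢ F')) with hW
      have hWc : Convex ℝ W := convex_convexHull ℝ _
      have h1 : ∀ a ∈ F, ∀ y ∈ convexHull ℝ F', ⁅a, y⁆ ∈ W := by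
        intro a ha y hy
        let L : R.V →ₗ[ℝ] R.V :=
          { toFun := fun y => ⁅a, y⁆
            map_add' := fun u v => lie_add a u v
            map_smul' := fun c u => lie_smul c a u }
        have h2 : convexHull ℝ F' ⊆ L ⁻¹' W := by
          refine convexHull_min ?_ (hWc.linear_preimage L)
          intro b hb
          exact subset_convexHull ℝ _ ⟨(a, b), ⟨ha, hb⟩, rfl⟩
        exact h2 hy
      let L : R.V →ₗ[ℝ] R.V :=
        { toFun := fun x => ⁅x, y⁆
          map_add' := fun u v => add_lie u v y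
          map_smul' := fun c u => smul_lie c u y }
      have h2 : convexHull ℝ F ⊆ L ⁻¹' W :=
        convexHull_min (fun a ha => h1 a ha y hy) (hWc.linear_preimage L)
      exact h2 hx
    · rintro _ ⟨⟨x, y⟩, ⟨hx, hy⟩, rfl⟩
      exact ⟨x, subset_convexHull ℝ _ hx, y, subset_convexHull ℝ _ hy, rfl⟩

theorem isCompact_nb (X : ι → R.V) (r : ι → ℝ) : IsCompact (nb (LB X r)) := by
  obtain ⟨F, hF, h⟩ := LB_eq_hull X r
  have h0 : ∀ i, IsCompact (nbk (LB X r) i) := by
    intro i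
    obtain ⟨F', hF', h'⟩ := nbk_eq_hull hF i
    rw [h, h']
    exact hF'.isCompact_convexHull ℝ
  have h1 : IsCompact (Set.pi Set.univ fun i : Fin R.m => nbk (LB X r) i) :=
    isCompact_univ_pi fun i => h0 i
  have h2 : Continuous fun x : Fin R.m → R.V => ∑ i, x i := by fun_prop
  have h3 := h1.image h2
  convert h3 using 1
  ext v
  constructor
  · rintro ⟨x, hx, rfl⟩
    exact ⟨x, fun i _ => hx i, rfl⟩
  · rintro ⟨x, hx, rfl⟩
    exact ⟨x, fun i => hx i (Set.mem_univ i), rfl⟩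

end nbp

end Vale.Agent.P188.H615
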