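import Vale.Agent.P188.H615.Hb

/-!
Separated nets in groups; finite nets in homogeneous boxes; coverings of `exp (D hb)` by translates
of `exp (δ hb)`.
-/

open Finset Filter Topology Pointwise

universe u v

namespace Vale.Agent.P188.H615

open Vale.Agent.P188.H796

section abstract_nets

variable {G : Type u} [Group G]

/-- `T` is covered by `M` left translates of `W` -/
def Cov (T W : Set G) (M : ℕ) : Prop :=
  ∃ Y : Finset G, Y.card ≤ M ∧ ∀ x ∈ T, ∃ y ∈ Y, y⁻¹ * x ∈ W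

/-- `U`-separated sets -/
def Sepd (X : Finset G) (U : Set G) : Prop := ∀ x ∈ X, ∀ y ∈ X, x⁻¹ * y ∈ U → x = y

theorem Cov.mono {T T' W W' : Set G} {M M' : ℕ} (h : Cov T W M) (hT : T' ⊆ T) (hW : W ⊆ W')
    (hM : M ≤ M') : Cov T' W' M' := by
  obtain ⟨Y, hY, h⟩ := h
  refine ⟨Y, hY.trans hM, fun x hx => ?_⟩
  obtain ⟨y, hy, h1⟩ := h x (hT hx)
  exact ⟨y, hy, hW h1⟩

theorem Cov.trans {T W W' : Set G} {M M' : ℕ} (h : Cov T W M) (h' : Cov W W' M') :
    Cov T W' (M * M') := by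
  classical
  obtain ⟨Y, hY, h⟩ := h
  obtain ⟨Y', hY', h'⟩ := h'
  refine ⟨Y * Y', (Finset.card_mul_le).trans (Nat.mul_le_mul hY hY'), fun x hx => ?_⟩
  obtain ⟨y, hy, h1⟩ := h x hx
  obtain ⟨y', hy', h2⟩ := h' _ h1
  refine ⟨y * y', Finset.mul_mem_mul hy hy', ?_⟩
  rwa [mul_inv_rev, mul_assoc]

theorem Cov.translate {T W : Set G} {M : ℕ} (h : Cov T W M) (g : G) :
    Cov {x | g⁻¹ * x ∈ T} W M := by
  classical
  obtain ⟨Y, hY, h⟩ := h
  refine ⟨Y.image fun y => g * y, Finset.card_image_le.trans hY, fun x hx => ?_⟩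
  obtain ⟨y, hy, h1⟩ := h _ hx
  refine ⟨g * y, Finset.mem_image_of_mem _ hy, ?_⟩
  rwa [mul_inv_rev, mul_assoc]

open Classical in
theorem Sepd.card_le {X : Finset G} {U W T : Set G} {M : ℕ} (hX : Sepd X U)
    (hW : ∀ a ∈ W, ∀ b ∈ W, a⁻¹ * b ∈ U) (hT : Cov T W M) :
    (X.filter fun x => x ∈ T).card ≤ M := by
  obtain ⟨Y, hY, h⟩ := hT
  choose! f hf1 hf2 using h
  refine le_trans (Finset.card_le_card_of_injOn f ?_ ?_) hY
  · intro x hx
    exact hf1 x (Finset.mem_filter.1 hx).2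
  · intro x hx x' hx' hxx
    have hx := Finset.mem_filter.1 (Finset.mem_coe.1 hx)
    have hx' := Finset.mem_filter.1 (Finset.mem_coe.1 hx')
    refine hX x hx.1 x' hx'.1 ?_
    have h1 := hW _ (hf2 x hx.2) _ (hf2 x' hx'.2)
    rw [hxx] at h1
    have h2 : ((f x')⁻¹ * x)⁻¹ * ((f x')⁻¹ * x') = x⁻¹ * x' := by group
    rwa [h2] at h1

/-- existence of separated nets -/
theorem exists_net {T U W : Set G} {M : ℕ} (h1 : (1 : G) ∈ U) (hU : ∀ x ∈ U, x⁻¹ ∈ U)
    (hW : ∀ a ∈ W, ∀ b ∈ W, a⁻¹ * b ∈ U) (hT : Cov T W M) :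
    ∃ X : Finset G, (∀ x ∈ X, x ∈ T) ∧ Sepd X U ∧ ∀ t ∈ T, ∃ x ∈ X, x⁻¹ * t ∈ U := by
  classical
  have hb : ∀ X : Finset G, (∀ x ∈ X, x ∈ T) → Sepd X U → X.card ≤ M := by
    intro X hX hs
    have := hs.card_le hW hT
    rwa [Finset.filter_true_of_mem hX] at this
  have key : ∀ k : ℕ, (∃ X : Finset G, (∀ x ∈ X, x ∈ T) ∧ Sepd X U ∧ X.card = k) →
      ∃ X : Finset G, (∀ x ∈ X, x ∈ T) ∧ Sepd X U ∧ ∀ X' : Finset G, (∀ x ∈ X', x ∈ T) →
        Sepd X' U → X'.card ≤ X.card := by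
    have : ∀ j k : ℕ, M ≤ k + j → (∃ X : Finset G, (∀ x ∈ X, x ∈ T) ∧ Sepd X U ∧ X.card = k) →
      ∃ X : Finset G, (∀ x ∈ X, x ∈ T) ∧ Sepd X U ∧ ∀ X' : Finset G, (∀ x ∈ X', x ∈ T) →
        Sepd X' U → X'.card ≤ X.card := by
      intro j
      induction j with
      | zero =>
        rintro k hk ⟨X, h1, h2, h3⟩
        exact ⟨X, h1, h2, fun X' h1' h2' => (hb X' h1' h2').trans (by omega)⟩
      | succ j ih =>
        rintro k hk ⟨X, h1, h2, h3⟩
        by_cases hmax : ∀ X' : Finset G, (∀ x ∈ X', x ∈ T) → Sepd X' U → X'.card ≤ X.card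
        · exact ⟨X, h1, h2, hmax⟩
        · push Not at hmax
          obtain ⟨X', h1', h2', h3'⟩ := hmax
          exact ih X'.card (by omega) ⟨X', h1', h2', rfl⟩
    intro k hk
    exact this M k (by omega) hk
  obtain ⟨X, hXT, hXs, hmax⟩ := key 0 ⟨∅, by simp, by intro x hx; simp at hx, by simp⟩
  refine ⟨X, hXT, hXs, fun t ht => ?_⟩
  by_contra hcon
  push Not at hcon
  have htX : t ∉ X := fun h => hcon t h (by rwa [inv_mul_cancel])
  have h3 := hmax (insert t X) (by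
    intro x hx
    rcases Finset.mem_insert.1 hx with rfl | hx
    · exact ht
    · exact hXT x hx) (by
    intro x hx y hy hxy
    rcases Finset.mem_insert.1 hx with hx' | hx'
    · rcases Finset.mem_insert.1 hy with hy' | hy'
      · rw [hx', hy']
      · refine absurd ?_ (hcon y hy')
        have := hU _ hxy
        rwa [mul_inv_rev, inv_inv, hx'] at this
    · rcases Finset.mem_insert.1 hy with hy' | hy'
      · rw [hy'] at hxy
        exact absurd hxy (hcon x hx')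
      · exact hXs x hx' y hy' hxy)
  rw [Finset.card_insert_of_notMem htX] at h3
  omega

end abstract_nets

section nets

variable {N : Type u} [Group N] {d n : ℕ} {D : MB N d n} {A : Type v} [NormedRing A]
  [NormedAlgebra ℝ A] [FiniteDimensional ℝ A] {R : RD D A}

/-- `K` has finite `c`-nets with at most `M` points -/
def NetK (K : Set R.V) (c : ℝ) (M : ℕ) : Prop :=
  ∃ F : Finset R.V, F.card ≤ M ∧ (∀ v ∈ F, v ∈ K) ∧ ∀ v ∈ K, ∃ v' ∈ F, ∃ w ∈ K, v = v' + c • w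

theorem NetK.smul {K : Set R.V} {c : ℝ} {M : ℕ} (h : NetK K c M) (D : ℝ) : NetK (D • K) c M := by
  classical
  obtain ⟨F, hF, h1, h2⟩ := h
  refine ⟨F.image fun v => D • v, Finset.card_image_le.trans hF, ?_, ?_⟩
  · intro v hv
    obtain ⟨u, hu, rfl⟩ := Finset.mem_image.1 hv
    exact ⟨u, h1 u hu, rfl⟩
  · rintro _ ⟨v, hv, rfl⟩
    obtain ⟨v', hv', w, hw, rfl⟩ := h2 v hv
    refine ⟨D • v', Finset.mem_image_of_mem _ hv', D • w, ⟨w, hw, rfl⟩, ?_⟩
    simp only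
    rw [smul_add, smul_comm]

/-- unit balls of submodules of `V` have finite nets -/
theorem exists_net_ball (W : Submodule ℝ R.V) {c : ℝ} (hc : 0 < c) :
    ∃ F : Finset R.V, (∀ v ∈ F, v ∈ W ∧ ‖(v : A)‖ ≤ 1) ∧
      ∀ v ∈ W, ‖(v : A)‖ ≤ 1 → ∃ v' ∈ F, ‖((v - v' : R.V) : A)‖ ≤ c := by
  classical
  have : ProperSpace A := FiniteDimensional.proper ℝ A
  have h1 : IsCompact ((im R W : Set A) ∩ Metric.closedBall 0 1) := by
    refine (isCompact_closedBall (0 : A) 1).inter_left ?_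
    exact Submodule.closed_of_finiteDimensional _
  obtain ⟨t, ht1, ht2, ht3⟩ := h1.finite_cover_balls hc
  have h4 : ∀ a ∈ t, ∃ v : R.V, v ∈ W ∧ (v : A) = a := by
    intro a ha
    obtain ⟨⟨v, hv, hva⟩, _⟩ := ht1 ha
    exact ⟨v, hv, hva⟩
  choose! f hf1 hf2 using h4
  refine ⟨ht2.toFinset.image f, ?_, ?_⟩
  · intro v hv
    obtain ⟨a, ha, rfl⟩ := Finset.mem_image.1 hv
    have ha := ht2.mem_toFinset.1 ha
    refine ⟨hf1 a ha, ?_⟩
    rw [hf2 a ha]
    have := (ht1 ha).2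
    rwa [mem_closedBall_zero_iff] at this
  · intro v hv hvn
    have h5 := ht3 (show (v : A) ∈ (im R W : Set A) ∩ Metric.closedBall 0 1 from
      ⟨(mem_im R).2 hv, by rwa [mem_closedBall_zero_iff]⟩)
    simp only [Set.mem_iUnion, exists_prop] at h5
    obtain ⟨a, ha, hav⟩ := h5
    refine ⟨f a, Finset.mem_image_of_mem _ (ht2.mem_toFinset.2 ha), ?_⟩
    rw [Submodule.coe_sub, hf2 a ha, ← dist_eq_norm]
    exact (Metric.mem_ball.1 hav).le

/-- homogeneous boxes have uniform finite nets -/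
theorem netK_hb (e : Submodule ℝ R.V) {c : ℝ} (hc : 0 < c) : ∃ M : ℕ, ∀ ρ : ℝ,
    NetK (hb R e ρ) c M := by
  classical
  choose F hF1 hF2 using fun i : Fin R.m => exists_net_ball (R := R) (gam R e i) hc
  refine ⟨(Fintype.piFinset F).card, fun ρ => ?_⟩
  refine ⟨(Fintype.piFinset F).image fun x => ∑ i : Fin R.m, ρ ^ ((i : ℕ) + 1) • x i,
    Finset.card_image_le, ?_, ?_⟩
  · intro v hv
    obtain ⟨x, hx, rfl⟩ := Finset.mem_image.1 hv
    rw [Fintype.mem_piFinset] at hx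
    exact ⟨x, fun i => hF1 i _ (hx i), rfl⟩
  · rintro _ ⟨x, hx, rfl⟩
    choose y hy1 hy2 using fun i => hF2 i (x i) (hx i).1 (hx i).2
    refine ⟨∑ i : Fin R.m, ρ ^ ((i : ℕ) + 1) • y i,
      Finset.mem_image_of_mem _ (Fintype.mem_piFinset.2 hy1),
      ∑ i : Fin R.m, ρ ^ ((i : ℕ) + 1) • (c⁻¹ • (x i - y i)), ⟨_, fun i => ⟨?_, ?_⟩, rfl⟩, ?_⟩
    · exact Submodule.smul_mem _ _ (Submodule.sub_mem _ (hx i).1 (hF1 i _ (hy1 i)).1)
    · rw [Submodule.coe_smul, norm_smul, Real.norm_of_nonneg (by positivity),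
        inv_mul_le_iff₀ hc, mul_one]
      exact hy2 i
    · rw [smul_sum, ← sum_add_distrib]
      refine sum_congr rfl fun i _ => ?_
      rw [smul_comm c, smul_inv_smul₀ hc.ne', ← smul_add, add_sub_cancel]

/-- coverings by small translates -/
theorem cov_of_net {C0 : ℝ} (hC0 : 0 ≤ C0) {δ : ℝ} (hδ : 0 < δ) : ∃ c : ℝ, 0 < c ∧ c ≤ 1 ∧
    ∀ (K : Set R.V) (M : ℕ), CSV R K C0 → NetK K c M → Cov (EK R K) (EK R (δ • K)) M := by
  classical
  obtain ⟨C, hC, H⟩ := qbchE R hC0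
  refine ⟨min 1 (δ / (C + 1)), lt_min one_pos (by positivity), min_le_left _ _, ?_⟩
  set c := min 1 (δ / (C + 1)) with hc
  have hc0 : 0 < c := lt_min one_pos (by positivity)
  have hcδ : C * c ≤ δ := by
    have h1 : c ≤ δ / (C + 1) := min_le_right _ _
    calc C * c ≤ C * (δ / (C + 1)) := mul_le_mul_of_nonneg_left h1 hC
      _ = δ * (C / (C + 1)) := by ring
      _ ≤ δ * 1 := by
          refine mul_le_mul_of_nonneg_left ?_ hδ.le
          rw [div_le_one (by positivity)]; linarith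
      _ = δ := mul_one δ
  rintro K M hK ⟨F, hF, hF1, hF2⟩
  refine ⟨F.image R.Ex, Finset.card_image_le.trans hF, fun x hx => ?_⟩
  obtain ⟨v', hv', w, hw, hvw⟩ := hF2 (R.Lo x) hx
  refine ⟨R.Ex v', Finset.mem_image_of_mem _ hv', ?_⟩
  have h1 := (H K hK c hc0.le (min_le_left _ _)).2.2 (R.Ex v') (by
    rw [mem_EK, R.Lo_Ex]; exact hF1 v' hv') x (by
    rw [R.Lo_Ex, hvw, add_sub_cancel_left]
    exact ⟨w, hw, rfl⟩)
  exact hK.mem_mono (by positivity) hcδ h1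

end nets

end Vale.Agent.P188.H615
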