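import Vale.Agent.P188.H615.Net

/-!
Nets in `exp e`.
-/

open Finset Filter Topology Pointwise

universe u v

namespace Vale.Agent.P188.H615

open Vale.Agent.P188.H796

section netE

variable {N : Type u} [Group N] {d n : ℕ} {D : MB N d n} {A : Type v} [NormedRing A]
  [NormedAlgebra ℝ A] [FiniteDimensional ℝ A] {R : RD D A} {e : Submodule ℝ R.V}

variable (R e) in
/-- the unit ball of `e` -/
def bl : Set R.V := {v | v ∈ e ∧ ‖(v : A)‖ ≤ 1}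

theorem mem_smul_bl {r : ℝ} (hr : 0 ≤ r) {v : R.V} : v ∈ r • bl R e ↔
    v ∈ e ∧ ‖(v : A)‖ ≤ r := by
  constructor
  · rintro ⟨w, ⟨hw1, hw2⟩, rfl⟩
    refine ⟨e.smul_mem r hw1, ?_⟩
    simp only
    rw [Submodule.coe_smul, norm_smul, Real.norm_of_nonneg hr]
    nlinarith
  · rintro ⟨h1, h2⟩
    rcases hr.eq_or_lt with h | h
    · subst h
      have h3 : (v : A) = 0 := norm_le_zero_iff.1 h2
      have h4 : v = 0 := Subtype.ext h3
      exact ⟨0, ⟨e.zero_mem, by simp⟩, by simp [h4]⟩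
    · refine ⟨r⁻¹ • v, ⟨e.smul_mem _ h1, ?_⟩, smul_inv_smul₀ h.ne' v⟩
      rw [Submodule.coe_smul, norm_smul, Real.norm_of_nonneg (by positivity), inv_mul_le_iff₀ h,
        mul_one]
      exact h2

theorem csv_bl (he : ∀ x ∈ e, ∀ y ∈ e, ⁅x, y⁆ ∈ e) : CSV R (bl R e) 2 where
  conv := by
    rintro x ⟨hx1, hx2⟩ y ⟨hy1, hy2⟩ a b ha hb hab
    refine ⟨e.add_mem (e.smul_mem _ hx1) (e.smul_mem _ hy1), ?_⟩
    rw [Submodule.coe_add, Submodule.coe_smul, Submodule.coe_smul]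
    refine (norm_add_le _ _).trans ?_
    rw [norm_smul, norm_smul, Real.norm_of_nonneg ha, Real.norm_of_nonneg hb]
    nlinarith
  zero := ⟨e.zero_mem, by simp⟩
  neg := fun x hx => ⟨e.neg_mem hx.1, by rw [Submodule.coe_neg, norm_neg]; exact hx.2⟩
  nonneg := zero_le_two
  br := by
    rintro x ⟨hx1, hx2⟩ y ⟨hy1, hy2⟩
    rw [mem_smul_bl zero_le_two]
    refine ⟨he x hx1 y hy1, (norm_lie_le x y).trans ?_⟩
    have h10 := norm_nonneg (x : A)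
    have h11 := norm_nonneg (y : A)
    nlinarith

theorem netK_bl {c : ℝ} (hc : 0 < c) : ∃ M, NetK (bl R e) c M := by
  obtain ⟨F, hF1, hF2⟩ := exists_net_ball e hc
  refine ⟨F.card, F, le_rfl, hF1, fun v hv => ?_⟩
  obtain ⟨v', hv', h⟩ := hF2 v hv.1 hv.2
  refine ⟨v', hv', c⁻¹ • (v - v'), ⟨e.smul_mem _ (e.sub_mem hv.1 (hF1 v' hv').1), ?_⟩, ?_⟩
  · rw [Submodule.coe_smul, norm_smul, Real.norm_of_nonneg (by positivity),
      inv_mul_le_iff₀ hc, mul_one]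
    exact h
  · rw [smul_inv_smul₀ hc.ne', add_sub_cancel]

/-- balls are covered by small balls -/
theorem cov_bl (he : ∀ x ∈ e, ∀ y ∈ e, ⁅x, y⁆ ∈ e) {r δ : ℝ} (hr : 0 < r) (hδ : 0 < δ) :
    ∃ M, Cov (EK R (r • bl R e)) (EK R (δ • bl R e)) M := by
  obtain ⟨c, hc, _, H⟩ := cov_of_net (R := R) (C0 := r * 2) (by positivity)
    (δ := δ / r) (by positivity)
  obtain ⟨M, hM⟩ := netK_bl (R := R) (e := e) hc
  refine ⟨M, ?_⟩
  have h := H (r • bl R e) M ((csv_bl he).smul hr.le) (hM.smul r)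
  rwa [smul_smul, div_mul_cancel₀ _ hr.ne'] at h

/-- homogeneous boxes are covered by boundedly many translates of smaller ones -/
theorem cov_hb (e : Submodule ℝ R.V) {D' δ : ℝ} (hD : 0 < D') (hδ : 0 < δ) :
    ∃ M, ∀ ρ : ℝ, Cov (EK R (D' • hb R e ρ)) (EK R (δ • hb R e ρ)) M := by
  obtain ⟨c, hc, _, H⟩ := cov_of_net (R := R) (C0 := D' * (2 * R.m ^ 2)) (by positivity)
    (δ := δ / D') (by positivity)
  obtain ⟨M, hM⟩ := netK_hb (R := R) e hc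
  refine ⟨M, fun ρ => ?_⟩
  have h := H (D' • hb R e ρ) M ((csv_hb ρ).smul hD.le) ((hM ρ).smul D')
  rwa [smul_smul, div_mul_cancel₀ _ hD.ne'] at h

/-- small balls: `W⁻¹ W ⊆ U` -/
theorem exists_small (he : ∀ x ∈ e, ∀ y ∈ e, ⁅x, y⁆ ∈ e) : ∃ δ : ℝ, 0 < δ ∧
    ∀ a ∈ EK R (δ • bl R e), ∀ b ∈ EK R (δ • bl R e), a⁻¹ * b ∈ EK R (bl R e) := by
  obtain ⟨C, hC, H⟩ := qbchE R (C0 := 2) zero_le_two
  refine ⟨1 / (2 * (C + 1)), by positivity, fun a ha b hb => ?_⟩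
  have hcsv := csv_bl (R := R) (e := e) he
  have hδ0 : 0 ≤ 1 / (2 * (C + 1)) := by positivity
  have hδ1 : 1 / (2 * (C + 1)) ≤ 1 := by
    rw [div_le_one (by positivity)]; linarith
  have ha' : a⁻¹ ∈ EK R (bl R e) := hcsv.EK_inv (hcsv.mem_of_smul hδ0 hδ1 ha)
  have h1 := (H _ hcsv _ hδ0 hδ1).1 a⁻¹ ha' b hb
  have h2 : R.Lo a⁻¹ ∈ (1 / (2 * (C + 1))) • bl R e := by
    rw [Lo_inv]; exact hcsv.mem_neg ha
  have h3 := hcsv.mem_add (by positivity) hδ0 h1 h2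
  rw [sub_add_cancel] at h3
  refine hcsv.mem_of_smul (by positivity) ?_ h3
  have h5 : C * (1 / (2 * (C + 1))) + 1 / (2 * (C + 1)) = 1 / 2 := by field_simp
  rw [h5]; norm_num

open Classical in
/-- **nets in `exp e`** -/
theorem netE (he : ∀ x ∈ e, ∀ y ∈ e, ⁅x, y⁆ ∈ e) {D' r : ℝ} (hD : 1 ≤ D') (hr : 0 < r) :
    ∃ M : ℕ, ∀ ρ : ℝ, 1 ≤ ρ → ∃ X1 X2 : Finset R.NR, X1.Nonempty ∧
      (∀ x ∈ X1, x ∈ EK R (hb R e ρ)) ∧ (∀ x ∈ X2, x ∈ EK R (D' • hb R e ρ)) ∧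
      X2.card ≤ M * X1.card ∧ (∀ t ∈ EK R (D' • hb R e ρ), ∃ x ∈ X2, x⁻¹ * t ∈ EK R (bl R e)) ∧
      ∀ y : R.NR, (X1.filter fun x => y⁻¹ * x ∈ EK R (r • bl R e)).card ≤ M := by
  have hcsv := csv_bl (R := R) (e := e) he
  obtain ⟨δ, hδ, hW⟩ := exists_small (R := R) (e := e) he
  obtain ⟨M1, hM1⟩ := cov_hb (R := R) e (D' := D') (δ := 1) (by linarith) one_pos
  obtain ⟨M2, hM2⟩ := cov_bl (R := R) (e := e) he (r := 1) one_pos hδ
  obtain ⟨M3, hM3⟩ := cov_bl (R := R) (e := e) he hr hδ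
  rw [one_smul] at hM2
  simp only [one_smul] at hM1
  refine ⟨max (M1 * M2) M3, fun ρ hρ => ?_⟩
  have hD0 : 0 < D' := by linarith
  have hm : (0 : ℝ) < R.m := by exact_mod_cast R.hm0
  -- finiteness
  obtain ⟨M4, hM4⟩ := cov_bl (R := R) (e := e) he (r := D' * (R.m * ρ ^ R.m)) (by positivity) hδ
  have hsub : EK R (D' • hb R e ρ) ⊆ EK R ((D' * (R.m * ρ ^ R.m)) • bl R e) := by
    intro x hx
    obtain ⟨w, hw, hw2⟩ := hx
    rw [mem_EK, ← hw2, mem_smul_bl (by positivity)]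
    refine ⟨e.smul_mem _ (hb_le he hw), ?_⟩
    simp only
    rw [Submodule.coe_smul, norm_smul, Real.norm_of_nonneg hD0.le]
    exact mul_le_mul_of_nonneg_left (norm_hb_le hρ hw) hD0.le
  have hfin := hM4.mono hsub le_rfl le_rfl
  have hsub1 : EK R (hb R e ρ) ⊆ EK R (D' • hb R e ρ) := by
    intro x hx
    have h1 : R.Lo x ∈ (1 : ℝ) • hb R e ρ := by rw [one_smul]; exact hx
    exact (csv_hb (R := R) (e := e) ρ).mem_mono zero_le_one hD h1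
  have h1U : (1 : R.NR) ∈ EK R (bl R e) := by rw [mem_EK, Lo_one]; exact hcsv.zero
  have hUi : ∀ x ∈ EK R (bl R e), x⁻¹ ∈ EK R (bl R e) := fun x hx => hcsv.EK_inv hx
  obtain ⟨X1, hX1a, hX1b, hX1c⟩ := exists_net h1U hUi hW (hfin.mono hsub1 le_rfl le_rfl)
  obtain ⟨X2, hX2a, hX2b, hX2c⟩ := exists_net h1U hUi hW hfin
  refine ⟨X1, X2, ?_, hX1a, hX2a, ?_, hX2c, ?_⟩
  · obtain ⟨x, hx, _⟩ := hX1c 1 (by rw [mem_EK, Lo_one]; exact (csv_hb ρ).zero)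
    exact ⟨x, hx⟩
  · -- count
    obtain ⟨Y, hY, hYc⟩ := hM1 ρ
    have h2 : X2 ⊆ (Y ×ˢ X1).biUnion fun p => X2.filter fun x =>
        x ∈ {x | (p.1 * p.2)⁻¹ * x ∈ EK R (bl R e)} := by
      intro x hx
      obtain ⟨y, hy, h3⟩ := hYc x (hX2a x hx)
      obtain ⟨z, hz, h4⟩ := hX1c _ h3
      rw [Finset.mem_biUnion]
      refine ⟨(y, z), Finset.mem_product.2 ⟨hy, hz⟩, Finset.mem_filter.2 ⟨hx, ?_⟩⟩
      change (y * z)⁻¹ * x ∈ EK R (bl R e)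
      rwa [mul_inv_rev, mul_assoc]
    have h3 := (Finset.card_le_card h2).trans Finset.card_biUnion_le
    have h4 : ∀ p ∈ Y ×ˢ X1, (X2.filter fun x =>
        x ∈ {x | (p.1 * p.2)⁻¹ * x ∈ EK R (bl R e)}).card ≤ M2 := fun p _ =>
      hX2b.card_le hW (hM2.translate _)
    have h5 := h3.trans (Finset.sum_le_sum h4)
    rw [Finset.sum_const, smul_eq_mul, Finset.card_product] at h5
    calc X2.card ≤ Y.card * X1.card * M2 := h5
      _ ≤ M1 * X1.card * M2 := by gcongr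
      _ = M1 * M2 * X1.card := by ring
      _ ≤ max (M1 * M2) M3 * X1.card := Nat.mul_le_mul_right _ (le_max_left _ _)
  · intro y
    exact (hX1b.card_le (T := {x | y⁻¹ * x ∈ EK R (r • bl R e)}) hW (hM3.translate y)).trans
      (le_max_right _ _)

end netE

end Vale.Agent.P188.H615
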