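import Mathlib

/-!
Sorting words in a group whose generators commute up to short elements.
-/

open Pointwise

universe u

namespace Vale.Agent.P188.H615

section sort

variable {S : Type u} [Group S]

/-- sorted products `a 0 ^ n 0 * ... * a (p-1) ^ n (p-1)` -/
def pw (a : ℕ → S) (n : ℕ → ℕ) : ℕ → S
  | 0 => 1
  | p + 1 => pw a n p * a p ^ n p

theorem pw_congr (a : ℕ → S) {n n' : ℕ → ℕ} {p : ℕ} (h : ∀ i < p, n i = n' i) :
    pw a n p = pw a n' p := by
  induction p with
  | zero => rfl
  | succ p ih =>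
    rw [pw, pw, ih fun i hi => h i (by omega), h p (by omega)]

theorem pw_zero (a : ℕ → S) (p : ℕ) : pw a (fun _ => 0) p = 1 := by
  induction p with
  | zero => rfl
  | succ p ih => rw [pw, ih, pow_zero, one_mul]

/-- hypotheses for sorting: `U M` the elements of size `M` -/
structure SortD (a : ℕ → S) (p : ℕ) (U : ℝ → Set S) (lam M0 : ℝ) : Prop where
  one : ∀ M, 0 ≤ M → (1 : S) ∈ U M
  mono : ∀ M M', M ≤ M' → U M ⊆ U M'
  hlam : 1 ≤ lam
  hM0 : 0 ≤ M0
  conj : ∀ i < p, ∀ M, ∀ x ∈ U M, (a i)⁻¹ * x * a i ∈ U (lam * M)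
  comm : ∀ i < p, ∀ j < p, (a i)⁻¹ * (a j)⁻¹ * a i * a j ∈ U M0

variable {a : ℕ → S} {p : ℕ} {U : ℝ → Set S} {lam M0 : ℝ}

theorem SortD.pow_mono (h : SortD a p U lam M0) {M M' : ℝ} (hM : 0 ≤ M) (hMM : M ≤ M') {r r' : ℕ}
    (hr : r ≤ r') : U M ^ r ⊆ U M' ^ r' := by
  refine (Set.pow_subset_pow_left (h.mono M M' hMM)).trans ?_
  exact Set.pow_subset_pow_right (h.one M' (hM.trans hMM)) hr

theorem conj_pow_mem {X Y : Set S} (g : S) (hXY : ∀ x ∈ X, g⁻¹ * x * g ∈ Y) (r : ℕ) :
    ∀ x ∈ X ^ r, g⁻¹ * x * g ∈ Y ^ r := by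
  induction r with
  | zero =>
    intro x hx
    rw [pow_zero, Set.mem_one] at hx ⊢
    rw [hx]; group
  | succ r ih =>
    intro x hx
    rw [pow_succ] at hx ⊢
    obtain ⟨y, hy, z, hz, rfl⟩ := hx
    have : g⁻¹ * (y * z) * g = (g⁻¹ * y * g) * (g⁻¹ * z * g) := by group
    simp only
    rw [this]
    exact Set.mul_mem_mul (ih y hy) (hXY z hz)

theorem SortD.conj' (h : SortD a p U lam M0) {i : ℕ} (hi : i < p) {M : ℝ} {r : ℕ} {x : S}
    (hx : x ∈ U M ^ r) : (a i)⁻¹ * x * a i ∈ U (lam * M) ^ r :=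
  conj_pow_mem (a i) (h.conj i hi M) r x hx

theorem SortD.conj_pow (h : SortD a p U lam M0) {i : ℕ} (hi : i < p) {M : ℝ} {r : ℕ} {x : S}
    (hx : x ∈ U M ^ r) (k : ℕ) : (a i ^ k)⁻¹ * x * a i ^ k ∈ U (lam ^ k * M) ^ r := by
  induction k with
  | zero => simpa using hx
  | succ k ih =>
    have h1 := h.conj' hi ih
    have h2 : (a i ^ (k + 1))⁻¹ * x * a i ^ (k + 1) =
        (a i)⁻¹ * ((a i ^ k)⁻¹ * x * a i ^ k) * a i := by
      rw [pow_succ]; group
    rw [h2, pow_succ, mul_comm (lam ^ k) lam, mul_assoc]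
    exact h1

/-- commutators of powers with letters -/
theorem SortD.comm_pow (h : SortD a p U lam M0) {i j : ℕ} (hi : i < p) (hj : j < p) (k : ℕ) :
    (a i ^ k)⁻¹ * (a j)⁻¹ * a i ^ k * a j ∈ U (lam ^ k * M0) ^ k := by
  have hlam0 : (0 : ℝ) ≤ lam := by linarith [h.hlam]
  induction k with
  | zero => simp
  | succ k ih =>
    have h1 := h.conj' hi ih
    have h2 : (a i ^ (k + 1))⁻¹ * (a j)⁻¹ * a i ^ (k + 1) * a j =
        ((a i)⁻¹ * ((a i ^ k)⁻¹ * (a j)⁻¹ * a i ^ k * a j) * a i) *
          ((a i)⁻¹ * (a j)⁻¹ * a i * a j) := by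
      rw [pow_succ]; group
    rw [h2, pow_succ (U _)]
    refine Set.mul_mem_mul ?_ ?_
    · rw [← mul_assoc, ← pow_succ'] at h1
      exact h1
    · refine h.mono _ _ ?_ (h.comm i hi j hj)
      have := one_le_pow₀ h.hlam (n := k + 1)
      nlinarith [h.hM0]

/-- moving a letter into a sorted product -/
theorem SortD.pw_mul (h : SortD a p U lam M0) (n : ℕ → ℕ) {j : ℕ} (hj : j < p) :
    ∀ q ≤ p, j < q → ∃ y ∈ U (lam ^ (∑ i ∈ Finset.range q, n i) * M0) ^
      (∑ i ∈ Finset.range q, n i),
      pw a n q * a j = pw a (Function.update n j (n j + 1)) q * y := by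
  have hlam0 : (0 : ℝ) ≤ lam := by linarith [h.hlam]
  intro q hq hjq
  induction q with
  | zero => omega
  | succ q ih =>
    rcases Nat.lt_succ_iff_lt_or_eq.1 hjq with hlt | heq
    · obtain ⟨y, hy, hy2⟩ := ih (by omega) hlt
      have hq' : q < p := by omega
      refine ⟨(a q ^ n q)⁻¹ * y * a q ^ n q * ((a q ^ n q)⁻¹ * (a j)⁻¹ * a q ^ n q * a j), ?_, ?_⟩
      · rw [Finset.sum_range_succ, pow_add (U _)]
        refine Set.mul_mem_mul ?_ ?_
        · have h1 := h.conj_pow hq' hy (n q)
          rw [← mul_assoc, ← pow_add, add_comm (n q)] at h1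
          exact h1
        · refine h.pow_mono ?_ ?_ le_rfl (h.comm_pow hq' hj (n q))
          · exact mul_nonneg (by positivity) h.hM0
          · refine mul_le_mul_of_nonneg_right ?_ h.hM0
            exact pow_le_pow_right₀ h.hlam (by omega)
      · rw [pw, pw, Function.update_of_ne (by omega : q ≠ j)]
        have h1 : pw a n q = pw a (Function.update n j (n j + 1)) q * y * (a j)⁻¹ := by
          rw [← hy2]; group
        rw [h1]
        group
    · subst heq
      refine ⟨1, ?_, ?_⟩
      · have : (1 : S) ∈ U (lam ^ (∑ i ∈ Finset.range (j + 1), n i) * M0) :=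
          h.one _ (mul_nonneg (by positivity) h.hM0)
        exact Set.one_mem_pow this
      · rw [pw, pw, Function.update_self, mul_one, mul_assoc, ← pow_succ]
        congr 1
        exact pw_congr a fun i hi => by rw [Function.update_of_ne (by omega)]

/-- **sorting**: a word of length `r` in the letters `a i` and the elements of `U M0` -/
theorem SortD.sort (h : SortD a p U lam M0) : ∀ L : List S,
    (∀ x ∈ L, (∃ i < p, a i = x) ∨ x ∈ U M0) →
    ∃ n : ℕ → ℕ, ∑ i ∈ Finset.range p, n i ≤ L.length ∧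
      ∃ y ∈ U (lam ^ L.length * M0) ^ (L.length * (L.length + 1)), L.prod = pw a n p * y := by
  have hlam0 : (0 : ℝ) ≤ lam := by linarith [h.hlam]
  intro L
  induction L using List.reverseRecOn with
  | nil =>
    intro _
    exact ⟨fun _ => 0, by simp, 1, by simp, by rw [pw_zero]; simp⟩
  | append_singleton L x ih =>
    intro hL
    obtain ⟨n, hn, y, hy, hy2⟩ := ih fun z hz => hL z (by simp [hz])
    rw [List.length_append, List.length_singleton, List.prod_append, List.prod_singleton, hy2]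
    rcases hL x (by simp) with ⟨j, hj, rfl⟩ | hx
    · obtain ⟨y', hy', hy'2⟩ := h.pw_mul n hj p le_rfl hj
      refine ⟨Function.update n j (n j + 1), ?_, y' * ((a j)⁻¹ * y * a j), ?_, ?_⟩
      · rw [Finset.sum_update_of_mem (Finset.mem_range.2 hj)]
        have h1 := Finset.add_sum_erase (Finset.range p) n (Finset.mem_range.2 hj)
        rw [Finset.sdiff_singleton_eq_erase]
        omega
      · have h1 := h.conj' hj hy
        have h2 : y' ∈ U (lam ^ (L.length + 1) * M0) ^ L.length := by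
          refine h.pow_mono (mul_nonneg (by positivity) h.hM0) ?_ hn hy'
          refine mul_le_mul_of_nonneg_right ?_ h.hM0
          exact pow_le_pow_right₀ h.hlam (by omega)
        have h3 : (a j)⁻¹ * y * a j ∈ U (lam ^ (L.length + 1) * M0) ^ (L.length * (L.length + 1)) := by
          rw [pow_succ' lam, mul_assoc]
          exact h1
        have h4 := Set.mul_mem_mul h2 h3
        rw [← pow_add] at h4
        refine h.pow_mono (mul_nonneg (by positivity) h.hM0) le_rfl ?_ h4
        nlinarith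
      · have h1 : pw a n p * y * a j = pw a n p * a j * ((a j)⁻¹ * y * a j) := by group
        rw [h1, hy'2]
        group
    · refine ⟨n, by omega, y * x, ?_, by rw [mul_assoc]⟩
      have h2 : y ∈ U (lam ^ (L.length + 1) * M0) ^ (L.length * (L.length + 1)) := by
        refine h.pow_mono (mul_nonneg (by positivity) h.hM0) ?_ le_rfl hy
        refine mul_le_mul_of_nonneg_right ?_ h.hM0
        exact pow_le_pow_right₀ h.hlam (by omega)
      have h3 : x ∈ U (lam ^ (L.length + 1) * M0) ^ 1 := by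
        rw [pow_one]
        refine h.mono _ _ ?_ hx
        have := one_le_pow₀ h.hlam (n := L.length + 1)
        nlinarith [h.hM0]
      have h4 := Set.mul_mem_mul h2 h3
      rw [← pow_add] at h4
      refine h.pow_mono (mul_nonneg (by positivity) h.hM0) le_rfl ?_ h4
      nlinarith

end sort

end Vale.Agent.P188.H615
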