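import Vale.Agent.P188.H615.SemQ
import Vale.Agent.P188.H615.Sort
import Vale.Agent.P188.H615.HypBox

/-!
The group `S / E` has subexponential growth: decomposition of balls into few pieces.
-/

open Finset Filter Topology Pointwise
open scoped commutatorElement

universe u v

namespace Vale.Agent.P188.H615

open Vale.Agent.P188.H796

section aux

variable {N : Type u} [Group N] {d n : ℕ} {D : MB N d n} {A : Type v} [NormedRing A]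
  [NormedAlgebra ℝ A] [FiniteDimensional ℝ A] {R : RD D A}

theorem sem_norm (q : Seminorm ℝ R.V) : ∃ C : ℝ, 0 ≤ C ∧ ∀ w : R.V, q w ≤ C * ‖(w : A)‖ := by
  classical
  let b := Module.finBasis ℝ R.V
  have hext : ∀ i, ∃ g : A →ₗ[ℝ] ℝ, ∀ w : R.V, g (w : A) = b.repr w i := by
    intro i
    obtain ⟨g, hg⟩ := LinearMap.exists_extend (b.coord i)
    exact ⟨g, fun w => LinearMap.congr_fun hg w⟩
  choose g hg using hext
  refine ⟨∑ i, ‖LinearMap.toContinuousLinearMap (g i)‖ * q (b i),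
    Finset.sum_nonneg fun i _ => mul_nonneg (norm_nonneg _) (apply_nonneg _ _), fun w => ?_⟩
  conv_lhs => rw [← b.sum_repr w]
  rw [Finset.sum_mul]
  refine (Finset.le_sum_of_subadditive q (map_zero q).le (map_add_le_add q) _ _).trans
    (Finset.sum_le_sum fun i _ => ?_)
  rw [map_smul_eq_mul]
  have h1 := (LinearMap.toContinuousLinearMap (g i)).le_opNorm (w : A)
  have h2 : (LinearMap.toContinuousLinearMap (g i)) (w : A) = b.repr w i := hg i w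
  rw [h2] at h1
  calc ‖b.repr w i‖ * q (b i) ≤ (‖LinearMap.toContinuousLinearMap (g i)‖ * ‖(w : A)‖) * q (b i) :=
        mul_le_mul_of_nonneg_right h1 (apply_nonneg _ _)
    _ = _ := by ring

/-- an element whose logarithm is small modulo `e` is `exp e` times a short element -/
theorem split_mod {e : LieIdeal ℝ R.V} {r : ℕ}
    {φ : R.V →ₗ[ℝ] (Fin r → ℝ)} {σ : (Fin r → ℝ) →ₗ[ℝ] R.V} (hφ : ∀ x, φ x = 0 ↔ x ∈ e)
    (hσ : ∀ y, φ (σ y) = y) {Cσ : ℝ} (hCσ : ∀ y, ‖((σ y : R.V) : A)‖ ≤ Cσ * ‖y‖) (w : R.NR)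
    (hw : Cσ * ‖φ (R.Lo w)‖ ≤ 1) :
    ∃ X ∈ e, ∃ z : R.V, ‖(z : A)‖ ≤ 1 ∧ w = R.Ex X * R.Ex z := by
  set z := σ (φ (R.Lo w)) with hz
  refine ⟨R.Lo (w * R.Ex (-z)), ?_, z, (hCσ _).trans hw, ?_⟩
  · have hb : ∀ x ∈ (⊤ : Submodule ℝ R.V), ∀ y ∈ e.toSubmodule, ⁅x, y⁆ ∈ e.toSubmodule :=
      fun x _ y hy => e.lie_mem hy
    have hmem : -(R.Lo w - z) ∈ e.toSubmodule := by
      refine e.neg_mem ((hφ _).1 ?_)
      rw [map_sub, hz, hσ, sub_self]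
    have h := Lo_mul_Ex_add' R (H := ⊤) (I := e.toSubmodule) (I' := e.toSubmodule) le_top le_rfl
      hb w (v := -z) (w := -(R.Lo w - z)) trivial hmem trivial
    have e1 : -z + -(R.Lo w - z) = -(R.Lo w) := by abel
    rw [e1, R.Ex_neg, R.Ex_Lo, mul_inv_cancel, Lo_one] at h
    have h2 := e.toSubmodule.add_mem h hmem
    have e2 : 0 - R.Lo (w * R.Ex (-z)) - -(R.Lo w - z) + -(R.Lo w - z) =
        -R.Lo (w * R.Ex (-z)) := by abel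
    rw [e2] at h2
    have h3 := e.toSubmodule.neg_mem h2
    rwa [neg_neg] at h3
  · rw [R.Ex_Lo, R.Ex_neg]; group

end aux

section main

variable {Γ : Type u} [Group Γ] {N : Subgroup Γ} [hN : N.Normal] {d n : ℕ} (D : MB N d n)

/-- length functions whose letters are a finite set and a ball of the Lie algebra -/
structure Lt (l : D.S → ℕ) (T : Finset D.S) (ρ : ℝ) : Prop where
  sub : SubN l
  one : l 1 = 0
  word : ∀ s, ∃ L : List D.S, L.length ≤ l s ∧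
    (∀ x ∈ L, x ∈ T ∨ ∃ v : D.R.V, ‖(v : D.Alg)‖ ≤ ρ ∧ D.ex v = x) ∧ L.prod = s
  short : ∃ C1 : ℕ, ∀ v : D.R.V, ‖(v : D.Alg)‖ ≤ 1 → l (D.ex v) ≤ C1

/-- elements of `exp V` of size at most `M` -/
def US (q : Seminorm ℝ D.R.V) (M : ℝ) : Set D.S := {s | ∃ v : D.R.V, q v ≤ M ∧ D.ex v = s}

variable {D}

theorem enum (T : Finset D.S) : ∃ (p : ℕ) (a : ℕ → D.S), (∀ i < p, a i ∈ T) ∧
    ∀ x ∈ T, ∃ i < p, a i = x := by
  refine ⟨T.toList.length, fun i => T.toList.getD i 1, fun i hi => ?_, fun x hx => ?_⟩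
  · simp only
    rw [List.getD_eq_getElem _ _ hi, ← Finset.mem_toList]
    exact List.getElem_mem hi
  · obtain ⟨i, hi, h⟩ := List.mem_iff_getElem.1 (Finset.mem_toList.2 hx)
    exact ⟨i, hi, by simp only; rw [List.getD_eq_getElem _ _ hi, h]⟩

theorem sortD_US (hcomm : ∀ s s' : D.S, ⁅s, s'⁆ ∈ (D.inN : D.R.NR →* D.S).range)
    (q : Seminorm ℝ D.R.V) {κ : ℝ} (hκ : 0 ≤ κ) {a : ℕ → D.S} {p : ℕ}
    (ha : ∀ i < p, ∀ x, q (D.AdE (a i)⁻¹ x) ≤ Real.exp κ * q x) (ρ : ℝ) :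
    ∃ M0 : ℝ, 1 ≤ M0 ∧ (∀ v : D.R.V, ‖(v : D.Alg)‖ ≤ ρ → q v ≤ M0) ∧
      SortD a p (US D q) (Real.exp κ) M0 := by
  classical
  obtain ⟨C, hC, hqC⟩ := sem_norm (R := D.R) q
  have hc : ∀ i j, ∃ w : D.R.V, D.ex w = (a i)⁻¹ * (a j)⁻¹ * a i * a j := by
    intro i j
    obtain ⟨k, hk⟩ := hcomm (a i)⁻¹ (a j)⁻¹
    refine ⟨D.R.Lo k, ?_⟩
    rw [MB.ex, D.R.Ex_Lo, hk, commutatorElement_def, inv_inv, inv_inv]
  choose w hw using hc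
  set K : ℝ := ∑ i ∈ range p, ∑ j ∈ range p, q (w i j) with hK
  have hK0 : 0 ≤ K := Finset.sum_nonneg fun i _ => Finset.sum_nonneg fun j _ => apply_nonneg _ _
  refine ⟨1 + C * |ρ| + K, ?_, fun v hv => ?_, ?_⟩
  · have := mul_nonneg hC (abs_nonneg ρ)
    linarith
  · refine (hqC v).trans ?_
    have h1 : C * ‖(v : D.Alg)‖ ≤ C * |ρ| :=
      mul_le_mul_of_nonneg_left (hv.trans (le_abs_self ρ)) hC
    linarith
  · refine ⟨fun M hM => ⟨0, by rw [map_zero]; exact hM, ?_⟩, fun M M' hMM x hx => ?_,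
      Real.one_le_exp hκ, ?_, ?_, ?_⟩
    · rw [MB.ex, D.R.Ex_zero, map_one]
    · obtain ⟨v, hv, rfl⟩ := hx
      exact ⟨v, hv.trans hMM, rfl⟩
    · have := mul_nonneg hC (abs_nonneg ρ)
      linarith
    · rintro i hi M _ ⟨v, hv, rfl⟩
      refine ⟨D.Ad (a i)⁻¹ v, ?_, ?_⟩
      · refine (ha i hi v).trans ?_
        exact mul_le_mul_of_nonneg_left hv (Real.exp_pos _).le
      · rw [D.ex_Ad, inv_inv]
    · intro i hi j hj
      refine ⟨w i j, ?_, hw i j⟩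
      have h1 : q (w i j) ≤ ∑ j ∈ range p, q (w i j) :=
        Finset.single_le_sum (f := fun j => q (w i j)) (fun j _ => apply_nonneg _ _)
          (mem_range.2 hj)
      have h2 : ∑ j ∈ range p, q (w i j) ≤ K :=
        Finset.single_le_sum (f := fun i => ∑ j ∈ range p, q (w i j))
          (fun i _ => Finset.sum_nonneg fun j _ => apply_nonneg _ _) (mem_range.2 hi)
      have := mul_nonneg hC (abs_nonneg ρ)
      linarith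

/-- products of letters, downstairs -/
theorem US_pow {q : Seminorm ℝ D.R.V} {M : ℝ} {K : Set D.R.V} (h : ∀ v, q v ≤ M → v ∈ K) (r : ℕ) :
    ∀ s ∈ US D q M ^ r, ∃ x ∈ EK D.R K ^ r, D.inN x = s := by
  induction r with
  | zero =>
    intro s hs
    rw [pow_zero, Set.mem_one] at hs
    exact ⟨1, by simp, by rw [map_one, hs]⟩
  | succ r ih =>
    intro s hs
    rw [pow_succ] at hs
    obtain ⟨y, hy, z, ⟨v, hv, rfl⟩, rfl⟩ := hs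
    obtain ⟨x, hx, rfl⟩ := ih y hy
    refine ⟨x * D.R.Ex v, ?_, by rw [map_mul]; rfl⟩
    rw [pow_succ]
    refine Set.mul_mem_mul hx ?_
    rw [mem_EK, D.R.Lo_Ex]
    exact h v hv

/-- constants of a seminorm vanishing exactly on `e` -/
structure QC (D : MB N d n) (e : LieIdeal ℝ D.R.V) {r : ℕ} (φ : D.R.V →ₗ[ℝ] (Fin r → ℝ))
    (σ : (Fin r → ℝ) →ₗ[ℝ] D.R.V) (q : Seminorm ℝ D.R.V) (Cq Cc Cσ C2 : ℝ) : Prop where
  hφ : ∀ x, φ x = 0 ↔ x ∈ e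
  hσ : ∀ y, φ (σ y) = y
  hCσ : ∀ y, ‖((σ y : D.R.V) : D.Alg)‖ ≤ Cσ * ‖y‖
  Cσ1 : 1 ≤ Cσ
  Cq1 : 1 ≤ Cq
  lie : ∀ x y : D.R.V, q ⁅x, y⁆ ≤ Cq * (q x * q y)
  Cc1 : 1 ≤ Cc
  coord : ∀ x, ‖φ x‖ ≤ Cc * q x
  coord' : ∀ x, q x ≤ Cc * ‖φ x‖
  C21 : 1 ≤ C2
  bch : ∀ K : Set D.R.V, CSV D.R K (D.R.m ^ 2 * 2 ^ D.R.m) → ∀ c : ℝ, 0 ≤ c → c ≤ 1 →
    (∀ x ∈ EK D.R K, ∀ y ∈ EK D.R (c • K), D.R.Lo (x * y) - D.R.Lo x ∈ (C2 * c) • K) ∧
    (∀ x ∈ EK D.R K, ∀ y : D.R.NR, D.R.Lo y - D.R.Lo x ∈ c • K →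
      x⁻¹ * y ∈ EK D.R ((C2 * c) • K))

omit hN in
theorem exists_C2 (D : MB N d n) : ∃ C2 : ℝ, 1 ≤ C2 ∧
    ∀ K : Set D.R.V, CSV D.R K (D.R.m ^ 2 * 2 ^ D.R.m) → ∀ c : ℝ, 0 ≤ c → c ≤ 1 →
    (∀ x ∈ EK D.R K, ∀ y ∈ EK D.R (c • K), D.R.Lo (x * y) - D.R.Lo x ∈ (C2 * c) • K) ∧
    (∀ x ∈ EK D.R K, ∀ y : D.R.NR, D.R.Lo y - D.R.Lo x ∈ c • K →
      x⁻¹ * y ∈ EK D.R ((C2 * c) • K)) := by
  obtain ⟨C, hC, H⟩ := qbchE D.R (C0 := D.R.m ^ 2 * 2 ^ D.R.m) (by positivity)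
  refine ⟨max 1 C, le_max_left _ _, fun K hK c hc0 hc1 => ?_⟩
  obtain ⟨h1, _, h3⟩ := H K hK c hc0 hc1
  have hle : C * c ≤ max 1 C * c := mul_le_mul_of_nonneg_right (le_max_right _ _) hc0
  refine ⟨fun x hx y hy => hK.mem_mono (by positivity) hle (h1 x hx y hy), fun x hx y hy => ?_⟩
  exact hK.mem_mono (by positivity) hle (h3 x hx y hy)

/-- the box containing all products of `r0` letters of size `M` -/
theorem QC.box {D : MB N d n} {e : LieIdeal ℝ D.R.V} {r : ℕ} {φ : D.R.V →ₗ[ℝ] (Fin r → ℝ)}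
    {σ : (Fin r → ℝ) →ₗ[ℝ] D.R.V} {q : Seminorm ℝ D.R.V} {Cq Cc Cσ C2 : ℝ}
    (h : QC D e φ σ q Cq Cc Cσ C2) {M r1 : ℝ} (hM : 1 ≤ M) (hr1 : 1 ≤ r1) {r0 : ℕ}
    (hr0 : (r0 : ℝ) ≤ r1) : ∃ K1 : Set D.R.V,
      (∀ s ∈ US D q M ^ r0, ∃ x : D.R.NR, D.R.Lo x ∈ K1 ∧ D.inN x = s) ∧
      (∀ X ∈ K1, q X ≤ D.R.m * (Cq ^ D.R.m * (C2 * r1 * M) ^ D.R.m)) ∧
      ∀ x y : D.R.NR, D.R.Lo x ∈ K1 → D.R.Lo y ∈ K1 → ∀ δ : ℝ, 0 < δ → δ ≤ 1 →
        C2 * δ * (D.R.m * (Cq ^ D.R.m * (C2 * r1 * M) ^ D.R.m)) * Cc * Cσ ≤ 1 →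
        q (D.R.Lo y - D.R.Lo x) ≤ δ →
        ∃ X ∈ e, ∃ z : D.R.V, ‖(z : D.Alg)‖ ≤ 1 ∧ x⁻¹ * y = D.R.Ex X * D.R.Ex z := by
  have hC2 := h.C21
  have hC20 : 0 < C2 := by linarith
  have hCc := h.Cc1
  have hCσ := h.Cσ1
  have hr10 : 0 < r1 := by linarith
  have hρ1 : 1 ≤ C2 * r1 * M := by
    have h1 : 1 ≤ C2 * r1 := by nlinarith
    nlinarith
  set ρ1 := C2 * r1 * M with hρ
  have hcs : CSy {v : D.R.V | q v ≤ ρ1} := csy_ball q (by linarith)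
  have hK : CSV D.R (nb {v : D.R.V | q v ≤ ρ1}) (D.R.m ^ 2 * 2 ^ D.R.m) := csv_nb hcs
  refine ⟨nb {v : D.R.V | q v ≤ ρ1}, ?_, fun X hX => q_nb_le q h.Cq1 h.lie hρ1 hX, ?_⟩
  · intro s hs
    set a : ℝ := 1 / (C2 * r1) with ha
    have ha0 : 0 < a := by positivity
    have ha1 : a ≤ 1 := by
      rw [ha, div_le_one (by positivity)]
      nlinarith
    have hletter : ∀ v, q v ≤ M → v ∈ a • nb {v : D.R.V | q v ≤ ρ1} := by
      intro v hv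
      refine Set.smul_set_mono (sub_nb hcs) (smul_ball q ha0 ?_)
      have : a * ρ1 = M := by rw [ha, hρ]; field_simp
      rw [this]; exact hv
    obtain ⟨x, hx, rfl⟩ := US_pow (D := D) hletter r0 s hs
    have h1 : C2 * a * r0 ≤ 1 := by
      have e1 : C2 * a * r0 = r0 / r1 := by rw [ha]; field_simp
      rw [e1, div_le_one hr10]; exact hr0
    have h2 := prod_letters hC20.le hK (fun c h0 h1 => (h.bch _ hK c h0 h1).1) ha0.le ha1 r0 h1 x hx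
    exact ⟨x, hK.mem_of_smul (by positivity) h1 h2, rfl⟩
  · intro x y hx hy δ hδ hδ1 hbound hxy
    set c : ℝ := δ / ρ1 with hc
    have hρ0 : 0 < ρ1 := by linarith
    have hc0 : 0 < c := by positivity
    have hcδ : c ≤ δ := by
      rw [hc, div_le_iff₀ hρ0]
      nlinarith
    have hmem : D.R.Lo y - D.R.Lo x ∈ c • nb {v : D.R.V | q v ≤ ρ1} := by
      refine Set.smul_set_mono (sub_nb hcs) (smul_ball q hc0 ?_)
      have : c * ρ1 = δ := by rw [hc]; field_simp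
      rw [this]; exact hxy
    have h1 := (h.bch _ hK c hc0.le (hcδ.trans hδ1)).2 x hx y hmem
    obtain ⟨w, hw, hw2⟩ := mem_EK.1 h1
    simp only at hw2
    refine split_mod h.hφ h.hσ h.hCσ _ ?_
    have h2 : q (D.R.Lo (x⁻¹ * y)) ≤
        C2 * δ * (D.R.m * (Cq ^ D.R.m * ρ1 ^ D.R.m)) := by
      rw [← hw2, map_smul_eq_mul, Real.norm_of_nonneg (by positivity)]
      refine mul_le_mul ?_ (q_nb_le q h.Cq1 h.lie hρ1 hw) (apply_nonneg _ _) (by positivity)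
      exact mul_le_mul_of_nonneg_left hcδ hC20.le
    calc Cσ * ‖φ (D.R.Lo (x⁻¹ * y))‖ ≤ Cσ * (Cc * q (D.R.Lo (x⁻¹ * y))) :=
          mul_le_mul_of_nonneg_left (h.coord _) (by linarith)
      _ ≤ Cσ * (Cc * (C2 * δ * (D.R.m * (Cq ^ D.R.m * ρ1 ^ D.R.m)))) := by
          refine mul_le_mul_of_nonneg_left (mul_le_mul_of_nonneg_left h2 ?_) ?_ <;> linarith
      _ = C2 * δ * (D.R.m * (Cq ^ D.R.m * ρ1 ^ D.R.m)) * Cc * Cσ := by ring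
      _ ≤ 1 := hbound

/-- counting: cells of the coordinates -/
theorem floor_mem {t δ' B : ℝ} {L : ℕ} (hδ : 0 < δ') (ht : |t| ≤ B) (hL : B / δ' ≤ L) :
    ⌊t / δ'⌋ ∈ Finset.Icc (-(L : ℤ)) L := by
  have h1 : |t / δ'| ≤ L := by
    rw [abs_div, abs_of_pos hδ]
    exact (div_le_div_of_nonneg_right ht hδ.le).trans hL
  obtain ⟨h2, h3⟩ := abs_le.1 h1
  rw [Finset.mem_Icc]
  constructor
  · rw [Int.le_floor]; push_cast; exact h2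
  · have h4 := (Int.floor_le (t / δ')).trans h3
    exact_mod_cast h4

theorem abs_sub_of_floor {t t' δ' : ℝ} (hδ : 0 < δ') (h : ⌊t / δ'⌋ = ⌊t' / δ'⌋) :
    |t - t'| ≤ δ' := by
  have h1 := Int.abs_sub_lt_one_of_floor_eq_floor h
  rw [← sub_div, abs_div, abs_of_pos hδ, div_lt_one hδ] at h1
  exact h1.le

theorem num1 {m : ℝ} {k : ℕ} {Cq C2 M0 κ u B : ℝ} (hm1 : 1 ≤ m) (hCq : 1 ≤ Cq) (hC2 : 1 ≤ C2)
    (hM0 : 1 ≤ M0) (hκ : 0 ≤ κ) (R : ℕ) (hu : u = (R + 1) * Real.exp (κ * R))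
    (hB : B = m * (Cq ^ k * (C2 * M0 * u ^ 2) ^ k)) :
    1 ≤ Real.exp κ ^ R * M0 ∧
      m * (Cq ^ k * (C2 * (R + 1) ^ 2 * (Real.exp κ ^ R * M0)) ^ k) ≤ B ∧ 1 ≤ B := by
  have hRn : (0 : ℝ) ≤ R := Nat.cast_nonneg R
  have hexp1 : 1 ≤ Real.exp (κ * R) := Real.one_le_exp (by positivity)
  have hu1 : 1 ≤ u := by rw [hu]; nlinarith
  have hMe : Real.exp κ ^ R * M0 = Real.exp (κ * R) * M0 := by
    rw [← Real.exp_nat_mul, mul_comm (R : ℝ) κ]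
  refine ⟨by rw [hMe]; nlinarith, ?_, ?_⟩
  · rw [hB]
    refine mul_le_mul_of_nonneg_left ?_ (by linarith)
    refine mul_le_mul_of_nonneg_left ?_ (pow_nonneg (by linarith) _)
    refine pow_le_pow_left₀ (by positivity) ?_ _
    have e1 : C2 * (R + 1) ^ 2 * (Real.exp κ ^ R * M0) =
        C2 * M0 * ((R + 1) * ((R + 1) * Real.exp (κ * R))) := by
      rw [hMe]; ring
    rw [e1, ← hu]
    refine mul_le_mul_of_nonneg_left ?_ (by positivity)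
    have hRu : (R : ℝ) + 1 ≤ u := by rw [hu]; nlinarith
    nlinarith
  · rw [hB]
    have h1 : 1 ≤ Cq ^ k := one_le_pow₀ hCq
    have h2 : 1 ≤ (C2 * M0 * u ^ 2) ^ k := by
      refine one_le_pow₀ ?_
      have h3 : 1 ≤ C2 * M0 := by nlinarith
      have h4 : 1 ≤ u ^ 2 := one_le_pow₀ hu1
      nlinarith
    have h5 : 1 ≤ Cq ^ k * (C2 * M0 * u ^ 2) ^ k := by nlinarith
    nlinarith

theorem num2 {C2 Cc Cσ B B' : ℝ} (hC2 : 1 ≤ C2) (hCc : 1 ≤ Cc) (hCσ : 1 ≤ Cσ) (hB1 : 1 ≤ B)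
    (hBle : B' ≤ B) : ∃ δ : ℝ, 0 < δ ∧ δ ≤ 1 ∧ C2 * δ * B' * Cc * Cσ ≤ 1 ∧
      Cc * B / (δ / Cc) = Cc ^ 3 * C2 * Cσ * B ^ 2 ∧ Cc * (δ / Cc) = δ := by
  have hprod1 : 1 ≤ C2 * B * Cc * Cσ := by
    have h1 : 1 ≤ C2 * B := by nlinarith
    have h2 : 1 ≤ C2 * B * Cc := by nlinarith
    nlinarith
  have hC20 : 0 < C2 := by linarith
  have hCc0 : 0 < Cc := by linarith
  have hCσ0 : 0 < Cσ := by linarith
  have hB0 : 0 < B := by linarith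
  refine ⟨1 / (C2 * B * Cc * Cσ), by positivity, ?_, ?_, ?_, ?_⟩
  · rw [div_le_one (by positivity)]; exact hprod1
  · have h1 : C2 * (1 / (C2 * B * Cc * Cσ)) * B' * Cc * Cσ ≤
        C2 * (1 / (C2 * B * Cc * Cσ)) * B * Cc * Cσ := by
      refine mul_le_mul_of_nonneg_right (mul_le_mul_of_nonneg_right
        (mul_le_mul_of_nonneg_left hBle (by positivity)) (by linarith)) (by linarith)
    refine h1.trans (le_of_eq ?_)
    field_simp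
  · field_simp
  · field_simp

/-- cells of the ball of radius `R` -/
theorem QC.cells {D : MB N d n} {e : LieIdeal ℝ D.R.V} {r : ℕ} {φ : D.R.V →ₗ[ℝ] (Fin r → ℝ)}
    {σ : (Fin r → ℝ) →ₗ[ℝ] D.R.V} {q : Seminorm ℝ D.R.V} {Cq Cc Cσ C2 : ℝ}
    (h : QC D e φ σ q Cq Cc Cσ C2) {l : D.S → ℕ} {T : Finset D.S} {ρ : ℝ} (hl : Lt D l T ρ)
    {p : ℕ} {a : ℕ → D.S} (haT : ∀ x ∈ T, ∃ i < p, a i = x) {κ M0 : ℝ} (hκ : 0 ≤ κ)
    (hM0 : 1 ≤ M0) (hρM : ∀ v : D.R.V, ‖(v : D.Alg)‖ ≤ ρ → q v ≤ M0)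
    (hS : SortD a p (US D q) (Real.exp κ) M0) (R : ℕ) {u B : ℝ}
    (hu : u = (R + 1) * Real.exp (κ * R))
    (hB : B = D.R.m * (Cq ^ D.R.m * (C2 * M0 * u ^ 2) ^ D.R.m)) :
    ∃ (K1 : Set D.R.V) (δ' : ℝ) (L : ℕ), (L : ℝ) ≤ Cc ^ 3 * C2 * Cσ * B ^ 2 + 1 ∧
      (∀ s, l s ≤ R → ∃ (nn : ℕ → ℕ) (x : D.R.NR), s = pw a nn p * D.inN x ∧ D.R.Lo x ∈ K1 ∧
        (∀ i < p, nn i < R + 1) ∧ ∀ j, ⌊φ (D.R.Lo x) j / δ'⌋ ∈ Finset.Icc (-(L : ℤ)) L) ∧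
      ∀ x y : D.R.NR, D.R.Lo x ∈ K1 → D.R.Lo y ∈ K1 →
        (∀ j, ⌊φ (D.R.Lo x) j / δ'⌋ = ⌊φ (D.R.Lo y) j / δ'⌋) →
        ∃ X ∈ e, ∃ z : D.R.V, ‖(z : D.Alg)‖ ≤ 1 ∧ x⁻¹ * y = D.R.Ex X * D.R.Ex z := by
  have hC2 := h.C21
  have hCc := h.Cc1
  have hCσ := h.Cσ1
  have hCq := h.Cq1
  have hm1 : (1 : ℝ) ≤ D.R.m := by exact_mod_cast D.R.hm0
  have hRn : (0 : ℝ) ≤ R := Nat.cast_nonneg R
  obtain ⟨hM1, hBle, hB1⟩ := num1 hm1 hCq hC2 hM0 hκ R hu hB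
  set M : ℝ := Real.exp κ ^ R * M0 with hM
  have hr1 : (1 : ℝ) ≤ (R + 1) ^ 2 := by nlinarith
  have hr0 : ((R * (R + 1) : ℕ) : ℝ) ≤ ((R : ℝ) + 1) ^ 2 := by push_cast; nlinarith
  obtain ⟨K1, hK1a, hK1b, hK1c⟩ := h.box hM1 hr1 hr0
  obtain ⟨δ, hδ0, hδ1, hδb, hδL, hδc⟩ := num2 hC2 hCc hCσ hB1 hBle
  set δ' : ℝ := δ / Cc with hδ'
  have hδ'0 : 0 < δ' := div_pos hδ0 (by linarith)
  set L : ℕ := ⌈Cc ^ 3 * C2 * Cσ * B ^ 2⌉₊ with hL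
  have hLle : Cc * B / δ' ≤ L := by
    rw [hδL]; exact Nat.le_ceil _
  refine ⟨K1, δ', L, (Nat.ceil_lt_add_one (by
    have := sq_nonneg B
    have : 0 ≤ Cc ^ 3 := pow_nonneg (by linarith) 3
    exact mul_nonneg (mul_nonneg (mul_nonneg this (by linarith)) (by linarith))
      (sq_nonneg B))).le, ?_, ?_⟩
  · intro s hs
    obtain ⟨Lw, hLw, hL2, hL3⟩ := hl.word s
    obtain ⟨nn, hnn, y, hy, hy2⟩ := hS.sort Lw (by
      intro x hx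
      rcases hL2 x hx with hT | ⟨v, hv, rfl⟩
      · exact Or.inl (haT x hT)
      · exact Or.inr ⟨v, hρM v hv, rfl⟩)
    have hlen : Lw.length ≤ R := hLw.trans hs
    have hy' : y ∈ US D q M ^ (R * (R + 1)) := by
      refine hS.pow_mono ?_ ?_ ?_ hy
      · have : 0 ≤ M0 := by linarith
        positivity
      · rw [hM]
        refine mul_le_mul_of_nonneg_right ?_ (by linarith)
        exact pow_le_pow_right₀ (Real.one_le_exp hκ) hlen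
      · exact Nat.mul_le_mul hlen (by omega)
    obtain ⟨x, hx, rfl⟩ := hK1a y hy'
    refine ⟨nn, x, by rw [← hL3, hy2], hx, ?_, ?_⟩
    · intro i hi
      have h1 : nn i ≤ ∑ i ∈ range p, nn i :=
        Finset.single_le_sum (f := nn) (fun i _ => Nat.zero_le _) (mem_range.2 hi)
      omega
    · intro j
      refine floor_mem hδ'0 (B := Cc * B) ?_ hLle
      have h1 : |φ (D.R.Lo x) j| ≤ ‖φ (D.R.Lo x)‖ := norm_le_pi_norm (φ (D.R.Lo x)) j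
      refine h1.trans ((h.coord _).trans ?_)
      exact mul_le_mul_of_nonneg_left ((hK1b _ hx).trans hBle) (by linarith)
  · intro x y hx hy hxy
    refine hK1c x y hx hy δ hδ0 hδ1 hδb ?_
    refine (h.coord' _).trans ?_
    have h1 : ‖φ (D.R.Lo y - D.R.Lo x)‖ ≤ δ' := by
      rw [pi_norm_le_iff_of_nonneg hδ'0.le]
      intro j
      rw [map_sub, Pi.sub_apply]
      exact abs_sub_of_floor hδ'0 (hxy j).symm
    exact (mul_le_mul_of_nonneg_left h1 (by linarith)).trans hδc.le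

open Classical in
/-- **pieces at one radius** -/
theorem QC.pieces {D : MB N d n} {e : LieIdeal ℝ D.R.V} {r : ℕ} {φ : D.R.V →ₗ[ℝ] (Fin r → ℝ)}
    {σ : (Fin r → ℝ) →ₗ[ℝ] D.R.V} {q : Seminorm ℝ D.R.V} {Cq Cc Cσ C2 : ℝ}
    (h : QC D e φ σ q Cq Cc Cσ C2) {l : D.S → ℕ} {T : Finset D.S} {ρ : ℝ} (hl : Lt D l T ρ)
    {p : ℕ} {a : ℕ → D.S} (haT : ∀ x ∈ T, ∃ i < p, a i = x) {κ M0 : ℝ} (hκ : 0 ≤ κ)
    (hM0 : 1 ≤ M0) (hρM : ∀ v : D.R.V, ‖(v : D.Alg)‖ ≤ ρ → q v ≤ M0)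
    (hS : SortD a p (US D q) (Real.exp κ) M0) {C1 : ℕ}
    (hC1 : ∀ v : D.R.V, ‖(v : D.Alg)‖ ≤ 1 → l (D.ex v) ≤ C1) (R : ℕ) {u B : ℝ}
    (hu : u = (R + 1) * Real.exp (κ * R))
    (hB : B = D.R.m * (Cq ^ D.R.m * (C2 * M0 * u ^ 2) ^ D.R.m)) :
    ∃ P : Finset D.S,
      (P.card : ℝ) ≤ u ^ p * (2 * (Cc ^ 3 * C2 * Cσ * B ^ 2 + 1) + 1) ^ r ∧
      (∀ x ∈ P, l x ≤ R) ∧
      ∀ s : D.S, l s ≤ R → ∃ x ∈ P, ∃ X ∈ e, ∃ b : D.S, s = x * D.ex X * b ∧ l b ≤ C1 := by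
  obtain ⟨K1, δ', L, hL, hc1, hc2⟩ := h.cells hl haT hκ hM0 hρM hS R hu hB
  have hRn : (0 : ℝ) ≤ R := Nat.cast_nonneg R
  have hexp1 : 1 ≤ Real.exp (κ * R) := Real.one_le_exp (by positivity)
  have hRu : (R : ℝ) + 1 ≤ u := by rw [hu]; nlinarith
  -- cells
  let Q : (Fin p → ℕ) × (Fin r → ℤ) → D.S → Prop := fun c s =>
    ∃ (nn : ℕ → ℕ) (x : D.R.NR), s = pw a nn p * D.inN x ∧ D.R.Lo x ∈ K1 ∧
      (∀ i : Fin p, nn i = c.1 i) ∧ ∀ j, ⌊φ (D.R.Lo x) j / δ'⌋ = c.2 j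
  let I : Finset ((Fin p → ℕ) × (Fin r → ℤ)) :=
    Fintype.piFinset (fun _ => range (R + 1)) ×ˢ
      Fintype.piFinset (fun _ => Finset.Icc (-(L : ℤ)) L)
  have hcard : (I.card : ℝ) ≤ u ^ p * (2 * (Cc ^ 3 * C2 * Cσ * B ^ 2 + 1) + 1) ^ r := by
    have h1 : I.card = (R + 1) ^ p * (2 * L + 1) ^ r := by
      rw [Finset.card_product, Fintype.card_piFinset_const, Fintype.card_piFinset_const,
        Finset.card_range, Int.card_Icc]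
      congr 2
      omega
    rw [h1]
    push_cast
    refine mul_le_mul (pow_le_pow_left₀ (by positivity) hRu p) ?_ (by positivity) (by
      exact pow_nonneg (by linarith) p)
    refine pow_le_pow_left₀ (by positivity) ?_ r
    linarith
  let g : (Fin p → ℕ) × (Fin r → ℤ) → D.S := fun c =>
    if hc : ∃ s, l s ≤ R ∧ Q c s then hc.choose else 1
  refine ⟨I.image g, ?_, ?_, ?_⟩
  · refine le_trans ?_ hcard
    exact_mod_cast Finset.card_image_le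
  · intro x hx
    obtain ⟨c, _, rfl⟩ := Finset.mem_image.1 hx
    by_cases hc : ∃ s, l s ≤ R ∧ Q c s
    · simp only [g, dif_pos hc]
      exact hc.choose_spec.1
    · simp only [g, dif_neg hc]
      rw [hl.one]; exact Nat.zero_le _
  · intro s hs
    obtain ⟨nn, y, hy1, hy2, hy3, hy4⟩ := hc1 s hs
    set c : (Fin p → ℕ) × (Fin r → ℤ) := (fun i => nn i, fun j => ⌊φ (D.R.Lo y) j / δ'⌋) with hcdef
    have hcI : c ∈ I := by
      rw [Finset.mem_product]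
      constructor
      · rw [Fintype.mem_piFinset]
        intro i
        exact mem_range.2 (hy3 i i.2)
      · rw [Fintype.mem_piFinset]
        exact hy4
    have hc : ∃ s, l s ≤ R ∧ Q c s := ⟨s, hs, nn, y, hy1, hy2, fun _ => rfl, fun _ => rfl⟩
    refine ⟨g c, Finset.mem_image_of_mem g hcI, ?_⟩
    have hg : Q c (g c) := by
      simp only [g, dif_pos hc]
      exact hc.choose_spec.2
    obtain ⟨nn', x, hx1, hx2, hx3, hx4⟩ := hg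
    have hpw : pw a nn' p = pw a nn p := pw_congr a fun i hi => hx3 ⟨i, hi⟩
    obtain ⟨X, hX, z, hz, hxy⟩ := hc2 x y hx2 hy2 hx4
    refine ⟨X, hX, D.ex z, ?_, hC1 z hz⟩
    rw [hx1, hy1, hpw, MB.ex, MB.ex, mul_assoc, mul_assoc, ← map_mul, ← map_mul, ← hxy]
    congr 2
    group

end main

end Vale.Agent.P188.H615
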