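import Vale.Agent.P188.H615.DexL

/-!
Quantitative BCH: for a convex symmetric set `K` with `[K, K] ⊆ C0 K`,
`log (exp X * exp (c Y)) - X ∈ (C c) K` for `X, Y ∈ K`, `0 ≤ c ≤ 1`, with `C = C(m, C0)`.
-/

open Finset Filter Topology Pointwise

namespace Vale.Agent.P188.H615

open Vale.Agent.P188.H796

section poly

variable {A : Type*} [NormedRing A] [NormedAlgebra ℝ A]

/-- evaluation of a polynomial with coefficients in `A` at a real number -/
noncomputable def ev (s : ℝ) : Polynomial A →ₐ[ℝ] A :=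
  Polynomial.eval₂AlgHom (AlgHom.id ℝ A) (algebraMap ℝ A s)
    (fun a => (Algebra.commutes s a).symm)

theorem ev_C (s : ℝ) (a : A) : ev s (Polynomial.C a) = a :=
  Polynomial.eval₂_C _ _

theorem ev_X (s : ℝ) : ev s (Polynomial.X : Polynomial A) = algebraMap ℝ A s :=
  Polynomial.eval₂_X _ _

theorem ev_monomial (s : ℝ) (n : ℕ) (a : A) : ev s (Polynomial.monomial n a) = s ^ n • a := by
  rw [← Polynomial.C_mul_X_pow_eq_monomial, map_mul, map_pow, ev_C, ev_X, ← map_pow,
    ← Algebra.commutes, ← Algebra.smul_def]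

theorem ev_eq_sum (s : ℝ) (P : Polynomial A) (n : ℕ) (hn : P.natDegree < n) :
    ev s P = ∑ k ∈ range n, s ^ k • P.coeff k := by
  conv_lhs => rw [P.as_sum_range' n hn, map_sum]
  exact sum_congr rfl fun k _ => ev_monomial s k _

theorem ev_injective {P : Polynomial A} (h : ∀ s : ℝ, ev s P = 0) : P = 0 := by
  ext k
  rw [Polynomial.coeff_zero]
  refine (Module.forall_dual_apply_eq_zero_iff ℝ (P.coeff k)).1 fun φ => ?_
  let p : Polynomial ℝ := ∑ j ∈ range (P.natDegree + 1), Polynomial.C (φ (P.coeff j)) *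
    Polynomial.X ^ j
  have hp : ∀ s : ℝ, p.eval s = 0 := by
    intro s
    have h1 := congrArg φ (h s)
    rw [ev_eq_sum s P _ (Nat.lt_succ_self _), map_sum, map_zero] at h1
    rw [← h1]
    simp only [p, Polynomial.eval_finsetSum, Polynomial.eval_mul, Polynomial.eval_C,
      Polynomial.eval_pow, Polynomial.eval_X, map_smul, smul_eq_mul]
    exact sum_congr rfl fun k _ => mul_comm _ _
  have hp0 : p = 0 := Polynomial.funext fun s => by rw [hp s, Polynomial.eval_zero]
  by_cases hk : k ≤ P.natDegree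
  · have h2 := congrArg (fun q => Polynomial.coeff q k) hp0
    simp only [p, Polynomial.finsetSum_coeff, Polynomial.coeff_C_mul, Polynomial.coeff_X_pow,
      Polynomial.coeff_zero] at h2
    rw [sum_eq_single k] at h2
    · simpa using h2
    · intro b _ hb
      rw [if_neg (Ne.symm hb), mul_zero]
    · intro hb
      exact absurd (mem_range.2 (Nat.lt_succ_of_le hk)) hb
  · rw [Polynomial.coeff_eq_zero_of_natDegree_lt (not_le.1 hk), map_zero]

theorem hasDerivAt_ev (P : Polynomial A) (s : ℝ) :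
    HasDerivAt (fun s => ev s P) (ev s (Polynomial.derivative P)) s := by
  induction P using Polynomial.induction_on' with
  | add p q hp hq =>
    simp only [map_add]
    exact hp.fun_add hq
  | monomial n a =>
    simp only [ev_monomial, Polynomial.derivative_monomial]
    have h1 := (hasDerivAt_pow n s).smul_const a
    refine h1.congr_deriv ?_
    rw [mul_comm (n : ℝ), mul_smul, Nat.cast_smul_eq_nsmul, nsmul_eq_mul,
      (Nat.cast_commute n a).eq]

end poly

section sets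

variable {A : Type*} [Ring A]

/-- iterated brackets of polynomials -/
noncomputable def Qi (P Q : Polynomial A) : ℕ → Polynomial A
  | 0 => Q
  | i + 1 => P * Qi P Q i - Qi P Q i * P

theorem coeff_bracket (P Q : Polynomial A) (j : ℕ) : (P * Q - Q * P).coeff j =
    ∑ x ∈ antidiagonal j, (P.coeff x.1 * Q.coeff x.2 - Q.coeff x.2 * P.coeff x.1) := by
  rw [Polynomial.coeff_sub, Polynomial.coeff_mul, Polynomial.coeff_mul, sum_sub_distrib]
  congr 1
  exact (Finset.Nat.sum_antidiagonal_swap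
    (f := fun x : ℕ × ℕ => Q.coeff x.1 * P.coeff x.2) (n := j)).symm

/-- the affine polynomial `X + s Y` -/
noncomputable def lin (X Y : A) : Polynomial A :=
  Polynomial.C X + Polynomial.C Y * Polynomial.X

theorem lin_natDegree (X Y : A) : (lin X Y).natDegree ≤ 1 := by
  refine (Polynomial.natDegree_add_le _ _).trans (max_le (by simp) ?_)
  refine Polynomial.natDegree_mul_le.trans ?_
  rw [Polynomial.natDegree_C, zero_add]
  exact Polynomial.natDegree_X_le

theorem lin_coeff (X Y : A) (j : ℕ) :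
    (lin X Y).coeff j = if j = 0 then X else if j = 1 then Y else 0 := by
  unfold lin
  rw [Polynomial.coeff_add, Polynomial.coeff_C]
  rcases j with _ | _ | j
  · simp
  · simp
  · rw [Polynomial.coeff_mul_X, Polynomial.coeff_C]; simp

variable [Algebra ℝ A]

/-- convex symmetric sets, closed under brackets up to the factor `C0` -/
structure CS (K : Set A) (C0 : ℝ) : Prop where
  conv : Convex ℝ K
  zero : (0 : A) ∈ K
  neg : ∀ x ∈ K, -x ∈ K
  nonneg : 0 ≤ C0
  br : ∀ x ∈ K, ∀ y ∈ K, x * y - y * x ∈ C0 • K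

variable {K : Set A} {C0 : ℝ}

theorem CS.mem_zero (h : CS K C0) (a : ℝ) : (0 : A) ∈ a • K := ⟨0, h.zero, by simp⟩

theorem CS.mem_add (h : CS K C0) {a b : ℝ} (ha : 0 ≤ a) (hb : 0 ≤ b) {x y : A}
    (hx : x ∈ a • K) (hy : y ∈ b • K) : x + y ∈ (a + b) • K := by
  rw [h.conv.add_smul ha hb]
  exact Set.add_mem_add hx hy

theorem CS.mem_mono (h : CS K C0) {a b : ℝ} (ha : 0 ≤ a) (hab : a ≤ b) {x : A}
    (hx : x ∈ a • K) : x ∈ b • K := by
  have := h.mem_add ha (sub_nonneg.2 hab) hx (h.mem_zero (b - a))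
  rwa [add_zero, add_sub_cancel] at this

theorem CS.mem_neg (h : CS K C0) {a : ℝ} {x : A} (hx : x ∈ a • K) : -x ∈ a • K := by
  obtain ⟨y, hy, rfl⟩ := hx
  exact ⟨-y, h.neg y hy, by simp⟩

theorem CS.mem_smul (h : CS K C0) {a : ℝ} (t : ℝ) {x : A} (hx : x ∈ a • K) :
    t • x ∈ (|t| * a) • K := by
  rcases abs_choice t with ht | ht
  · rw [ht]
    obtain ⟨y, hy, rfl⟩ := hx
    exact ⟨y, hy, by simp only [mul_smul]⟩
  · rw [ht]
    have : t • x = -((-t) • x) := by simp
    rw [this]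
    refine h.mem_neg ?_
    obtain ⟨y, hy, rfl⟩ := hx
    exact ⟨y, hy, by simp only [mul_smul]⟩

theorem CS.mem_br (h : CS K C0) {a b : ℝ} {x y : A}
    (hx : x ∈ a • K) (hy : y ∈ b • K) : x * y - y * x ∈ (a * b * C0) • K := by
  obtain ⟨x, hx, rfl⟩ := hx
  obtain ⟨y, hy, rfl⟩ := hy
  obtain ⟨z, hz, hz2⟩ := h.br x hx y hy
  refine ⟨z, hz, ?_⟩
  simp only [smul_mul_assoc, mul_smul_comm, mul_smul] at hz2 ⊢
  rw [hz2, smul_sub, smul_sub, smul_comm b a]

theorem CS.mem_sum (h : CS K C0) {ι : Type*} (s : Finset ι) (a : ι → ℝ) (f : ι → A)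
    (ha : ∀ i ∈ s, 0 ≤ a i) (hf : ∀ i ∈ s, f i ∈ a i • K) :
    ∑ i ∈ s, f i ∈ (∑ i ∈ s, a i) • K := by
  classical
  induction s using Finset.induction_on with
  | empty => simpa using h.mem_zero 0
  | insert i s hi ih =>
    rw [sum_insert hi, sum_insert hi]
    exact h.mem_add (ha i (mem_insert_self i s))
      (sum_nonneg fun j hj => ha j (mem_insert_of_mem hj)) (hf i (mem_insert_self i s))
      (ih (fun j hj => ha j (mem_insert_of_mem hj)) fun j hj => hf j (mem_insert_of_mem hj))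

theorem Qi_coeff (h : CS K C0) {P Q : Polynomial A} {B B0 : ℝ} (hB : 0 ≤ B) (hB0 : 0 ≤ B0)
    {k : ℕ} (hP : ∀ j ≤ k, P.coeff j ∈ B • K) (hQ : ∀ j ≤ k, Q.coeff j ∈ B0 • K) (i : ℕ) :
    ∀ j ≤ k, (Qi P Q i).coeff j ∈ (B0 * ((k + 1) * B * C0) ^ i) • K := by
  induction i with
  | zero =>
    intro j hj
    rw [Qi, pow_zero, mul_one]
    exact hQ j hj
  | succ i ih =>
    intro j hj
    rw [Qi, coeff_bracket]
    have h2 := h.mem_sum (antidiagonal j) (fun _ => B * (B0 * ((k + 1) * B * C0) ^ i) * C0)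
      (fun x => P.coeff x.1 * (Qi P Q i).coeff x.2 - (Qi P Q i).coeff x.2 * P.coeff x.1)
      (fun _ _ => by have := h.nonneg; positivity)
      (fun x hx => by
        rw [HasAntidiagonal.mem_antidiagonal] at hx
        exact h.mem_br (hP x.1 (by omega)) (ih x.2 (by omega)))
    refine h.mem_mono ?_ ?_ h2
    · exact sum_nonneg fun _ _ => by have := h.nonneg; positivity
    · rw [sum_const, Finset.Nat.card_antidiagonal, nsmul_eq_mul, pow_succ]
      have h3 : ((j + 1 : ℕ) : ℝ) ≤ k + 1 := by exact_mod_cast Nat.succ_le_succ hj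
      have h4 : 0 ≤ B * (B0 * ((k + 1) * B * C0) ^ i) * C0 := by have := h.nonneg; positivity
      calc ((j + 1 : ℕ) : ℝ) * (B * (B0 * ((k + 1) * B * C0) ^ i) * C0)
          ≤ (k + 1) * (B * (B0 * ((k + 1) * B * C0) ^ i) * C0) := mul_le_mul_of_nonneg_right h3 h4
        _ = _ := by ring

/-- the constants -/
noncomputable def BB (a : Polynomial ℝ) (C0 : ℝ) (B0 : ℕ → ℝ) : ℕ → ℝ
  | 0 => 1
  | k + 1 => BB a C0 B0 k + ∑ i ∈ range (a.natDegree + 1), |a.coeff i| *
      (B0 k * ((k + 1) * BB a C0 B0 k * C0) ^ i)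

theorem BB_nonneg (a : Polynomial ℝ) {C0 : ℝ} (h : 0 ≤ C0) {B0 : ℕ → ℝ} (hB0 : ∀ k, 0 ≤ B0 k)
    (k : ℕ) : 0 ≤ BB a C0 B0 k := by
  induction k with
  | zero => simp [BB]
  | succ k ih => rw [BB]; have := hB0 k; positivity

theorem coeff_succ_eq (P : Polynomial A) (k : ℕ) :
    P.coeff (k + 1) = ((k + 1 : ℕ) : ℝ)⁻¹ • (Polynomial.derivative P).coeff k := by
  rw [Polynomial.coeff_derivative]
  have h4 : P.coeff (k + 1) * ((k : A) + 1) = ((k + 1 : ℕ) : ℝ) • P.coeff (k + 1) := by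
    rw [Nat.cast_smul_eq_nsmul, nsmul_eq_mul, Nat.cast_succ]
    exact ((Nat.cast_commute k _).add_left (Commute.one_left _)).eq.symm
  rw [h4, inv_smul_smul₀]
  positivity

theorem P_coeff (h : CS K C0) (a : Polynomial ℝ) {P Q : Polynomial A} {B0 : ℕ → ℝ}
    (hB0 : ∀ k, 0 ≤ B0 k) (h0 : P.coeff 0 ∈ K) (hQ : ∀ k, ∀ j ≤ k, Q.coeff j ∈ B0 k • K)
    (hP : Polynomial.derivative P = ∑ i ∈ range (a.natDegree + 1), a.coeff i • Qi P Q i) (k : ℕ) :
    ∀ j ≤ k, P.coeff j ∈ (BB a C0 B0 k) • K := by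
  induction k with
  | zero =>
    intro j hj
    obtain rfl : j = 0 := by omega
    rw [BB, one_smul]; exact h0
  | succ k ih =>
    intro j hj
    have hBk := BB_nonneg a h.nonneg hB0 k
    have hS : 0 ≤ ∑ i ∈ range (a.natDegree + 1), |a.coeff i| *
      (B0 k * ((k + 1) * BB a C0 B0 k * C0) ^ i) := by
      have := h.nonneg; have := hB0 k; positivity
    rcases Nat.lt_or_ge j (k + 1) with hj2 | hj2
    · refine h.mem_mono hBk ?_ (ih j (by omega))
      rw [BB]; linarith
    · obtain rfl : j = k + 1 := by omega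
      have h1 := congrArg (fun q => Polynomial.coeff q k) hP
      simp only [Polynomial.finsetSum_coeff, Polynomial.coeff_smul] at h1
      have h2 : ∑ i ∈ range (a.natDegree + 1), a.coeff i • (Qi P Q i).coeff k ∈
          (∑ i ∈ range (a.natDegree + 1), |a.coeff i| *
            (B0 k * ((k + 1) * BB a C0 B0 k * C0) ^ i)) • K := by
        refine h.mem_sum _ _ _ (fun i _ => by have := h.nonneg; have := hB0 k; positivity)
          fun i _ => ?_
        exact h.mem_smul _ (Qi_coeff h hBk (hB0 k) ih (hQ k) i k le_rfl)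
      rw [← h1] at h2
      rw [coeff_succ_eq]
      have h5 := h.mem_smul (((k + 1 : ℕ) : ℝ)⁻¹) h2
      have h6 : |(((k + 1 : ℕ) : ℝ)⁻¹)| ≤ 1 := by
        rw [abs_of_nonneg (by positivity)]
        refine inv_le_one_of_one_le₀ ?_
        exact_mod_cast Nat.succ_le_succ (Nat.zero_le k)
      refine h.mem_mono (mul_nonneg (abs_nonneg _) hS) ?_ h5
      rw [BB]
      calc _ ≤ 1 * _ := mul_le_mul_of_nonneg_right h6 hS
        _ ≤ _ := by rw [one_mul]; linarith

/-- submodule version -/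
theorem Qi_coeff_mem {H I I' : Submodule ℝ A} (hI' : I' ≤ I)
    (hb : ∀ x ∈ H, ∀ y ∈ I, x * y - y * x ∈ I') {P Q : Polynomial A} {k : ℕ}
    (hP : ∀ j ≤ k, P.coeff j ∈ H) (hQ : ∀ j ≤ k, Q.coeff j ∈ I) (i : ℕ) :
    ∀ j ≤ k, (Qi P Q (i + 1)).coeff j ∈ I' := by
  induction i with
  | zero =>
    intro j hj
    rw [Qi, Qi, coeff_bracket]
    refine Submodule.sum_mem _ fun x hx => ?_
    rw [HasAntidiagonal.mem_antidiagonal] at hx
    exact hb _ (hP x.1 (by omega)) _ (hQ x.2 (by omega))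
  | succ i ih =>
    intro j hj
    rw [Qi, coeff_bracket]
    refine Submodule.sum_mem _ fun x hx => ?_
    rw [HasAntidiagonal.mem_antidiagonal] at hx
    exact hb _ (hP x.1 (by omega)) _ (hI' (ih x.2 (by omega)))

end sets

section main

variable {A : Type*} [NormedRing A] [NormedAlgebra ℝ A] {m : ℕ}

theorem ev_Qi (s : ℝ) (P Q : Polynomial A) (i : ℕ) :
    ev s (Qi P Q i) = ((adL (ev s P)) ^ i) (ev s Q) := by
  induction i with
  | zero => rw [Qi]; rfl
  | succ i ih =>
    rw [Qi, map_sub, map_mul, map_mul, ih, pow_succ', Module.End.mul_apply, adL_apply]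

theorem aeval_Qi (s : ℝ) (P Q : Polynomial A) (a : Polynomial ℝ) :
    ev s (∑ i ∈ range (a.natDegree + 1), a.coeff i • Qi P Q i) =
      (Polynomial.aeval (adL (ev s P)) a) (ev s Q) := by
  rw [map_sum, Polynomial.aeval_eq_sum_range, LinearMap.sum_apply]
  refine sum_congr rfl fun i _ => ?_
  rw [map_smul, ev_Qi]
  rfl

/-- truncated exponential of a polynomial -/
noncomputable def exP (m : ℕ) (P : Polynomial A) : Polynomial A :=
  ∑ j ∈ range m, ((j.factorial : ℝ)⁻¹) • P ^ j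

theorem ev_exP (P : Polynomial A) (s : ℝ) : ev s (exP m P) = ex m (ev s P) := by
  unfold exP ex
  rw [map_sum]
  exact sum_congr rfl fun j _ => by rw [map_smul, map_pow]

theorem exP_natDegree {P : Polynomial A} (h : P.natDegree ≤ 1) : (exP m P).natDegree ≤ m := by
  unfold exP
  refine Polynomial.natDegree_sum_le_of_forall_le _ _ fun j hj => ?_
  refine (Polynomial.natDegree_smul_le _ _).trans ?_
  refine Polynomial.natDegree_pow_le.trans ?_
  calc j * _ ≤ j * 1 := Nat.mul_le_mul_left j h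
    _ ≤ m := by have := mem_range.1 hj; omega

/-- the polynomial `log (g * exp P)` -/
noncomputable def PP (m : ℕ) (g : A) (P : Polynomial A) : Polynomial A :=
  ∑ k ∈ range m, be k • (Polynomial.C g * exP m P - 1) ^ k

theorem ev_PP (g : A) (P : Polynomial A) (s : ℝ) :
    ev s (PP m g P) = lg m (g * ex m (ev s P)) := by
  unfold PP lg
  rw [map_sum]
  refine sum_congr rfl fun k _ => ?_
  rw [map_smul, map_pow, map_sub, map_one, map_mul, ev_C, ev_exP]

theorem PP_natDegree (g : A) {P : Polynomial A} (h : P.natDegree ≤ 1) :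
    (PP m g P).natDegree ≤ m * m := by
  unfold PP
  refine Polynomial.natDegree_sum_le_of_forall_le _ _ fun k hk => ?_
  refine (Polynomial.natDegree_smul_le _ _).trans ?_
  refine Polynomial.natDegree_pow_le.trans ?_
  have hk2 := (mem_range.1 hk).le
  refine Nat.mul_le_mul hk2 ?_
  refine (Polynomial.natDegree_sub_le _ _).trans ?_
  refine max_le ?_ (by simp)
  refine Polynomial.natDegree_mul_le.trans ?_
  rw [Polynomial.natDegree_C, zero_add]
  exact exP_natDegree h


theorem ev_lin (X Y : A) (s : ℝ) : ev s (lin X Y) = X + s • Y := by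
  unfold lin
  rw [map_add, map_mul, ev_C, ev_C, ev_X, ← Algebra.commutes, ← Algebra.smul_def]


theorem PP_deriv (hm : 0 < m) {g X Y : A}
    (hXY : ∀ s : ℝ, (X + s • Y) ^ m = 0)
    (hu : ∀ s : ℝ, (g * ex m (X + s • Y) - 1) ^ m = 0) :
    Polynomial.derivative (PP m g (lin X Y)) = ∑ i ∈ range ((aa m hm).natDegree + 1),
      (aa m hm).coeff i • Qi (PP m g (lin X Y))
        (∑ i ∈ range ((psi m).natDegree + 1), (psi m).coeff i • Qi (lin X Y) (Polynomial.C Y) i)
        i := by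
  rw [← sub_eq_zero]
  refine ev_injective fun s => ?_
  rw [map_sub, sub_eq_zero, aeval_Qi, aeval_Qi, ev_C, ev_lin]
  set P := PP m g (lin X Y) with hP
  set Z := ev s P with hZ
  set X1 := X + s • Y with hX1
  have hev : ∀ t : ℝ, ev t P = lg m (g * ex m (X + t • Y)) := fun t => by
    rw [hP, ev_PP, ev_lin]
  have hZm : Z ^ m = 0 := by rw [hZ, hev]; exact lg_pow (hu s)
  have hc : HasDerivAt (fun h : ℝ => ev (s + h) P) (ev s (Polynomial.derivative P)) 0 := by
    have h2 : HasDerivAt (fun s => ev s P) (ev s (Polynomial.derivative P)) (s + 0) := by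
      rw [add_zero]; exact hasDerivAt_ev P s
    exact h2.comp_const_add s 0
  set W := ev s (Polynomial.derivative P) with hW
  have hc0 : ev (s + 0) P = Z := by rw [add_zero]
  have hexc : ∀ h : ℝ, ex m (ev (s + h) P) = g * ex m (X1 + h • Y) := by
    intro h
    rw [hev, ex_lg hm (hu _), hX1, add_smul, add_assoc]
  have hE : Ek Z W m = 0 := by
    have h1 := hasDerivAt_pow_curve hc m
    rw [hc0] at h1
    have h2 : (fun h : ℝ => (ev (s + h) P) ^ m) = fun _ => 0 := by
      funext h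
      rw [hev]
      exact lg_pow (hu _)
    rw [h2] at h1
    exact h1.unique (hasDerivAt_const (0 : ℝ) (0 : A))
  have hd : HasDerivAt (fun h : ℝ => X1 + h • Y) Y 0 := by
    have h1 := (hasDerivAt_id (0 : ℝ)).smul_const Y
    rw [one_smul] at h1
    exact h1.const_add X1
  have hd0 : X1 + (0 : ℝ) • Y = X1 := by rw [zero_smul, add_zero]
  have hE1 : Ek X1 Y m = 0 := by
    have h1 := hasDerivAt_pow_curve hd m
    rw [hd0] at h1
    have h2 : (fun h : ℝ => (X1 + h • Y) ^ m) = fun _ => 0 := by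
      funext h
      rw [hX1, add_assoc, ← add_smul]
      exact hXY _
    rw [h2] at h1
    exact h1.unique (hasDerivAt_const (0 : ℝ) (0 : A))
  have h1 := hasDerivAt_ex_curve (m := m) hc 1
  rw [hc0] at h1
  have h2 : HasDerivAt (fun h : ℝ => ex m ((1 : ℝ) • ev (s + h) P)) (g * Dt m X1 Y 1) 0 := by
    have h3 : (fun h : ℝ => ex m ((1 : ℝ) • ev (s + h) P)) =
        fun h : ℝ => g * ex m ((1 : ℝ) • (X1 + h • Y)) := by
      funext h
      rw [one_smul, one_smul, hexc]
    rw [h3]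
    have h4 := hasDerivAt_ex_curve (m := m) hd 1
    rw [hd0] at h4
    exact h4.const_mul g
  have h3 := h1.unique h2
  have hX1m : X1 ^ m = 0 := hXY s
  have h4 := dexp_formula hm hZm hE 1
  have h5 := dexp_formula hm hX1m hE1 1
  rw [h3] at h4
  simp only [neg_smul, one_smul] at h4 h5
  have hZg : ex m (-Z) * g = ex m (-X1) := by
    have e1 := hexc 0
    rw [hc0, hd0] at e1
    have e2 : ex m (-Z) * (g * ex m X1) = 1 := by rw [← e1]; exact ex_neg_mul hm hZm
    calc ex m (-Z) * g = ex m (-Z) * g * (ex m X1 * ex m (-X1)) := by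
          rw [ex_mul_neg hm hX1m, mul_one]
      _ = ex m (-Z) * (g * ex m X1) * ex m (-X1) := by simp only [mul_assoc]
      _ = _ := by rw [e2, one_mul]
  rw [← mul_assoc, hZg, h5] at h4
  have h6 := aeval_aa hm hZm W
  rw [← h4] at h6
  rw [← h6, St_eq_aeval]

/-- coefficients of the inhomogeneous term -/
noncomputable def B1 (m : ℕ) (C0 : ℝ) (k : ℕ) : ℝ :=
  ∑ i ∈ range ((psi m).natDegree + 1), |(psi m).coeff i| * (1 * ((k + 1) * 1 * C0) ^ i)

theorem B1_nonneg (m : ℕ) {C0 : ℝ} (h : 0 ≤ C0) (k : ℕ) : 0 ≤ B1 m C0 k := by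
  unfold B1; positivity

theorem inh_coeff {K : Set A} {C0 : ℝ} (hK : CS K C0) {X Y : A} (hX : X ∈ K) (hY : Y ∈ K)
    (k : ℕ) : ∀ j ≤ k,
    (∑ i ∈ range ((psi m).natDegree + 1), (psi m).coeff i • Qi (lin X Y) (Polynomial.C Y) i).coeff j
      ∈ B1 m C0 k • K := by
  intro j hj
  rw [Polynomial.finsetSum_coeff]
  simp only [Polynomial.coeff_smul]
  refine hK.mem_sum _ _ _ (fun i _ => by have := hK.nonneg; positivity) fun i _ => ?_
  refine hK.mem_smul _ (Qi_coeff hK zero_le_one zero_le_one ?_ ?_ i j hj)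
  · intro l _
    rw [lin_coeff, one_smul]
    split_ifs
    · exact hX
    · exact hY
    · exact hK.zero
  · intro l _
    rw [Polynomial.coeff_C, one_smul]
    split_ifs
    · exact hY
    · exact hK.zero

/-- general quantitative statement: `log (g exp (X + c Y)) - log (g exp X) ∈ C c K` if
`log (g exp X) ∈ K` -/
theorem qbch_gen (hm : 0 < m) {C0 : ℝ} (hC0 : 0 ≤ C0) : ∃ C : ℝ, 0 ≤ C ∧
    ∀ (K : Set A), CS K C0 → ∀ X ∈ K, ∀ Y ∈ K, ∀ g : A,
    (∀ s : ℝ, (X + s • Y) ^ m = 0) → (∀ s : ℝ, (g * ex m (X + s • Y) - 1) ^ m = 0) →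
    lg m (g * ex m X) ∈ K →
    ∀ c : ℝ, 0 ≤ c → c ≤ 1 → lg m (g * ex m (X + c • Y)) - lg m (g * ex m X) ∈ (C * c) • K := by
  set a := aa m hm with ha
  refine ⟨∑ k ∈ range (m * m), BB a C0 (B1 m C0) (m * m),
    sum_nonneg fun _ _ => BB_nonneg a hC0 (B1_nonneg m hC0) _, ?_⟩
  intro K hK X hX Y hY g hXY hu h0K c hc0 hc1
  have hBn := BB_nonneg a hC0 (B1_nonneg m hC0) (m * m)
  have hdeg := PP_natDegree (m := m) g (lin_natDegree X Y)
  have h0 : (PP m g (lin X Y)).coeff 0 = lg m (g * ex m X) := by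
    have h1 := ev_PP (m := m) g (lin X Y) 0
    rw [ev_lin, zero_smul, add_zero,
      ev_eq_sum 0 _ (m * m + 1) (Nat.lt_succ_of_le hdeg), sum_range_succ'] at h1
    simpa using h1
  have hco := P_coeff hK a (B1_nonneg m hC0) (by rw [h0]; exact h0K)
    (fun k => inh_coeff (m := m) hK hX hY k) (PP_deriv hm hXY hu) (m * m)
  have h1 := ev_PP (m := m) g (lin X Y) c
  rw [ev_lin, ev_eq_sum c _ (m * m + 1) (Nat.lt_succ_of_le hdeg), sum_range_succ',
    pow_zero, one_smul, h0] at h1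
  rw [← h1, add_sub_cancel_right, sum_mul]
  refine hK.mem_sum _ _ _ (fun _ _ => mul_nonneg hBn hc0) fun k hk => ?_
  have h2 := hK.mem_smul (c ^ (k + 1)) (hco (k + 1) (mem_range.1 hk))
  refine hK.mem_mono (mul_nonneg (abs_nonneg _) hBn) ?_ h2
  rw [abs_of_nonneg (by positivity), mul_comm]
  refine mul_le_mul_of_nonneg_left ?_ hBn
  calc c ^ (k + 1) = c ^ k * c := pow_succ c k
    _ ≤ 1 * c := mul_le_mul_of_nonneg_right (pow_le_one₀ hc0 hc1) hc0
    _ = c := one_mul c

/-- algebraic BCH modulo brackets: `log (g exp (X + Y)) ≡ log (g exp X) + Y` modulo `[H, I]` -/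
theorem bch_mod_gen (hm : 0 < m) {H I I' : Submodule ℝ A} (hI : I ≤ H) (hI' : I' ≤ I)
    (hb : ∀ x ∈ H, ∀ y ∈ I, x * y - y * x ∈ I') {g X Y : A} (hX : X ∈ H) (hY : Y ∈ I)
    (hXY : ∀ s : ℝ, (X + s • Y) ^ m = 0) (hu : ∀ s : ℝ, (g * ex m (X + s • Y) - 1) ^ m = 0)
    (h0 : lg m (g * ex m X) ∈ H) :
    lg m (g * ex m (X + Y)) - lg m (g * ex m X) - Y ∈ I' := by
  set P := PP m g (lin X Y) with hP
  set Q : Polynomial A := ∑ i ∈ range ((psi m).natDegree + 1),
    (psi m).coeff i • Qi (lin X Y) (Polynomial.C Y) i with hQ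
  have hlin : ∀ j, (lin X Y).coeff j ∈ H := by
    intro j
    rw [lin_coeff]
    split_ifs
    · exact hX
    · exact hI hY
    · exact H.zero_mem
  have hCY : ∀ j, (Polynomial.C Y).coeff j ∈ I := by
    intro j
    rw [Polynomial.coeff_C]
    split_ifs
    · exact hY
    · exact I.zero_mem
  have hQ1 : ∀ j, Q.coeff j - (if j = 0 then Y else 0) ∈ I' := by
    intro j
    rw [hQ, Polynomial.finsetSum_coeff, sum_range_succ', Polynomial.coeff_smul,
      psi_coeff_zero hm, one_smul, Qi, Polynomial.coeff_C, add_sub_cancel_right]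
    refine I'.sum_mem fun i _ => ?_
    rw [Polynomial.coeff_smul]
    exact I'.smul_mem _ (Qi_coeff_mem hI' hb (k := j) (fun l _ => hlin l) (fun l _ => hCY l)
      i j le_rfl)
  have hQ2 : ∀ j, Q.coeff j ∈ I := by
    intro j
    have h1 := I.add_mem (hI' (hQ1 j)) (show (if j = 0 then Y else 0) ∈ I by
      split_ifs
      · exact hY
      · exact I.zero_mem)
    rwa [sub_add_cancel] at h1
  have hdeg := PP_natDegree (m := m) g (lin_natDegree X Y)
  have hP0 : P.coeff 0 = lg m (g * ex m X) := by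
    have h1 := ev_PP (m := m) g (lin X Y) 0
    rw [ev_lin, zero_smul, add_zero,
      ev_eq_sum 0 _ (m * m + 1) (Nat.lt_succ_of_le hdeg), sum_range_succ'] at h1
    simpa using h1
  have hD := PP_deriv hm hXY hu
  rw [← hP, ← hQ] at hD
  have key : ∀ k, (∀ j ≤ k, P.coeff j ∈ H) →
      (Polynomial.derivative P).coeff k - (if k = 0 then Y else 0) ∈ I' := by
    intro k hk
    rw [hD, Polynomial.finsetSum_coeff, sum_range_succ', Polynomial.coeff_smul,
      aa_coeff_zero hm, one_smul, Qi, add_sub_assoc]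
    refine I'.add_mem (I'.sum_mem fun i _ => ?_) (hQ1 k)
    rw [Polynomial.coeff_smul]
    exact I'.smul_mem _ (Qi_coeff_mem hI' hb (k := k) hk (fun l _ => hQ2 l) i k le_rfl)
  have hH : ∀ k, ∀ j ≤ k, P.coeff j ∈ H := by
    intro k
    induction k with
    | zero =>
      intro j hj
      obtain rfl : j = 0 := by omega
      rw [hP0]; exact h0
    | succ k ih =>
      intro j hj
      rcases Nat.lt_or_ge j (k + 1) with hj2 | hj2
      · exact ih j (by omega)
      · obtain rfl : j = k + 1 := by omega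
        rw [coeff_succ_eq]
        refine H.smul_mem _ ?_
        have h1 := H.add_mem (hI (hI' (key k ih))) (show (if k = 0 then Y else 0) ∈ H by
          split_ifs
          · exact hI hY
          · exact H.zero_mem)
        rwa [sub_add_cancel] at h1
  have key2 : ∀ k, P.coeff (k + 1) - (if k = 0 then Y else 0) ∈ I' := by
    intro k
    have h1 := I'.smul_mem (((k + 1 : ℕ) : ℝ)⁻¹) (key k (hH k))
    rw [smul_sub, ← coeff_succ_eq] at h1
    have h2 : (((k + 1 : ℕ) : ℝ)⁻¹) • (if k = 0 then Y else 0) = (if k = 0 then Y else 0) := by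
      rcases Nat.eq_zero_or_pos k with rfl | hk
      · simp
      · rw [if_neg (by omega), smul_zero]
    rwa [h2] at h1
  have h1 := ev_PP (m := m) g (lin X Y) 1
  rw [ev_lin, one_smul, ev_eq_sum 1 _ (m * m + 1) (Nat.lt_succ_of_le hdeg),
    sum_range_succ', ← hP, hP0] at h1
  simp only [one_pow, one_smul] at h1
  rw [← h1, add_sub_cancel_right]
  have h2 : (∑ k ∈ range (m * m), P.coeff (k + 1)) - Y =
      ∑ k ∈ range (m * m), (P.coeff (k + 1) - (if k = 0 then Y else 0)) := by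
    rw [sum_sub_distrib]
    congr 1
    rw [sum_ite_eq' (range (m * m)) 0 (fun _ => Y), if_pos]
    rw [mem_range]; positivity
  rw [h2]
  exact I'.sum_mem fun k _ => key2 k

theorem ex_zero (hm : 0 < m) : ex m (0 : A) = 1 := by
  have := ex_zero_smul hm (0 : A)
  rwa [smul_zero] at this

theorem lg_one : lg m (1 : A) = 0 := by
  unfold lg
  refine sum_eq_zero fun k _ => ?_
  rcases Nat.eq_zero_or_pos k with rfl | hk
  · rw [be_zero, zero_smul]
  · rw [sub_self, zero_pow (by omega), smul_zero]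

/-- **quantitative BCH**, product form -/
theorem qbch (hm : 0 < m) {C0 : ℝ} (hC0 : 0 ≤ C0) : ∃ C : ℝ, 0 ≤ C ∧
    ∀ (K : Set A), CS K C0 → ∀ X ∈ K, ∀ Y ∈ K, X ^ m = 0 → Y ^ m = 0 →
    (∀ s : ℝ, (ex m X * ex m (s • Y) - 1) ^ m = 0) →
    ∀ c : ℝ, 0 ≤ c → c ≤ 1 → lg m (ex m X * ex m (c • Y)) - X ∈ (C * c) • K := by
  obtain ⟨C, hC, H⟩ := qbch_gen (A := A) hm hC0
  refine ⟨C, hC, fun K hK X hX Y hY hXm hYm hXY c hc0 hc1 => ?_⟩
  have h0 : lg m (ex m X * ex m (0 : A)) = X := by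
    rw [ex_zero hm, mul_one, lg_ex hm hXm]
  have h1 := H K hK 0 hK.zero Y hY (ex m X)
    (fun s => by rw [zero_add, smul_pow, hYm, smul_zero]) (fun s => by rw [zero_add]; exact hXY s)
    (by rw [h0]; exact hX) c hc0 hc1
  rw [zero_add, h0] at h1
  exact h1

/-- **quantitative BCH**, quotient form -/
theorem qbch_quot (hm : 0 < m) {C0 : ℝ} (hC0 : 0 ≤ C0) : ∃ C : ℝ, 0 ≤ C ∧
    ∀ (K : Set A), CS K C0 → ∀ X ∈ K, ∀ Y ∈ K, (∀ s : ℝ, (X + s • Y) ^ m = 0) →
    (∀ s : ℝ, (ex m (-X) * ex m (X + s • Y) - 1) ^ m = 0) →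
    ∀ c : ℝ, 0 ≤ c → c ≤ 1 → lg m (ex m (-X) * ex m (X + c • Y)) ∈ (C * c) • K := by
  obtain ⟨C, hC, H⟩ := qbch_gen (A := A) hm hC0
  refine ⟨C, hC, fun K hK X hX Y hY hXY hu c hc0 hc1 => ?_⟩
  have hXm : X ^ m = 0 := by simpa using hXY 0
  have h0 : lg m (ex m (-X) * ex m X) = 0 := by rw [ex_neg_mul hm hXm, lg_one]
  have h1 := H K hK X hX Y hY (ex m (-X)) hXY hu
    (by rw [h0]; exact hK.zero) c hc0 hc1
  rw [h0, sub_zero] at h1
  exact h1

end main

end Vale.Agent.P188.H615
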